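import Vale.Agent.P106.U.Cell

/-!
# P106 / U : margin calculus of the cells of light rays (helper101)

* `Nr F l l' s dv dw dX dN dz dc dg` : closeness of two rays at the time `s` and of the values of `F` on them.
* `Nr.evolve` : other time; `g_cmp`, `gd_cmp` : other functional (no `dN` term).
-/

set_option autoImplicit false

namespace Vale.Agent.P106.U.Cell

open Finset Vale.Agent.P127 Vale.Agent.P127.Stk
open Vale.Agent.P127.U.CellD

/-! ### two functionals -/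

namespace Fu

/-- values on two rays: comparison of two functionals -/
lemma g_cmp (F G : Fu) (l l' : Ray) (s : ℝ) (h : F.cN l s ≠ 0) :
    G.g l' s - G.g l s = G.cN l s / F.cN l s * (F.g l' s - F.g l s) +
      (G.cN l s / F.cN l s * F.cV l s - G.cV l s) * (l'.X s - l.X s) +
      (G.cN l s / F.cN l s * F.ka - G.ka) * l.dz l' s +
      (G.cN l s / F.cN l s * F.al - G.al) *
        (((l'.X s - l.X s) ^ 2 + (l'.N s - l.N s) ^ 2) / 2) := by
  rw [g_sub F, g_sub G]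
  field_simp
  ring

/-- derivatives on two rays: comparison of two functionals -/
lemma gd_cmp (F G : Fu) (l l' : Ray) (s : ℝ) (h : F.cN l s ≠ 0) :
    G.gd l' s - G.gd l s = G.cN l s / F.cN l s * (F.gd l' s - F.gd l s) +
      (G.cN l s / F.cN l s * F.cV l s - G.cV l s) * (l'.v - l.v) +
      (G.cN l s / F.cN l s * F.ka - G.ka) * (((l'.v - l.v) ^ 2 + (l'.w - l.w) ^ 2) / 2) +
      (G.cN l s / F.cN l s * F.al - G.al) *
        ((l'.X s - l.X s) * (l'.v - l.v) + (l'.N s - l.N s) * (l'.w - l.w) - l.dz l' s) := by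
  rw [gd_sub F, gd_sub G]
  field_simp
  ring

end Fu

/-- closeness of two rays at the time `s`, and of the values of the functional `F` -/
structure Nr (F : Fu) (l l' : Ray) (s dv dw dX dN dz dc dg : ℝ) : Prop where
  v : |l'.v - l.v| ≤ dv
  w : |l'.w - l.w| ≤ dw
  X : |l'.X s - l.X s| ≤ dX
  N : |l'.N s - l.N s| ≤ dN
  z : |l.dz l' s| ≤ dz
  c : |F.gd l' s - F.gd l s| ≤ dc
  g : |F.g l' s - F.g l s| ≤ dg

namespace Nr

variable {F G : Fu} {l l' : Ray} {s dv dw dX dN dz dc dg : ℝ}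

lemma dv0 (h : Nr F l l' s dv dw dX dN dz dc dg) : 0 ≤ dv := (abs_nonneg _).trans h.v
lemma dw0 (h : Nr F l l' s dv dw dX dN dz dc dg) : 0 ≤ dw := (abs_nonneg _).trans h.w
lemma dX0 (h : Nr F l l' s dv dw dX dN dz dc dg) : 0 ≤ dX := (abs_nonneg _).trans h.X
lemma dN0 (h : Nr F l l' s dv dw dX dN dz dc dg) : 0 ≤ dN := (abs_nonneg _).trans h.N
lemma dz0 (h : Nr F l l' s dv dw dX dN dz dc dg) : 0 ≤ dz := (abs_nonneg _).trans h.z
lemma dc0 (h : Nr F l l' s dv dw dX dN dz dc dg) : 0 ≤ dc := (abs_nonneg _).trans h.c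
lemma dg0 (h : Nr F l l' s dv dw dX dN dz dc dg) : 0 ≤ dg := (abs_nonneg _).trans h.g

/-- larger bounds -/
lemma mono {ev ew eX eN ez ec eg : ℝ} (h : Nr F l l' s dv dw dX dN dz dc dg) (h1 : dv ≤ ev)
    (h2 : dw ≤ ew) (h3 : dX ≤ eX) (h4 : dN ≤ eN) (h5 : dz ≤ ez) (h6 : dc ≤ ec) (h7 : dg ≤ eg) :
    Nr F l l' s ev ew eX eN ez ec eg :=
  ⟨h.v.trans h1, h.w.trans h2, h.X.trans h3, h.N.trans h4, h.z.trans h5, h.c.trans h6, h.g.trans h7⟩

/-- other time -/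
lemma evolve (h : Nr F l l' s dv dw dX dN dz dc dg) {d a : ℝ} (hd : |d| ≤ a) :
    Nr (F.sh d) l l' (s + d) dv dw (dX + a * dv) (dN + a * dw) (dz + a * ((dv ^ 2 + dw ^ 2) / 2)) dc
      (dg + a * dc) := by
  have a0 : 0 ≤ a := (abs_nonneg _).trans hd
  have hv2 : (l'.v - l.v) ^ 2 ≤ dv ^ 2 := sq_le_sq' (by linarith [abs_le.1 h.v]) (abs_le.1 h.v).2
  have hw2 : (l'.w - l.w) ^ 2 ≤ dw ^ 2 := sq_le_sq' (by linarith [abs_le.1 h.w]) (abs_le.1 h.w).2
  refine ⟨h.v, h.w, ?_, ?_, ?_, ?_, ?_⟩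
  · rw [l'.X_add, l.X_add, show l'.X s + d * l'.v - (l.X s + d * l.v) =
      (l'.X s - l.X s) + d * (l'.v - l.v) by ring]
    refine (abs_add_le _ _).trans (add_le_add h.X ?_)
    rw [abs_mul]
    exact mul_le_mul hd h.v (abs_nonneg _) a0
  · rw [l'.N_add, l.N_add, show l'.N s + d * l'.w - (l.N s + d * l.w) =
      (l'.N s - l.N s) + d * (l'.w - l.w) by ring]
    refine (abs_add_le _ _).trans (add_le_add h.N ?_)
    rw [abs_mul]
    exact mul_le_mul hd h.w (abs_nonneg _) a0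
  · rw [Ray.dz_add]
    refine (abs_add_le _ _).trans (add_le_add h.z ?_)
    rw [abs_mul]
    refine mul_le_mul hd ?_ (abs_nonneg _) a0
    rw [abs_of_nonneg (by positivity)]
    linarith
  · rw [Fu.gd_sh, Fu.gd_sh]
    exact h.c
  · rw [Fu.g_sh, Fu.g_sh, show F.g l' s + d * F.gd l' s - (F.g l s + d * F.gd l s) =
      (F.g l' s - F.g l s) + d * (F.gd l' s - F.gd l s) by ring]
    refine (abs_add_le _ _).trans (add_le_add h.g ?_)
    rw [abs_mul]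
    exact mul_le_mul hd h.c (abs_nonneg _) a0

/-- other functional: `eV` bounds `r cV_F - cV_G`, `ek` bounds `r ka_F - ka_G`, `ea` bounds `r al_F - al_G` -/
lemma cmp (h : Nr F l l' s dv dw dX dN dz dc dg) (hF : F.cN l s ≠ 0) {r0 eV ek ea : ℝ}
    (hr : |G.cN l s / F.cN l s| ≤ r0)
    (hV : |G.cN l s / F.cN l s * F.cV l s - G.cV l s| ≤ eV)
    (hk : |G.cN l s / F.cN l s * F.ka - G.ka| ≤ ek)
    (hal : |G.cN l s / F.cN l s * F.al - G.al| ≤ ea) :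
    Nr G l l' s dv dw dX dN dz
      (r0 * dc + eV * dv + ek * ((dv ^ 2 + dw ^ 2) / 2) + ea * (dX * dv + dN * dw + dz))
      (r0 * dg + eV * dX + ek * dz + ea * ((dX ^ 2 + dN ^ 2) / 2)) := by
  have hv2 : (l'.v - l.v) ^ 2 ≤ dv ^ 2 := sq_le_sq' (by linarith [abs_le.1 h.v]) (abs_le.1 h.v).2
  have hw2 : (l'.w - l.w) ^ 2 ≤ dw ^ 2 := sq_le_sq' (by linarith [abs_le.1 h.w]) (abs_le.1 h.w).2
  have hX2 : (l'.X s - l.X s) ^ 2 ≤ dX ^ 2 :=
    sq_le_sq' (by linarith [abs_le.1 h.X]) (abs_le.1 h.X).2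
  have hN2 : (l'.N s - l.N s) ^ 2 ≤ dN ^ 2 :=
    sq_le_sq' (by linarith [abs_le.1 h.N]) (abs_le.1 h.N).2
  have r00 : 0 ≤ r0 := (abs_nonneg _).trans hr
  have eV0 : 0 ≤ eV := (abs_nonneg _).trans hV
  have ek0 : 0 ≤ ek := (abs_nonneg _).trans hk
  have ea0 : 0 ≤ ea := (abs_nonneg _).trans hal
  refine ⟨h.v, h.w, h.X, h.N, h.z, ?_, ?_⟩
  · rw [Fu.gd_cmp F G l l' s hF]
    refine (abs_add_le _ _).trans (add_le_add ((abs_add_le _ _).trans (add_le_add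
      ((abs_add_le _ _).trans (add_le_add ?_ ?_)) ?_)) ?_)
    · rw [abs_mul]; exact mul_le_mul hr h.c (abs_nonneg _) r00
    · rw [abs_mul]; exact mul_le_mul hV h.v (abs_nonneg _) eV0
    · rw [abs_mul]
      refine mul_le_mul hk ?_ (abs_nonneg _) ek0
      rw [abs_of_nonneg (by positivity)]
      linarith
    · rw [abs_mul]
      refine mul_le_mul hal ?_ (abs_nonneg _) ea0
      refine (abs_sub _ _).trans (add_le_add ((abs_add_le _ _).trans (add_le_add ?_ ?_)) h.z)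
      · rw [abs_mul]; exact mul_le_mul h.X h.v (abs_nonneg _) h.dX0
      · rw [abs_mul]; exact mul_le_mul h.N h.w (abs_nonneg _) h.dN0
  · rw [Fu.g_cmp F G l l' s hF]
    refine (abs_add_le _ _).trans (add_le_add ((abs_add_le _ _).trans (add_le_add
      ((abs_add_le _ _).trans (add_le_add ?_ ?_)) ?_)) ?_)
    · rw [abs_mul]; exact mul_le_mul hr h.g (abs_nonneg _) r00
    · rw [abs_mul]; exact mul_le_mul hV h.X (abs_nonneg _) eV0
    · rw [abs_mul]; exact mul_le_mul hk h.z (abs_nonneg _) ek0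
    · rw [abs_mul]
      refine mul_le_mul hal ?_ (abs_nonneg _) ea0
      rw [abs_of_nonneg (by positivity)]
      linarith

/-- the normal velocity is determined by the slab -/
lemma w_le (h : Nr F l l' s dv dw dX dN dz dc dg) {K : ℝ} (hK : 0 ≤ K) (hF : 1 ≤ K * F.cN l s)
    {V k a : ℝ} (hV : |F.cV l s| ≤ V) (hk : |F.ka| ≤ k) (hal : |F.al| ≤ a) :
    |l'.w - l.w| ≤ K * (dc + V * dv + k * ((dv ^ 2 + dw ^ 2) / 2) + a * (dX * dv + dN * dw + dz)) := by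
  have hc0 : F.cN l s ≠ 0 := by
    intro h0
    rw [h0, mul_zero] at hF
    linarith
  have e := Fu.gd_sub F l l' s
  have hv2 : (l'.v - l.v) ^ 2 ≤ dv ^ 2 := sq_le_sq' (by linarith [abs_le.1 h.v]) (abs_le.1 h.v).2
  have hw2 : (l'.w - l.w) ^ 2 ≤ dw ^ 2 := sq_le_sq' (by linarith [abs_le.1 h.w]) (abs_le.1 h.w).2
  have V0 : 0 ≤ V := (abs_nonneg _).trans hV
  have k0 : 0 ≤ k := (abs_nonneg _).trans hk
  have a0 : 0 ≤ a := (abs_nonneg _).trans hal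
  set B := dc + V * dv + k * ((dv ^ 2 + dw ^ 2) / 2) + a * (dX * dv + dN * dw + dz) with hB
  have hb : |F.cN l s * (l'.w - l.w)| ≤ B := by
    have e2 : F.cN l s * (l'.w - l.w) = (F.gd l' s - F.gd l s) + F.cV l s * (l'.v - l.v) +
        F.ka * (((l'.v - l.v) ^ 2 + (l'.w - l.w) ^ 2) / 2) +
        F.al * ((l'.X s - l.X s) * (l'.v - l.v) + (l'.N s - l.N s) * (l'.w - l.w) - l.dz l' s) := by
      rw [e]; ring
    rw [e2, hB]
    refine (abs_add_le _ _).trans (add_le_add ((abs_add_le _ _).trans (add_le_add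
      ((abs_add_le _ _).trans (add_le_add h.c ?_)) ?_)) ?_)
    · rw [abs_mul]; exact mul_le_mul hV h.v (abs_nonneg _) V0
    · rw [abs_mul]
      refine mul_le_mul hk ?_ (abs_nonneg _) k0
      rw [abs_of_nonneg (by positivity)]
      linarith
    · rw [abs_mul]
      refine mul_le_mul hal ?_ (abs_nonneg _) a0
      refine (abs_sub _ _).trans (add_le_add ((abs_add_le _ _).trans (add_le_add ?_ ?_)) h.z)
      · rw [abs_mul]; exact mul_le_mul h.X h.v (abs_nonneg _) h.dX0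
      · rw [abs_mul]; exact mul_le_mul h.N h.w (abs_nonneg _) h.dN0
  have h1 : |l'.w - l.w| = 1 * |l'.w - l.w| := (one_mul _).symm
  rw [h1]
  calc 1 * |l'.w - l.w| ≤ K * F.cN l s * |l'.w - l.w| :=
        mul_le_mul_of_nonneg_right hF (abs_nonneg _)
    _ ≤ |K * F.cN l s| * |l'.w - l.w| := mul_le_mul_of_nonneg_right (le_abs_self _) (abs_nonneg _)
    _ = |K| * |F.cN l s * (l'.w - l.w)| := by rw [abs_mul, abs_mul, mul_assoc]
    _ ≤ |K| * B := mul_le_mul_of_nonneg_left hb (abs_nonneg _)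
    _ = K * B := by rw [abs_of_nonneg hK]

end Nr

/-! ### digits -/

lemma near_of_fl {n : ℕ} {x y : ℝ} (h : fl1 n x = fl1 n y) : |y - x| ≤ q2 n := by
  have e : rd n x = rd n y := by unfold rd; rw [h]
  have h1 := rd_le n x
  have h2 := lt_rd n x
  have h3 := rd_le n y
  have h4 := lt_rd n y
  rw [abs_le]
  constructor <;> linarith

lemma q2_sub {m n : ℕ} (h : m ≤ n) : q2 (n - m) = 2 ^ m * q2 n := by
  conv_rhs => rw [show n = m + (n - m) by omega, q2_add, ← mul_assoc, q2_mul_pow, one_mul]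

namespace Fu

lemma sh_sh (F : Fu) (d e : ℝ) : (F.sh d).sh e = F.sh (d + e) := by
  unfold sh; ext <;> simp; ring

lemma sh_zero (F : Fu) : F.sh 0 = F := by
  unfold sh; ext <;> simp

lemma g_ph (F : Fu) (q : ℝ) (l : Ray) (s : ℝ) :
    ({ F with ph := q } : Fu).g l s = F.g l s + (F.ph - q) * l.X s := by
  unfold g; ring

lemma gd_ph (F : Fu) (q : ℝ) (l : Ray) (s : ℝ) :
    ({ F with ph := q } : Fu).gd l s = F.gd l s + (F.ph - q) * l.v := by
  unfold gd; ring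

end Fu

namespace Pth

variable {Ω τ : Type} {C : Pth Ω τ} {i j b : ℕ} {ω ω' : Ω} {K : ℝ}

lemma T_mono (h : i ≤ j) (e : C.T j ω = C.T j ω') : C.T i ω = C.T i ω' := by
  induction j, h using Nat.le_induction with
  | base => exact e
  | succ n _ ih => exact ih (C.hT n ω ω' e)

lemma s_eq (h : C.T i ω = C.T i ω') : C.s i ω' = C.s i ω := by
  unfold s rd
  rw [← C.htm, ← C.htm, h]

lemma F_ga (h : C.T i ω = C.T i ω') : (C.F i ω').ga = (C.F i ω).ga := by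
  unfold F Fv; rw [h]

lemma F_ka (h : C.T i ω = C.T i ω') : (C.F i ω').ka = (C.F i ω).ka := by
  unfold F Fv; rw [h]

lemma F_al (h : C.T i ω = C.T i ω') : (C.F i ω').al = (C.F i ω).al := by
  unfold F Fv; rw [h]

lemma tv_T (i : ℕ) (ω : Ω) : C.tv i (C.T i ω) = C.s i ω := by
  unfold tv s rd; rw [C.htm]

lemma F_cN (i : ℕ) (ω : Ω) : (C.F i ω).cN (C.l ω) (C.s i ω) =
    (C.F i ω).ga - (C.F i ω).ka * (C.l ω).w - (C.F i ω).al * (C.l ω).N (C.s i ω) := rfl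

/-- own slope -/
lemma F_cV (i : ℕ) (ω : Ω) : (C.F i ω).cV (C.l ω) (C.s i ω) =
    rd (C.rf i) (C.p ω) * (C.F i ω).cN (C.l ω) (C.s i ω) := by
  rw [F_cN]
  unfold Fu.cV F Fv
  rw [tv_T]
  ring

lemma R_eq (i b : ℕ) : C.R i b = min (C.rk i + b) (C.rf i) := by
  have := C.hkf i
  unfold R bs
  omega

lemma bs_le (i b : ℕ) : C.bs i b ≤ b := by unfold bs; omega

lemma R_le_rf (i b : ℕ) : C.R i b ≤ C.rf i := by rw [R_eq]; omega

lemma R_le_rk (i b : ℕ) : C.R i b ≤ C.rk i + b := by rw [R_eq]; omega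

lemma Fr_ga (i b m : ℕ) (ω : Ω) : (C.Fr i b m ω).ga = (C.F i ω).ga := rfl

/-- the rounded functional is a function of the letter, of `v` to `b` digits and of the slope digits -/
lemma Fr_eq {m : ℕ} (hT : C.T i ω = C.T i ω') (hv : fl1 b (C.l ω).v = fl1 b (C.l ω').v)
    (hs : fl1 m (C.sl i b ω + C.o 4) = fl1 m (C.sl i b ω' + C.o 4)) :
    C.Fr i b m ω' = C.Fr i b m ω := by
  have e1 : C.ro 4 m (C.sl i b ω') = C.ro 4 m (C.sl i b ω) := by
    unfold ro rd; rw [hs]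
  have e2 : rd (C.bs i b) (C.l ω').v = rd (C.bs i b) (C.l ω).v := by
    unfold rd; rw [fl1_fl1 (C.bs_le i b) hv]
  unfold Fr
  rw [e1, e2, F_ka hT]
  ext
  · exact F_ga hT
  · rfl
  · exact F_ka hT
  · exact F_al hT

lemma ro_err (k : Fin 7) (n : ℕ) (y : ℝ) : |y - C.ro k n y| ≤ q2 n := by
  have h := rd_err n (y + C.o k)
  unfold ro
  rw [abs_sub_comm] at h
  rwa [show y - (rd n (y + C.o k) - C.o k) = y + C.o k - rd n (y + C.o k) by ring]

lemma Fr_ph (i b m : ℕ) (ω : Ω) :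
    |(C.F i ω).ph - (C.Fr i b m ω).ph| ≤ q2 m := by
  have h := C.ro_err 4 m (C.sl i b ω)
  have e : (C.F i ω).ph - (C.Fr i b m ω).ph = C.sl i b ω - C.ro 4 m (C.sl i b ω) := by
    unfold Fr sl; ring
  rwa [e]

lemma sl_sub (hT : C.T i ω = C.T i ω') (hv : fl1 b (C.l ω).v = fl1 b (C.l ω').v) :
    C.sl i b ω' - C.sl i b ω = (C.F i ω').ph - (C.F i ω).ph := by
  have e2 : rd (C.bs i b) (C.l ω').v = rd (C.bs i b) (C.l ω).v := by
    unfold rd; rw [fl1_fl1 (C.bs_le i b) hv]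
  unfold sl
  rw [e2, F_ka hT]
  ring

lemma Zs_sub (hv : fl1 b (C.l ω).v = fl1 b (C.l ω').v)
    (hw : fl1 (b - C.μ) ((C.l ω).w + C.o 1) = fl1 (b - C.μ) ((C.l ω').w + C.o 1)) (s : ℝ) :
    C.Zs b s ω' - C.Zs b s ω = (C.l ω).dz (C.l ω') s +
      ((C.l ω).v - rd b (C.l ω).v) * ((C.l ω').X s - (C.l ω).X s) +
      ((C.l ω).w - C.ro 1 (b - C.μ) (C.l ω).w) * ((C.l ω').N s - (C.l ω).N s) := by
  have e1 : rd b (C.l ω').v = rd b (C.l ω).v := by unfold rd; rw [hv]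
  have e2 : C.ro 1 (b - C.μ) (C.l ω').w = C.ro 1 (b - C.μ) (C.l ω).w := by
    unfold ro rd; rw [hw]
  unfold Zs Ray.dz
  rw [e1, e2]
  ring

lemma va0 (i b : ℕ) (ω : Ω) : C.va i b ω 0 = (C.l ω).X (C.s i ω) := rfl
lemma va1 (i b : ℕ) (ω : Ω) : C.va i b ω 1 = (C.l ω).w := rfl
lemma va2 (i b : ℕ) (ω : Ω) : C.va i b ω 2 = (C.l ω).N (C.s i ω) := rfl
lemma va3 (i b : ℕ) (ω : Ω) : C.va i b ω 3 = C.Zs b (C.s i ω) ω := rfl
lemma va4 (i b : ℕ) (ω : Ω) : C.va i b ω 4 = C.sl i b ω := rfl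
lemma va5 (i b : ℕ) (ω : Ω) :
    C.va i b ω 5 = (C.Fr i b (C.R i b - 3 * C.μ) ω).gd (C.l ω) (C.s i ω) := rfl
lemma va6 (i b : ℕ) (ω : Ω) :
    C.va i b ω 6 = (C.Fr i b (C.R i b - 3 * C.μ) ω).g (C.l ω) (C.s i ω) := rfl
lemma lv0 (i b : ℕ) : C.lv i b 0 = C.a i + b - C.μ := rfl
lemma lv1 (i b : ℕ) : C.lv i b 1 = b - C.μ := rfl
lemma lv2 (i b : ℕ) : C.lv i b 2 = C.a i + b - C.μ := rfl
lemma lv3 (i b : ℕ) : C.lv i b 3 = C.a i + 2 * b - 3 * C.μ := rfl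
lemma lv4 (i b : ℕ) : C.lv i b 4 = C.R i b - 3 * C.μ := rfl
lemma lv5 (i b : ℕ) : C.lv i b 5 = C.R i b + b - 5 * C.μ := rfl
lemma lv6 (i b : ℕ) : C.lv i b 6 = C.a i + b + C.R i b - 7 * C.μ := rfl

lemma cell_iff : C.cell i b ω = C.cell i b ω' ↔ C.T i ω = C.T i ω' ∧
    fl1 b (C.l ω).v = fl1 b (C.l ω').v ∧
    ∀ k, fl1 (C.lv i b k) (C.va i b ω k + C.o k) = fl1 (C.lv i b k) (C.va i b ω' k + C.o k) := by
  unfold cell dg
  simp only [Prod.mk.injEq]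
  constructor
  · rintro ⟨h1, h2, h3⟩
    exact ⟨h1, h2, fun k => congrFun h3 k⟩
  · rintro ⟨h1, h2, h3⟩
    exact ⟨h1, h2, funext h3⟩

lemma va_near (h : C.cell i b ω = C.cell i b ω') (k : Fin 7) :
    |C.va i b ω' k - C.va i b ω k| ≤ q2 (C.lv i b k) := by
  have := near_of_fl ((cell_iff.1 h).2.2 k)
  rwa [add_sub_add_right_eq_sub] at this

/-- **same cell ⇒ the rays are close** (first bound of `w`) -/
theorem Nr_of_cell (hl : C.Lev i b) (h : C.cell i b ω = C.cell i b ω') :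
    Nr (C.F i ω) (C.l ω) (C.l ω') (C.s i ω) (q2 b) (q2 (b - C.μ)) (q2 (C.a i + b - C.μ))
      (q2 (C.a i + b - C.μ)) (3 * q2 (C.a i + 2 * b - 3 * C.μ)) (2 * q2 (C.R i b + b - 5 * C.μ))
      (2 * q2 (C.a i + b + C.R i b - 7 * C.μ)) ∧
    |(C.F i ω').ph - (C.F i ω).ph| ≤ q2 (C.R i b - 3 * C.μ) := by
  obtain ⟨hb, hR⟩ := hl
  obtain ⟨hT, hv, hk⟩ := cell_iff.1 h
  have hs : C.s i ω' = C.s i ω := s_eq hT
  have n0 := va_near h 0
  have n1 := va_near h 1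
  have n2 := va_near h 2
  have n3 := va_near h 3
  have n4 := va_near h 4
  have n5 := va_near h 5
  have n6 := va_near h 6
  rw [va0, va0, lv0, hs] at n0
  rw [va1, va1, lv1] at n1
  rw [va2, va2, lv2, hs] at n2
  rw [va3, va3, lv3, hs] at n3
  rw [va4, va4, lv4, sl_sub hT hv] at n4
  have hFr : C.Fr i b (C.R i b - 3 * C.μ) ω' = C.Fr i b (C.R i b - 3 * C.μ) ω :=
    Fr_eq hT hv (by have := hk 4; rwa [va4, va4, lv4] at this)
  rw [va5, va5, lv5, hs, hFr] at n5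
  rw [va6, va6, lv6, hs, hFr] at n6
  have nv : |(C.l ω').v - (C.l ω).v| ≤ q2 b := near_of_fl hv
  have hph := C.Fr_ph i b (C.R i b - 3 * C.μ) ω
  set m := C.R i b - 3 * C.μ with hm
  set G := C.Fr i b m ω with hG
  have gd1 : ∀ l s, G.gd l s = (C.F i ω).gd l s + ((C.F i ω).ph - G.ph) * l.v :=
    fun l s => Fu.gd_ph (C.F i ω) G.ph l s
  have g1 : ∀ l s, G.g l s = (C.F i ω).g l s + ((C.F i ω).ph - G.ph) * l.X s :=
    fun l s => Fu.g_ph (C.F i ω) G.ph l s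
  refine ⟨⟨nv, n1, n0, n2, ?_, ?_, ?_⟩, n4⟩
  · rw [Zs_sub hv (by have := hk 1; rwa [va1, va1, lv1] at this)] at n3
    have k1 : |((C.l ω).v - rd b (C.l ω).v) * ((C.l ω').X (C.s i ω) - (C.l ω).X (C.s i ω))| ≤
        q2 b * q2 (C.a i + b - C.μ) := by
      rw [abs_mul]
      refine mul_le_mul ?_ n0 (abs_nonneg _) (q2_pos _).le
      have := rd_err b (C.l ω).v
      rwa [abs_sub_comm] at this
    have k2 : |((C.l ω).w - C.ro 1 (b - C.μ) (C.l ω).w) *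
        ((C.l ω').N (C.s i ω) - (C.l ω).N (C.s i ω))| ≤ q2 (b - C.μ) * q2 (C.a i + b - C.μ) := by
      rw [abs_mul]
      exact mul_le_mul (C.ro_err 1 _ _) n2 (abs_nonneg _) (q2_pos _).le
    rw [← q2_add] at k1 k2
    have h1 : q2 (b + (C.a i + b - C.μ)) ≤ q2 (C.a i + 2 * b - 3 * C.μ) := q2_le (by omega)
    have h2 : q2 (b - C.μ + (C.a i + b - C.μ)) ≤ q2 (C.a i + 2 * b - 3 * C.μ) := q2_le (by omega)
    rw [abs_le] at n3 k1 k2 ⊢
    constructor <;> linarith [n3.1, n3.2, k1.1, k1.2, k2.1, k2.2]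
  · have k1 : |((C.F i ω).ph - G.ph) * ((C.l ω').v - (C.l ω).v)| ≤ q2 m * q2 b := by
      rw [abs_mul]
      exact mul_le_mul hph nv (abs_nonneg _) (q2_pos _).le
    rw [← q2_add] at k1
    have h1 : q2 (m + b) ≤ q2 (C.R i b + b - 5 * C.μ) := q2_le (by omega)
    rw [gd1, gd1] at n5
    rw [abs_le] at n5 k1 ⊢
    constructor <;> linarith [n5.1, n5.2, k1.1, k1.2]
  · have k1 : |((C.F i ω).ph - G.ph) * ((C.l ω').X (C.s i ω) - (C.l ω).X (C.s i ω))| ≤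
        q2 m * q2 (C.a i + b - C.μ) := by
      rw [abs_mul]
      exact mul_le_mul hph n0 (abs_nonneg _) (q2_pos _).le
    rw [← q2_add] at k1
    have h1 : q2 (m + (C.a i + b - C.μ)) ≤ q2 (C.a i + b + C.R i b - 7 * C.μ) := q2_le (by omega)
    rw [g1, g1] at n6
    rw [abs_le] at n6 k1 ⊢
    constructor <;> linarith [n6.1, n6.2, k1.1, k1.2]

/-! ### moving to a coarser step -/

lemma q2_le_one (n : ℕ) : q2 n ≤ 1 := by
  have := q2_le (Nat.zero_le n)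
  simpa [q2] using this

lemma q2_div (a n : ℕ) : q2 (a + n) / q2 a = q2 n := by
  rw [q2_add]
  field_simp [(q2_pos a).ne']

lemma q2_cancel (c : ℝ) (a n : ℕ) : c / q2 a * q2 (a + n) = c * q2 n := by
  rw [q2_add]
  field_simp [(q2_pos a).ne']

lemma p_le (hK : C.Ok K ω) (hrf : 2 * C.μ ≤ C.rf i) : |rd (C.rf i) (C.p ω)| ≤ 2 * q2 (2 * C.μ) := by
  have h1 := rd_err (C.rf i) (C.p ω)
  have h2 := hK.p1
  have h3 := q2_le hrf
  rw [abs_le] at *
  constructor <;> linarith [h1.1, h1.2, h2.1, h2.2]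

lemma al_le (hK : C.Ok K ω) (i : ℕ) : |(C.F i ω).al| ≤ K / q2 (C.a i) := by
  rw [le_div_iff₀ (q2_pos _)]
  exact hK.a1 i

lemma cN_abs (hK : C.Ok K ω) (h1 : 1 ≤ K) (i : ℕ) : |(C.F i ω).cN (C.l ω) (C.s i ω)| ≤ K := by
  have a1 := hK.n1 i
  have a2 := hK.n2 i
  rw [abs_of_nonneg]
  · exact a2
  · by_contra h
    push Not at h
    nlinarith

lemma cN_ne (hK : C.Ok K ω) (i : ℕ) : (C.F i ω).cN (C.l ω) (C.s i ω) ≠ 0 := by
  intro h
  have a1 := hK.n1 i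
  rw [h, mul_zero] at a1
  linarith

/-- **same cell ⇒ the rays are close**, good bound of `w` -/
theorem Nr_of_cell' (h1 : 1 ≤ K) (hK : C.Ok K ω) (hl : C.Lev i b) (h : C.cell i b ω = C.cell i b ω') :
    Nr (C.F i ω) (C.l ω) (C.l ω') (C.s i ω) (q2 b) (10 * K ^ 2 * q2 (b + 2 * C.μ))
      (q2 (C.a i + b - C.μ)) (q2 (C.a i + b - C.μ)) (3 * q2 (C.a i + 2 * b - 3 * C.μ))
      (2 * q2 (C.R i b + b - 5 * C.μ)) (2 * q2 (C.a i + b + C.R i b - 7 * C.μ)) := by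
  obtain ⟨hN, -⟩ := Nr_of_cell hl h
  refine ⟨hN.v, ?_, hN.X, hN.N, hN.z, hN.c, hN.g⟩
  obtain ⟨hb, hR⟩ := hl
  have hrf : C.R i b ≤ C.rf i := C.R_le_rf i b
  have K0 : 0 ≤ K := by linarith
  have hcV : |(C.F i ω).cV (C.l ω) (C.s i ω)| ≤ 2 * K * q2 (2 * C.μ) := by
    rw [F_cV, abs_mul]
    calc _ ≤ 2 * q2 (2 * C.μ) * K := mul_le_mul (p_le hK (by omega)) (cN_abs hK h1 i)
          (abs_nonneg _) (by have := q2_pos (2 * C.μ); positivity)
      _ = _ := by ring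
  refine (hN.w_le K0 (hK.n1 i) hcV (hK.k1 i) (al_le hK i)).trans ?_
  have e1 : q2 (C.R i b + b - 5 * C.μ) ≤ q2 (b + 2 * C.μ) := q2_le (by omega)
  have e2 : 2 * K * q2 (2 * C.μ) * q2 b = 2 * K * q2 (b + 2 * C.μ) := by
    rw [mul_assoc, ← q2_add, add_comm b]
  have e3 : q2 b ^ 2 ≤ q2 (b + 2 * C.μ) := by
    rw [pow_two, ← q2_add]; exact q2_le (by omega)
  have e4 : q2 (b - C.μ) ^ 2 ≤ q2 (b + 2 * C.μ) := by
    rw [pow_two, ← q2_add]; exact q2_le (by omega)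
  have e5 : K / q2 (C.a i) * (q2 (C.a i + b - C.μ) * q2 b + q2 (C.a i + b - C.μ) * q2 (b - C.μ) +
      3 * q2 (C.a i + 2 * b - 3 * C.μ)) ≤ 5 * K * q2 (b + 2 * C.μ) := by
    have f1 : q2 (C.a i + b - C.μ) * q2 b = q2 (C.a i + (2 * b - C.μ)) := by
      rw [← q2_add]; congr 1; omega
    have f2 : q2 (C.a i + b - C.μ) * q2 (b - C.μ) = q2 (C.a i + (2 * b - 2 * C.μ)) := by
      rw [← q2_add]; congr 1; omega
    have f3 : C.a i + 2 * b - 3 * C.μ = C.a i + (2 * b - 3 * C.μ) := by omega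
    rw [f1, f2, f3]
    have g : K / q2 (C.a i) * (q2 (C.a i + (2 * b - C.μ)) + q2 (C.a i + (2 * b - 2 * C.μ)) +
        3 * q2 (C.a i + (2 * b - 3 * C.μ))) = K * (q2 (2 * b - C.μ) + q2 (2 * b - 2 * C.μ) +
        3 * q2 (2 * b - 3 * C.μ)) := by
      rw [q2_add, q2_add, q2_add]
      field_simp [(q2_pos (C.a i)).ne']
    rw [g]
    have g1 : q2 (2 * b - C.μ) ≤ q2 (b + 2 * C.μ) := q2_le (by omega)
    have g2 : q2 (2 * b - 2 * C.μ) ≤ q2 (b + 2 * C.μ) := q2_le (by omega)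
    have g3 : q2 (2 * b - 3 * C.μ) ≤ q2 (b + 2 * C.μ) := q2_le (by omega)
    nlinarith
  rw [e2]
  have hq := (q2_pos (b + 2 * C.μ)).le
  set Q := q2 (b + 2 * C.μ)
  have f : K * ((q2 b ^ 2 + q2 (b - C.μ) ^ 2) / 2) ≤ K * Q := by
    apply mul_le_mul_of_nonneg_left _ K0
    linarith
  calc _ ≤ K * (2 * Q + 2 * K * Q + K * Q + 5 * K * Q) := by
        apply mul_le_mul_of_nonneg_left _ K0
        linarith
    _ ≤ 10 * K ^ 2 * Q := by nlinarith [mul_nonneg K0 hq]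

/-- ratios of the coefficients of two functionals which agree -/
lemma ratios {F G : Fu} {l : Ray} {s : ℝ} {r A : ℕ} (h1 : 1 ≤ K) (hag : Agr K r A G F l s)
    (hF : 1 ≤ K * F.cN l s) (hG : |G.cN l s| ≤ K) (hk : |F.ka| ≤ K) (ha : |F.al| * q2 A ≤ K) :
    |G.cN l s / F.cN l s| ≤ K ^ 2 ∧
    |G.cN l s / F.cN l s * F.ka - G.ka| ≤ 2 * K ^ 3 * q2 r ∧
    |G.cN l s / F.cN l s * F.al - G.al| ≤ 2 * K ^ 3 * q2 r / q2 A := by
  have K0 : 0 < K := by linarith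
  have hpos : 0 < F.cN l s := by
    by_contra h
    push Not at h
    nlinarith
  have hinv : 1 / F.cN l s ≤ K := by
    rw [div_le_iff₀ hpos]
    exact hF
  have hinv0 : 0 ≤ 1 / F.cN l s := by positivity
  have hq := q2_pos r
  have hA := q2_pos A
  have er : |G.cN l s / F.cN l s| ≤ K ^ 2 := by
    rw [show G.cN l s / F.cN l s = G.cN l s * (1 / F.cN l s) by ring, abs_mul, abs_of_nonneg hinv0,
      pow_two]
    exact mul_le_mul hG hinv hinv0 K0.le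
  have er1 : |G.cN l s / F.cN l s - 1| ≤ K ^ 2 * q2 r := by
    have e : G.cN l s / F.cN l s - 1 = -(F.cN l s - G.cN l s) * (1 / F.cN l s) := by
      field_simp; ring
    rw [e, abs_mul, abs_neg, abs_of_nonneg hinv0]
    calc _ ≤ K * q2 r * K := mul_le_mul hag.cN hinv hinv0 (by positivity)
      _ = _ := by ring
  refine ⟨er, ?_, ?_⟩
  · have e : G.cN l s / F.cN l s * F.ka - G.ka = (G.cN l s / F.cN l s - 1) * F.ka + (F.ka - G.ka) := by
      ring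
    rw [e]
    refine (abs_add_le _ _).trans ?_
    rw [abs_mul]
    have t1 : |G.cN l s / F.cN l s - 1| * |F.ka| ≤ K ^ 2 * q2 r * K :=
      mul_le_mul er1 hk (abs_nonneg _) (by positivity)
    have t2 := hag.ka
    have t3 : K * q2 r ≤ K ^ 3 * q2 r := by
      apply mul_le_mul_of_nonneg_right _ hq.le
      calc K = K ^ 1 := (pow_one K).symm
        _ ≤ K ^ 3 := pow_le_pow_right₀ h1 (by norm_num)
    nlinarith
  · have e : G.cN l s / F.cN l s * F.al - G.al = (G.cN l s / F.cN l s - 1) * F.al + (F.al - G.al) := by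
      ring
    rw [e, le_div_iff₀ hA]
    calc |(G.cN l s / F.cN l s - 1) * F.al + (F.al - G.al)| * q2 A
        ≤ (|G.cN l s / F.cN l s - 1| * |F.al| + |F.al - G.al|) * q2 A := by
          apply mul_le_mul_of_nonneg_right _ hA.le
          rw [← abs_mul]
          exact abs_add_le _ _
      _ = |G.cN l s / F.cN l s - 1| * (|F.al| * q2 A) + |F.al - G.al| * q2 A := by ring
      _ ≤ K ^ 2 * q2 r * K + K * q2 r :=
          add_le_add (mul_le_mul er1 ha (by positivity) (by positivity)) hag.al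
      _ ≤ 2 * K ^ 3 * q2 r := by
          have t3 : K * q2 r ≤ K ^ 3 * q2 r := by
            apply mul_le_mul_of_nonneg_right _ hq.le
            calc K = K ^ 1 := (pow_one K).symm
              _ ≤ K ^ 3 := pow_le_pow_right₀ h1 (by norm_num)
          nlinarith

lemma s_near (C : Pth Ω τ) (h : i ≤ j) (ω : Ω) : |C.s i ω - C.s j ω| ≤ q2 (C.a i) := by
  rw [abs_sub_comm]
  exact rd_sub (C.ha h) _

lemma F_cN_abs_sh (hK : C.Ok K ω) (h1 : 1 ≤ K) (i j : ℕ) :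
    |((C.F i ω).sh (C.s j ω - C.s i ω)).cN (C.l ω) (C.s j ω)| ≤ K := by
  have e := Fu.cN_sh (C.F i ω) (C.l ω) (C.s i ω) (C.s j ω - C.s i ω)
  rw [add_sub_cancel] at e
  rw [e]
  exact cN_abs hK h1 i

/-- **the closeness in a coarser step**, functional part -/
theorem core (h1 : 1 ≤ K) (hK : C.Ok K ω) (hij : i ≤ j) (hli : C.Lev i b) (hlj : C.Lev j b)
    (h : C.cell j b ω = C.cell j b ω') :
    Nr (C.F i ω) (C.l ω) (C.l ω') (C.s i ω) (q2 b) (10 * K ^ 2 * q2 (b + 2 * C.μ))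
      (q2 (C.a j + b - C.μ) + q2 (C.a i + b)) (q2 (C.a j + b - C.μ) + 10 * K ^ 2 * q2 (C.a i + b))
      (3 * q2 (C.a j + 2 * b - 3 * C.μ) + 51 * K ^ 4 * q2 (C.a i + 2 * b))
      (2 * K ^ 2 * q2 (C.R j b + b - 5 * C.μ) + 131 * K ^ 7 * q2 (C.R i b + b - 3 * C.μ))
      (2 * K ^ 2 * q2 (C.a j + b + C.R j b - 7 * C.μ) + 2 * K ^ 2 * q2 (C.a i + C.R j b + b - 5 * C.μ) +
        140 * K ^ 7 * q2 (C.a i + b + C.R i b - 3 * C.μ)) := by
  have hN := Nr_of_cell' h1 hK hlj h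
  have K0 : 0 < K := by linarith
  set d := C.s j ω - C.s i ω with hd
  set G := (C.F i ω).sh d with hG
  obtain ⟨r1, r2, r3⟩ := ratios h1 (hK.ag i j hij) (hK.n1 j) (F_cN_abs_sh hK h1 i j) (hK.k1 j)
    (hK.a1 j)
  have hGN : G.cN (C.l ω) (C.s j ω) = (C.F i ω).cN (C.l ω) (C.s i ω) := by
    have e := Fu.cN_sh (C.F i ω) (C.l ω) (C.s i ω) d
    rwa [hd, add_sub_cancel] at e
  have hGV : G.cV (C.l ω) (C.s j ω) = (C.F i ω).cV (C.l ω) (C.s i ω) := by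
    have e := Fu.cV_sh (C.F i ω) (C.l ω) (C.s i ω) d
    rwa [hd, add_sub_cancel] at e
  have rV : |G.cN (C.l ω) (C.s j ω) / (C.F j ω).cN (C.l ω) (C.s j ω) *
      (C.F j ω).cV (C.l ω) (C.s j ω) - G.cV (C.l ω) (C.s j ω)| ≤ K * q2 (C.R i b) := by
    have e : G.cN (C.l ω) (C.s j ω) / (C.F j ω).cN (C.l ω) (C.s j ω) *
        (C.F j ω).cV (C.l ω) (C.s j ω) - G.cV (C.l ω) (C.s j ω) =
        (rd (C.rf j) (C.p ω) - rd (C.rf i) (C.p ω)) * (C.F i ω).cN (C.l ω) (C.s i ω) := by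
      rw [hGV, hGN, F_cV, F_cV]
      have := cN_ne hK j
      field_simp
    rw [e, abs_mul, mul_comm K]
    exact mul_le_mul ((rd_sub (C.hf hij) _).trans (q2_le (C.R_le_rf i b))) (cN_abs hK h1 i)
      (abs_nonneg _) (q2_pos _).le
  have hC := hN.cmp (G := G) (cN_ne hK j) r1 rV r2 r3
  have hE := hC.evolve (C.s_near hij ω)
  have e1 : G.sh (C.s i ω - C.s j ω) = C.F i ω := by
    rw [hG, Fu.sh_sh, hd, show C.s j ω - C.s i ω + (C.s i ω - C.s j ω) = 0 by ring, Fu.sh_zero]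
  have e2 : C.s j ω + (C.s i ω - C.s j ω) = C.s i ω := by ring
  rw [e1, e2] at hE
  obtain ⟨hbi, hRi⟩ := hli
  obtain ⟨-, hRj⟩ := hlj
  have haij := C.ha hij
  have hrk := C.R_le_rk i b
  -- squares of the velocities
  have sq1 : (q2 b ^ 2 + (10 * K ^ 2 * q2 (b + 2 * C.μ)) ^ 2) / 2 ≤ 51 * K ^ 4 * q2 (2 * b) := by
    have t1 : q2 b ^ 2 = q2 (2 * b) := by rw [pow_two, ← q2_add, two_mul]
    have t2 : q2 (b + 2 * C.μ) ^ 2 ≤ q2 (2 * b) := by
      rw [pow_two, ← q2_add]; exact q2_le (by omega)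
    have t3 : 1 ≤ K ^ 4 := one_le_pow₀ h1
    have t4 := q2_pos (2 * b)
    calc _ = q2 (2 * b) / 2 + 50 * K ^ 4 * q2 (b + 2 * C.μ) ^ 2 := by rw [mul_pow, t1]; ring
      _ ≤ K ^ 4 * q2 (2 * b) + 50 * K ^ 4 * q2 (2 * b) := by
        apply add_le_add
        · nlinarith
        · exact mul_le_mul_of_nonneg_left t2 (by positivity)
      _ = _ := by ring
  -- the derivative
  have b1 : K ^ 2 * (2 * q2 (C.R j b + b - 5 * C.μ)) + K * q2 (C.R i b) * q2 b +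
      2 * K ^ 3 * q2 (C.rk i) * ((q2 b ^ 2 + (10 * K ^ 2 * q2 (b + 2 * C.μ)) ^ 2) / 2) +
      2 * K ^ 3 * q2 (C.rk i) / q2 (C.a j) * (q2 (C.a j + b - C.μ) * q2 b +
        q2 (C.a j + b - C.μ) * (10 * K ^ 2 * q2 (b + 2 * C.μ)) + 3 * q2 (C.a j + 2 * b - 3 * C.μ)) ≤
      2 * K ^ 2 * q2 (C.R j b + b - 5 * C.μ) + 131 * K ^ 7 * q2 (C.R i b + b - 3 * C.μ) := by
    set Q := q2 (C.R i b + b - 3 * C.μ) with hQ
    have Q0 : 0 < Q := q2_pos _
    have u1 : q2 (C.R i b) * q2 b ≤ Q := by rw [← q2_add]; exact q2_le (by omega)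
    have u2 : q2 (C.rk i) * q2 (2 * b) ≤ Q := by rw [← q2_add]; exact q2_le (by omega)
    have f1 : q2 (C.a j + b - C.μ) * q2 b = q2 (C.a j + (2 * b - C.μ)) := by
      rw [← q2_add]; congr 1; omega
    have f2 : q2 (C.a j + b - C.μ) * q2 (b + 2 * C.μ) = q2 (C.a j + (2 * b + C.μ)) := by
      rw [← q2_add]; congr 1; omega
    have f3 : C.a j + 2 * b - 3 * C.μ = C.a j + (2 * b - 3 * C.μ) := by omega
    have u3 : 2 * K ^ 3 * q2 (C.rk i) / q2 (C.a j) * (q2 (C.a j + b - C.μ) * q2 b +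
        q2 (C.a j + b - C.μ) * (10 * K ^ 2 * q2 (b + 2 * C.μ)) +
        3 * q2 (C.a j + 2 * b - 3 * C.μ)) = 2 * K ^ 3 * (q2 (C.rk i) * q2 (2 * b - C.μ) +
        10 * K ^ 2 * (q2 (C.rk i) * q2 (2 * b + C.μ)) + 3 * (q2 (C.rk i) * q2 (2 * b - 3 * C.μ))) := by
      have c1 := q2_cancel (2 * K ^ 3 * q2 (C.rk i)) (C.a j) (2 * b - C.μ)
      have c2 := q2_cancel (2 * K ^ 3 * q2 (C.rk i)) (C.a j) (2 * b + C.μ)
      have c3 := q2_cancel (2 * K ^ 3 * q2 (C.rk i)) (C.a j) (2 * b - 3 * C.μ)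
      rw [← f1] at c1
      rw [← f2] at c2
      rw [← f3] at c3
      linear_combination c1 + 10 * K ^ 2 * c2 + 3 * c3
    rw [u3]
    have v1 : q2 (C.rk i) * q2 (2 * b - C.μ) ≤ Q := by rw [← q2_add]; exact q2_le (by omega)
    have v2 : q2 (C.rk i) * q2 (2 * b + C.μ) ≤ Q := by rw [← q2_add]; exact q2_le (by omega)
    have v3 : q2 (C.rk i) * q2 (2 * b - 3 * C.μ) ≤ Q := by rw [← q2_add]; exact q2_le (by omega)
    have w2 : 2 * K ^ 3 * q2 (C.rk i) * ((q2 b ^ 2 + (10 * K ^ 2 * q2 (b + 2 * C.μ)) ^ 2) / 2) ≤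
        102 * K ^ 7 * Q := by
      calc _ ≤ 2 * K ^ 3 * q2 (C.rk i) * (51 * K ^ 4 * q2 (2 * b)) :=
            mul_le_mul_of_nonneg_left sq1 (by have := q2_pos (C.rk i); positivity)
        _ = 102 * K ^ 7 * (q2 (C.rk i) * q2 (2 * b)) := by ring
        _ ≤ _ := mul_le_mul_of_nonneg_left u2 (by positivity)
    have w3 : 2 * K ^ 3 * (q2 (C.rk i) * q2 (2 * b - C.μ) +
        10 * K ^ 2 * (q2 (C.rk i) * q2 (2 * b + C.μ)) +
        3 * (q2 (C.rk i) * q2 (2 * b - 3 * C.μ))) ≤ 28 * K ^ 7 * Q := by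
      have K2 : 1 ≤ K ^ 2 := one_le_pow₀ h1
      calc _ ≤ 2 * K ^ 3 * (Q + 10 * K ^ 2 * Q + 3 * Q) := by
            apply mul_le_mul_of_nonneg_left _ (by positivity)
            have := mul_le_mul_of_nonneg_left v2 (show (0 : ℝ) ≤ 10 * K ^ 2 by positivity)
            linarith
        _ ≤ 2 * K ^ 3 * (14 * K ^ 2 * Q) := by
            apply mul_le_mul_of_nonneg_left _ (by positivity)
            nlinarith
        _ = 28 * K ^ 5 * Q := by ring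
        _ ≤ 28 * K ^ 7 * Q := by
            apply mul_le_mul_of_nonneg_right _ Q0.le
            have := pow_le_pow_right₀ h1 (show 5 ≤ 7 by norm_num)
            linarith
    have w1 : K * q2 (C.R i b) * q2 b ≤ K ^ 7 * Q := by
      calc _ = K * (q2 (C.R i b) * q2 b) := by ring
        _ ≤ K ^ 7 * Q := by
          apply mul_le_mul _ u1 (by have := q2_pos (C.R i b); have := q2_pos b; positivity)
            (by positivity)
          calc K = K ^ 1 := (pow_one K).symm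
            _ ≤ K ^ 7 := pow_le_pow_right₀ h1 (by norm_num)
    linarith
  -- the value
  have b2 : K ^ 2 * (2 * q2 (C.a j + b + C.R j b - 7 * C.μ)) +
      K * q2 (C.R i b) * q2 (C.a j + b - C.μ) +
      2 * K ^ 3 * q2 (C.rk i) * (3 * q2 (C.a j + 2 * b - 3 * C.μ)) +
      2 * K ^ 3 * q2 (C.rk i) / q2 (C.a j) *
        ((q2 (C.a j + b - C.μ) ^ 2 + q2 (C.a j + b - C.μ) ^ 2) / 2) ≤
      2 * K ^ 2 * q2 (C.a j + b + C.R j b - 7 * C.μ) +
        9 * K ^ 7 * q2 (C.a i + b + C.R i b - 3 * C.μ) := by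
    set Q := q2 (C.a i + b + C.R i b - 3 * C.μ) with hQ
    have Q0 : 0 < Q := q2_pos _
    have u1 : q2 (C.R i b) * q2 (C.a j + b - C.μ) ≤ Q := by rw [← q2_add]; exact q2_le (by omega)
    have u2 : q2 (C.rk i) * q2 (C.a j + 2 * b - 3 * C.μ) ≤ Q := by
      rw [← q2_add]; exact q2_le (by omega)
    have u3 : 2 * K ^ 3 * q2 (C.rk i) / q2 (C.a j) *
        ((q2 (C.a j + b - C.μ) ^ 2 + q2 (C.a j + b - C.μ) ^ 2) / 2) =
        2 * K ^ 3 * (q2 (C.rk i) * q2 (C.a j + (2 * b - 2 * C.μ))) := by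
      have e : q2 (C.a j + b - C.μ) ^ 2 = q2 (C.a j + (C.a j + (2 * b - 2 * C.μ))) := by
        rw [pow_two, ← q2_add]; congr 1; omega
      have c1 := q2_cancel (2 * K ^ 3 * q2 (C.rk i)) (C.a j) (C.a j + (2 * b - 2 * C.μ))
      rw [← e] at c1
      linear_combination c1
    rw [u3]
    have u4 : q2 (C.rk i) * q2 (C.a j + (2 * b - 2 * C.μ)) ≤ Q := by
      rw [← q2_add]; exact q2_le (by omega)
    have k1 : K ≤ K ^ 7 := by
      calc K = K ^ 1 := (pow_one K).symm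
        _ ≤ K ^ 7 := pow_le_pow_right₀ h1 (by norm_num)
    have k3 : K ^ 3 ≤ K ^ 7 := pow_le_pow_right₀ h1 (by norm_num)
    have w1 : K * q2 (C.R i b) * q2 (C.a j + b - C.μ) ≤ K ^ 7 * Q := by
      rw [mul_assoc]
      exact mul_le_mul k1 u1 (mul_nonneg (q2_pos _).le (q2_pos _).le) (by positivity)
    have w2 : 2 * K ^ 3 * q2 (C.rk i) * (3 * q2 (C.a j + 2 * b - 3 * C.μ)) ≤ 6 * K ^ 7 * Q := by
      calc _ = 6 * (K ^ 3 * (q2 (C.rk i) * q2 (C.a j + 2 * b - 3 * C.μ))) := by ring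
        _ ≤ 6 * (K ^ 7 * Q) := by
          apply mul_le_mul_of_nonneg_left _ (by norm_num)
          exact mul_le_mul k3 u2 (mul_nonneg (q2_pos _).le (q2_pos _).le) (by positivity)
        _ = _ := by ring
    have w3 : 2 * K ^ 3 * (q2 (C.rk i) * q2 (C.a j + (2 * b - 2 * C.μ))) ≤ 2 * K ^ 7 * Q := by
      calc _ = 2 * (K ^ 3 * (q2 (C.rk i) * q2 (C.a j + (2 * b - 2 * C.μ)))) := by ring
        _ ≤ 2 * (K ^ 7 * Q) := by
          apply mul_le_mul_of_nonneg_left _ (by norm_num)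
          exact mul_le_mul k3 u4 (mul_nonneg (q2_pos _).le (q2_pos _).le) (by positivity)
        _ = _ := by ring
    linarith
  refine hE.mono le_rfl le_rfl ?_ ?_ ?_ b1 ?_
  · rw [← q2_add]
  · have : q2 (C.a i) * (10 * K ^ 2 * q2 (b + 2 * C.μ)) ≤ 10 * K ^ 2 * q2 (C.a i + b) := by
      calc _ = 10 * K ^ 2 * (q2 (C.a i) * q2 (b + 2 * C.μ)) := by ring
        _ ≤ _ := by
          apply mul_le_mul_of_nonneg_left _ (by positivity)
          rw [← q2_add]; exact q2_le (by omega)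
    linarith
  · have : q2 (C.a i) * ((q2 b ^ 2 + (10 * K ^ 2 * q2 (b + 2 * C.μ)) ^ 2) / 2) ≤
        51 * K ^ 4 * q2 (C.a i + 2 * b) := by
      calc _ ≤ q2 (C.a i) * (51 * K ^ 4 * q2 (2 * b)) :=
            mul_le_mul_of_nonneg_left sq1 (q2_pos _).le
        _ = _ := by rw [q2_add]; ring
    linarith
  · have t := mul_le_mul_of_nonneg_left b1 (q2_pos (C.a i)).le
    have e3 : q2 (C.a i) * q2 (C.R j b + b - 5 * C.μ) = q2 (C.a i + C.R j b + b - 5 * C.μ) := by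
      rw [← q2_add]; congr 1; omega
    have e4 : q2 (C.a i) * q2 (C.R i b + b - 3 * C.μ) = q2 (C.a i + b + C.R i b - 3 * C.μ) := by
      rw [← q2_add]; congr 1; omega
    have e5 : q2 (C.a i) * (2 * K ^ 2 * q2 (C.R j b + b - 5 * C.μ) +
        131 * K ^ 7 * q2 (C.R i b + b - 3 * C.μ)) =
        2 * K ^ 2 * q2 (C.a i + C.R j b + b - 5 * C.μ) +
        131 * K ^ 7 * q2 (C.a i + b + C.R i b - 3 * C.μ) := by
      rw [← e3, ← e4]; ring
    linarith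

lemma abs_mul_le {x y a b : ℝ} (hx : |x| ≤ a) (hy : |y| ≤ b) : |x * y| ≤ a * b := by
  rw [abs_mul]
  exact mul_le_mul hx hy (abs_nonneg _) ((abs_nonneg _).trans hx)

/-- real part of `core_ph` -/
lemma ph_aux {K P ρ β q phi phi' phj phj' pi pi' pj pj' ci ci' cj cj' E1 E2 E3 E4 E5 E6 E7 E8 : ℝ}
    (h1 : 1 ≤ K) (P0 : 0 ≤ P) (ρ0 : 0 ≤ ρ) (β0 : 0 ≤ β) (q0 : 0 ≤ q) (q1 : q ≤ 1) (b3 : q * β ≤ ρ)
    (eq1 : phi' - phi = (phj' - phj) + (pi' - pj') * ci' - (pi - pj) * ci +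
      pj' * ((ci' - cj') - (ci - cj)) + (pj' - pj) * (ci - cj) + E1 + E2)
    (eq2 : (ci' - cj') - (ci - cj) = E3 + E4)
    (eq3 : (pj' - pj) * cj = (phj' - phj) + E5 + E6 - pj' * (cj' - cj))
    (eq4 : cj' - cj = -E7 - E8)
    (hP : |phj' - phj| ≤ P) (p2' : |pj'| ≤ 2) (p1 : |pj - pi| ≤ ρ) (p1' : |pj' - pi'| ≤ ρ)
    (hci : |ci| ≤ K) (hci' : |ci'| ≤ K) (cj1 : 1 ≤ K * cj) (g1 : |cj - ci| ≤ K * q)
    (h1' : |E1| ≤ K * ρ) (h2 : |E2| ≤ K * ρ) (h3 : |E3| ≤ 10 * K ^ 3 * (q * β))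
    (h4 : |E4| ≤ K * (q * β)) (h5 : |E5| ≤ K * β) (h6 : |E6| ≤ K * β) (h7 : |E7| ≤ 10 * K ^ 3 * β)
    (h8 : |E8| ≤ K * β) :
    |phi' - phi| ≤ 2 * K ^ 2 * P + 50 * K ^ 5 * ρ := by
  have K0 : 0 < K := by linarith
  have K13 : K ≤ K ^ 3 := by
    calc K = K ^ 1 := (pow_one K).symm
      _ ≤ K ^ 3 := pow_le_pow_right₀ h1 (by norm_num)
  have K35 : K ^ 3 ≤ K ^ 5 := pow_le_pow_right₀ h1 (by norm_num)
  have K15 : K ≤ K ^ 5 := K13.trans K35
  have K2 : 1 ≤ K ^ 2 := one_le_pow₀ h1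
  have qβ : 0 ≤ q * β := mul_nonneg q0 β0
  have kβ : K * β ≤ K ^ 3 * β := mul_le_mul_of_nonneg_right K13 β0
  have kqβ : K * (q * β) ≤ K ^ 3 * (q * β) := mul_le_mul_of_nonneg_right K13 qβ
  have c1 : |cj' - cj| ≤ 11 * K ^ 3 * β := by
    rw [eq4]
    have : |-E7 - E8| ≤ |E7| + |E8| := by
      rw [← abs_neg E7]
      exact abs_sub _ _
    linarith
  have c2 : |(pj' - pj) * cj| ≤ P + 24 * K ^ 3 * β := by
    rw [eq3]
    have t1 := abs_mul_le p2' c1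
    have t2 : |(phj' - phj) + E5 + E6 - pj' * (cj' - cj)| ≤
        |phj' - phj| + |E5| + |E6| + |pj' * (cj' - cj)| :=
      (abs_sub _ _).trans (add_le_add ((abs_add_le _ _).trans (add_le_add (abs_add_le _ _) le_rfl))
        le_rfl)
    linarith
  have c3 : |pj' - pj| ≤ K * (P + 24 * K ^ 3 * β) := by
    have hc : 0 < cj := by
      by_contra hc
      push Not at hc
      have := mul_nonpos_of_nonneg_of_nonpos K0.le hc
      linarith
    rw [abs_mul, abs_of_pos hc] at c2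
    calc |pj' - pj| = 1 * |pj' - pj| := (one_mul _).symm
      _ ≤ (K * cj) * |pj' - pj| := mul_le_mul_of_nonneg_right cj1 (abs_nonneg _)
      _ = K * (|pj' - pj| * cj) := by ring
      _ ≤ _ := mul_le_mul_of_nonneg_left c2 K0.le
  have c4 : |(pj' - pj) * (ci - cj)| ≤ K ^ 2 * P + 24 * K ^ 5 * ρ := by
    rw [abs_sub_comm] at g1
    refine (abs_mul_le c3 g1).trans ?_
    calc K * (P + 24 * K ^ 3 * β) * (K * q) = K ^ 2 * (P * q) + 24 * K ^ 5 * (q * β) := by ring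
      _ ≤ K ^ 2 * (P * 1) + 24 * K ^ 5 * ρ := by
        apply add_le_add
        · exact mul_le_mul_of_nonneg_left (mul_le_mul_of_nonneg_left q1 P0) (by positivity)
        · exact mul_le_mul_of_nonneg_left b3 (by positivity)
      _ = _ := by ring
  have c5 : |pj' * ((ci' - cj') - (ci - cj))| ≤ 22 * K ^ 3 * ρ := by
    have t : |(ci' - cj') - (ci - cj)| ≤ 11 * K ^ 3 * (q * β) := by
      rw [eq2]
      refine (abs_add_le _ _).trans ?_
      linarith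
    refine (abs_mul_le p2' t).trans ?_
    have := mul_le_mul_of_nonneg_left b3 (show (0 : ℝ) ≤ 22 * K ^ 3 by positivity)
    linarith
  have c6 : |(pi' - pj') * ci'| ≤ K * ρ := by
    rw [abs_sub_comm] at p1'
    refine (abs_mul_le p1' hci').trans (le_of_eq (mul_comm _ _))
  have c7 : |(pi - pj) * ci| ≤ K * ρ := by
    rw [abs_sub_comm] at p1
    refine (abs_mul_le p1 hci).trans (le_of_eq (mul_comm _ _))
  rw [eq1]
  have w1 : K * ρ ≤ K ^ 5 * ρ := mul_le_mul_of_nonneg_right K15 ρ0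
  have w2 : K ^ 3 * ρ ≤ K ^ 5 * ρ := mul_le_mul_of_nonneg_right K35 ρ0
  have w3 : 1 * P ≤ K ^ 2 * P := mul_le_mul_of_nonneg_right K2 P0
  have a1 := abs_le.1 hP
  have a2 := abs_le.1 c4
  have a3 := abs_le.1 c5
  have a4 := abs_le.1 c6
  have a5 := abs_le.1 c7
  have a6 := abs_le.1 h1'
  have a7 := abs_le.1 h2
  rw [abs_le]
  constructor
  · linarith [a1.1, a2.1, a3.1, a4.1, a5.2, a6.1, a7.1]
  · linarith [a1.2, a2.2, a3.2, a4.2, a5.1, a6.2, a7.2]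

/-- **the closeness in a coarser step**, slopes -/
theorem core_ph (h1 : 1 ≤ K) (hK : C.Ok K ω) (hK' : C.Ok K ω') (hij : i ≤ j) (hli : C.Lev i b)
    (hlj : C.Lev j b) (h : C.cell j b ω = C.cell j b ω') :
    |(C.F i ω').ph - (C.F i ω).ph| ≤
      2 * K ^ 2 * q2 (C.R j b - 3 * C.μ) + 50 * K ^ 5 * q2 (C.R i b - C.μ) := by
  have hN := Nr_of_cell' h1 hK hlj h
  have hP := (Nr_of_cell hlj h).2
  have hTj : C.T j ω = C.T j ω' := (cell_iff.1 h).1
  have hTi : C.T i ω = C.T i ω' := T_mono hij hTj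
  have K0 : 0 < K := by linarith
  obtain ⟨hbi, hRi⟩ := hli
  obtain ⟨-, hRj⟩ := hlj
  have haij := C.ha hij
  have hrk := C.R_le_rk i b
  have hrfi := C.R_le_rf i b
  have hrfj := C.R_le_rf j b
  have sj : C.s j ω' = C.s j ω := s_eq hTj
  have si : C.s i ω' = C.s i ω := s_eq hTi
  have agω := hK.ag i j hij
  have cNi := F_cN (C := C) i ω
  have cNi' := F_cN (C := C) i ω'
  have cNj := F_cN (C := C) j ω
  have cNj' := F_cN (C := C) j ω'
  have cVi := F_cV (C := C) i ω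
  have cVi' := F_cV (C := C) i ω'
  have cVj := F_cV (C := C) j ω
  have cVj' := F_cV (C := C) j ω'
  unfold Fu.cV at cVi cVi' cVj cVj'
  have g1 := agω.cN
  have g2 := agω.ka
  have g3 := agω.al
  have sh1 := Fu.cN_sh (C.F i ω) (C.l ω) (C.s i ω) (C.s j ω - C.s i ω)
  rw [add_sub_cancel] at sh1
  rw [sh1] at g1
  rw [F_ga hTi, F_ka hTi, F_al hTi, si] at cNi'
  rw [F_ga hTj, F_ka hTj, F_al hTj, sj] at cNj'
  rw [F_ka hTi, F_al hTi, si] at cVi'
  rw [F_ka hTj, F_al hTj, sj] at cVj'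
  have Xi : (C.l ω).X (C.s i ω) = (C.l ω).X (C.s j ω) + (C.s i ω - C.s j ω) * (C.l ω).v := by
    rw [← Ray.X_add]; congr 1; ring
  have Xi' : (C.l ω').X (C.s i ω) = (C.l ω').X (C.s j ω) + (C.s i ω - C.s j ω) * (C.l ω').v := by
    rw [← Ray.X_add]; congr 1; ring
  have Ni : (C.l ω).N (C.s i ω) = (C.l ω).N (C.s j ω) + (C.s i ω - C.s j ω) * (C.l ω).w := by
    rw [← Ray.N_add]; congr 1; ring
  have Ni' : (C.l ω').N (C.s i ω) = (C.l ω').N (C.s j ω) + (C.s i ω - C.s j ω) * (C.l ω').w := by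
    rw [← Ray.N_add]; congr 1; ring
  have p1 : |rd (C.rf j) (C.p ω) - rd (C.rf i) (C.p ω)| ≤ q2 (C.R i b - C.μ) :=
    (rd_sub (C.hf hij) _).trans (q2_le (by omega))
  have p1' : |rd (C.rf j) (C.p ω') - rd (C.rf i) (C.p ω')| ≤ q2 (C.R i b - C.μ) :=
    (rd_sub (C.hf hij) _).trans (q2_le (by omega))
  have p2' : |rd (C.rf j) (C.p ω')| ≤ 2 :=
    (p_le hK' (by omega)).trans (by have := q2_le_one (2 * C.μ); linarith)
  have qa := q2_pos (C.a j)
  have eX : q2 (C.a j + b - C.μ) = q2 (C.a j) * q2 (b - C.μ) := by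
    rw [← q2_add]; congr 1; omega
  have rk0 := q2_pos (C.rk i)
  have rk1 := q2_le_one (C.rk i)
  have β0 := q2_pos (b - C.μ)
  have b1 : q2 b ≤ q2 (b - C.μ) := q2_le (by omega)
  have b2 : q2 (b + 2 * C.μ) ≤ q2 (b - C.μ) := q2_le (by omega)
  have b3 : q2 (C.rk i) * q2 (b - C.μ) ≤ q2 (C.R i b - C.μ) := by
    rw [← q2_add]; exact q2_le (by omega)
  have dal : |(C.F j ω).al - (C.F i ω).al| ≤ K * q2 (C.rk i) / q2 (C.a j) := by
    rw [le_div_iff₀ qa]; exact g3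
  have alj' : |(C.F j ω).al| ≤ K / q2 (C.a j) := by
    rw [le_div_iff₀ qa]; exact hK.a1 j
  have dka : |(C.F j ω).ka - ((C.F i ω).ka - (C.s j ω - C.s i ω) * (C.F i ω).al)| ≤
      K * q2 (C.rk i) := g2
  have m1 : |((C.F j ω).al - (C.F i ω).al) * ((C.l ω').X (C.s j ω) - (C.l ω).X (C.s j ω))| ≤
      K * (q2 (C.rk i) * q2 (b - C.μ)) := by
    refine (abs_mul_le dal hN.X).trans (le_of_eq ?_)
    rw [eX]; field_simp
  have m2 : |((C.F j ω).al - (C.F i ω).al) * ((C.l ω').N (C.s j ω) - (C.l ω).N (C.s j ω))| ≤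
      K * (q2 (C.rk i) * q2 (b - C.μ)) := by
    refine (abs_mul_le dal hN.N).trans (le_of_eq ?_)
    rw [eX]; field_simp
  have m3 : |(C.F j ω).al * ((C.l ω').X (C.s j ω) - (C.l ω).X (C.s j ω))| ≤ K * q2 (b - C.μ) := by
    refine (abs_mul_le alj' hN.X).trans (le_of_eq ?_)
    rw [eX]; field_simp
  have m4 : |(C.F j ω).al * ((C.l ω').N (C.s j ω) - (C.l ω).N (C.s j ω))| ≤ K * q2 (b - C.μ) := by
    refine (abs_mul_le alj' hN.N).trans (le_of_eq ?_)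
    rw [eX]; field_simp
  have m5 : |((C.F j ω).ka - ((C.F i ω).ka - (C.s j ω - C.s i ω) * (C.F i ω).al)) *
      ((C.l ω').v - (C.l ω).v)| ≤ K * (q2 (C.rk i) * q2 (b - C.μ)) := by
    refine (abs_mul_le dka hN.v).trans ?_
    rw [mul_assoc]
    exact mul_le_mul_of_nonneg_left (mul_le_mul_of_nonneg_left b1 rk0.le) K0.le
  have m6 : |((C.F j ω).ka - ((C.F i ω).ka - (C.s j ω - C.s i ω) * (C.F i ω).al)) *
      ((C.l ω').w - (C.l ω).w)| ≤ 10 * K ^ 3 * (q2 (C.rk i) * q2 (b - C.μ)) := by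
    refine (abs_mul_le dka hN.w).trans ?_
    calc K * q2 (C.rk i) * (10 * K ^ 2 * q2 (b + 2 * C.μ)) =
        10 * K ^ 3 * (q2 (C.rk i) * q2 (b + 2 * C.μ)) := by ring
      _ ≤ _ := mul_le_mul_of_nonneg_left (mul_le_mul_of_nonneg_left b2 rk0.le) (by positivity)
  have m7 : |(C.F j ω).ka * ((C.l ω').v - (C.l ω).v)| ≤ K * q2 (b - C.μ) :=
    (abs_mul_le (hK.k1 j) hN.v).trans (mul_le_mul_of_nonneg_left b1 K0.le)
  have m8 : |(C.F j ω).ka * ((C.l ω').w - (C.l ω).w)| ≤ 10 * K ^ 3 * q2 (b - C.μ) := by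
    refine (abs_mul_le (hK.k1 j) hN.w).trans ?_
    calc K * (10 * K ^ 2 * q2 (b + 2 * C.μ)) = 10 * K ^ 3 * q2 (b + 2 * C.μ) := by ring
      _ ≤ _ := mul_le_mul_of_nonneg_left b2 (by positivity)
  have hci' : |(C.F i ω').cN (C.l ω') (C.s i ω)| ≤ K := by
    have := cN_abs hK' h1 i
    rwa [si] at this
  refine ph_aux (cj' := (C.F j ω').cN (C.l ω') (C.s j ω)) h1 (q2_pos _).le (q2_pos _).le β0.le rk0.le
    rk1 b3 ?_ ?_ ?_ ?_ hP p2' p1 p1' (cN_abs hK h1 i) hci' (hK.n1 j) g1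
    (m5.trans (mul_le_mul_of_nonneg_left b3 K0.le)) (m1.trans (mul_le_mul_of_nonneg_left b3 K0.le))
    m6 m2 m7 m3 m8 m4
  · rw [Xi] at cVi
    rw [Xi'] at cVi'
    linear_combination cVi' - cVi - cVj' + cVj
  · rw [Ni] at cNi
    rw [Ni'] at cNi'
    linear_combination cNi' - cNj' - cNi + cNj
  · linear_combination -cVj' + cVj
  · linear_combination cNj' - cNj

end Pth

end Vale.Agent.P106.U.Cell
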