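import Vale.Agent.P127.U.CellD
import Vale.Agent.P127.U.Mic.Colp

/-!
# P106 / U : cells of light rays along a deterministic path (helper101)

* `Ray` : true light ray `x(t) = x + t v`, `n(t) = n + t w`, `z(t) = z + t (v² + w²)/2` (`x, v` = V-components,
  `n, w` = N-components in the frame of the start slab, in which all own slopes are small).
* `Fu` : functional `γ n - φ x - κ z - α (|P|²/2 - (t - s) z)` WRITTEN AT THE TIME `s`; `sh d` rewrites it at the
  time `s + d`; it is affine in `t` along light rays: value `g`, derivative `gd`. `cN`, `cV` : coefficients in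
  the coordinates centred at the ray (constant along the ray), own slope `= cV / cN`.
* `Pth` : deterministic levels `a` (time), `rf` (own slope), `rk` (kappa/line); `T i` = tau (time digits, kappa
  and line history), real numbers `ga ka al` and the time digits are functions of the value of `T i`; `p` = own
  slope (real variable, digits `rf i` of it are NOT in the cells).
* `F i ω` : slab functional of step `i` through the ray `l ω`, own slope `rd (rf i) p`.
* `R i b = rk i + min b (rf i - rk i)`; slope at the base velocity `rd (min b (rf i - rk i)) v` : `sl i b`.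
* `cell i b` : single level cell; `v` to `b` digits and the seven numbers `va i b ω k` to `lv i b k` digits with the
  offsets `o k` (margins `μ` for the positions and `w`, `3μ` for the null coordinate and the slope, `5μ` for the
  derivative, `7μ` for the value of the slab functional with rounded slope).
* `Bad K i b` : one of the seven numbers is `K 2^-(lv+μ)`-close to a change of digits.
* `A j b i'` : nominal position read at the rounded time of the LATER step `i'` in the own frame of the step `j`.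
* `VZ i b` : nominal `(X, Z)`-position at the own time.
-/

set_option autoImplicit false

namespace Vale.Agent.P106.U.Cell

open Finset Vale.Agent.P127 Vale.Agent.P127.Stk
open Vale.Agent.P127.U.CellD (q2 rd Nb)

/-! ### rays -/

/-- a light ray -/
@[ext] structure Ray where
  x : ℝ
  n : ℝ
  z : ℝ
  v : ℝ
  w : ℝ

namespace Ray

/-- V-position at the time `s` -/
def X (l : Ray) (s : ℝ) : ℝ := l.x + s * l.v

/-- N-position at the time `s` -/
def N (l : Ray) (s : ℝ) : ℝ := l.n + s * l.w

/-- z-position at the time `s` -/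
noncomputable def Z (l : Ray) (s : ℝ) : ℝ := l.z + s * ((l.v ^ 2 + l.w ^ 2) / 2)

/-- null coordinate of `l'` centred at `l`, at the time `s` -/
noncomputable def dz (l l' : Ray) (s : ℝ) : ℝ :=
  l'.Z s - l.Z s - l.v * (l'.X s - l.X s) - l.w * (l'.N s - l.N s)

lemma X_add (l : Ray) (s d : ℝ) : l.X (s + d) = l.X s + d * l.v := by unfold X; ring

lemma N_add (l : Ray) (s d : ℝ) : l.N (s + d) = l.N s + d * l.w := by unfold N; ring

lemma Z_add (l : Ray) (s d : ℝ) : l.Z (s + d) = l.Z s + d * ((l.v ^ 2 + l.w ^ 2) / 2) := by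
  unfold Z; ring

lemma dz_add (l l' : Ray) (s d : ℝ) :
    l.dz l' (s + d) = l.dz l' s + d * (((l'.v - l.v) ^ 2 + (l'.w - l.w) ^ 2) / 2) := by
  unfold dz Z X N; ring

end Ray

/-! ### functionals -/

/-- coefficients of a functional `γ n - φ x - κ z - α (|P|²/2 - (t - s) z)`, written at the time `s` -/
@[ext] structure Fu where
  ga : ℝ
  ph : ℝ
  ka : ℝ
  al : ℝ

namespace Fu

/-- the same functional written at the time `s + d` -/
def sh (F : Fu) (d : ℝ) : Fu := { F with ka := F.ka - d * F.al }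

/-- value on the ray at the time `s` at which it is written -/
noncomputable def g (F : Fu) (l : Ray) (s : ℝ) : ℝ :=
  F.ga * l.N s - F.ph * l.X s - F.ka * l.Z s - F.al * ((l.X s ^ 2 + l.N s ^ 2) / 2)

/-- derivative along the ray -/
noncomputable def gd (F : Fu) (l : Ray) (s : ℝ) : ℝ :=
  F.ga * l.w - F.ph * l.v - F.ka * ((l.v ^ 2 + l.w ^ 2) / 2) -
    F.al * (l.X s * l.v + l.N s * l.w - l.Z s)

/-- N-coefficient in the coordinates centred at the ray -/
def cN (F : Fu) (l : Ray) (s : ℝ) : ℝ := F.ga - F.ka * l.w - F.al * l.N s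

/-- V-coefficient (with the sign of the slope) in the coordinates centred at the ray -/
def cV (F : Fu) (l : Ray) (s : ℝ) : ℝ := F.ph + F.ka * l.v + F.al * l.X s

lemma g_sh (F : Fu) (l : Ray) (s d : ℝ) : (F.sh d).g l (s + d) = F.g l s + d * F.gd l s := by
  unfold g gd sh Ray.X Ray.N Ray.Z; ring

lemma gd_sh (F : Fu) (l : Ray) (s d : ℝ) : (F.sh d).gd l (s + d) = F.gd l s := by
  unfold gd sh Ray.X Ray.N Ray.Z; ring

lemma cN_sh (F : Fu) (l : Ray) (s d : ℝ) : (F.sh d).cN l (s + d) = F.cN l s := by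
  unfold cN sh Ray.N; ring

lemma cV_sh (F : Fu) (l : Ray) (s d : ℝ) : (F.sh d).cV l (s + d) = F.cV l s := by
  unfold cV sh Ray.X; ring

/-- difference of the values on two rays -/
lemma g_sub (F : Fu) (l l' : Ray) (s : ℝ) :
    F.g l' s - F.g l s = F.cN l s * (l'.N s - l.N s) - F.cV l s * (l'.X s - l.X s) -
      F.ka * l.dz l' s - F.al * (((l'.X s - l.X s) ^ 2 + (l'.N s - l.N s) ^ 2) / 2) := by
  unfold g cN cV Ray.dz; ring

/-- difference of the derivatives on two rays -/
lemma gd_sub (F : Fu) (l l' : Ray) (s : ℝ) :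
    F.gd l' s - F.gd l s = F.cN l s * (l'.w - l.w) - F.cV l s * (l'.v - l.v) -
      F.ka * (((l'.v - l.v) ^ 2 + (l'.w - l.w) ^ 2) / 2) -
      F.al * ((l'.X s - l.X s) * (l'.v - l.v) + (l'.N s - l.N s) * (l'.w - l.w) - l.dz l' s) := by
  unfold gd cN cV Ray.dz; ring

end Fu

/-! ### the path -/

/-- data of a deterministic path of light rays -/
structure Pth (Ω τ : Type) where
  /-- digits of the time known at step `i` -/
  a : ℕ → ℕ
  /-- digits of the own slope known at step `i` -/
  rf : ℕ → ℕ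
  /-- digits of kappa (line) known at step `i` -/
  rk : ℕ → ℕ
  ha : Monotone a
  hf : Monotone rf
  hk : Monotone rk
  hkf : ∀ i, rk i ≤ rf i
  /-- margin -/
  μ : ℕ
  /-- offsets: 0 = X, 1 = w, 2 = N, 3 = Z, 4 = slope, 5 = gd, 6 = g -/
  o : Fin 7 → ℝ
  /-- the ray -/
  l : Ω → Ray
  /-- the time -/
  t : Ω → ℝ
  /-- own slope -/
  p : Ω → ℝ
  /-- the letter `tau` : time, kappa, line history -/
  T : ℕ → Ω → τ
  /-- time digits as a function of the letter -/
  tm : ℕ → τ → ℤ
  /-- numbers of the slab as functions of the letter (written at the rounded time) -/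
  ga : ℕ → τ → ℝ
  ka : ℕ → τ → ℝ
  al : ℕ → τ → ℝ
  hT : ∀ i ω ω', T (i + 1) ω = T (i + 1) ω' → T i ω = T i ω'
  htm : ∀ i ω, tm i (T i ω) = fl1 (a i) (t ω)

namespace Pth

variable {Ω τ : Type} (C : Pth Ω τ)

/-- the rounded time of the letter `θ` -/
noncomputable def tv (i : ℕ) (θ : τ) : ℝ := (C.tm i θ : ℝ) / 2 ^ C.a i

/-- slab functional of step `i`, letter `θ`, through the ray `l`, own slope `q` -/
noncomputable def Fv (i : ℕ) (θ : τ) (l : Ray) (q : ℝ) : Fu :=
  ⟨C.ga i θ, q * (C.ga i θ - C.ka i θ * l.w - C.al i θ * l.N (C.tv i θ)) - C.ka i θ * l.v -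
    C.al i θ * l.X (C.tv i θ), C.ka i θ, C.al i θ⟩

/-- the rounded time -/
noncomputable def s (i : ℕ) (ω : Ω) : ℝ := rd (C.a i) (C.t ω)

/-- the slab functional of step `i` -/
noncomputable def F (i : ℕ) (ω : Ω) : Fu := C.Fv i (C.T i ω) (C.l ω) (rd (C.rf i) (C.p ω))

/-- digits of the base velocity used for the slope -/
def bs (i b : ℕ) : ℕ := min b (C.rf i - C.rk i)

/-- relative thickness of the slab in the cell of cap `b` -/
def R (i b : ℕ) : ℕ := C.rk i + C.bs i b

/-- slope of the slab at the velocity `rd (bs i b) v`, position `x = 0` -/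
noncomputable def sl (i b : ℕ) (ω : Ω) : ℝ :=
  (C.F i ω).ph + (C.F i ω).ka * rd (C.bs i b) (C.l ω).v

/-- rounding to `n` digits with the offset `k` -/
noncomputable def ro (k : Fin 7) (n : ℕ) (y : ℝ) : ℝ := rd n (y + C.o k) - C.o k

/-- the slab functional with slope rounded to `m` digits -/
noncomputable def Fr (i b m : ℕ) (ω : Ω) : Fu :=
  { C.F i ω with ph := C.ro 4 m (C.sl i b ω) - (C.F i ω).ka * rd (C.bs i b) (C.l ω).v }

/-- null coordinate with respect to the base velocity, at the time `s` -/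
noncomputable def Zs (b : ℕ) (s : ℝ) (ω : Ω) : ℝ :=
  (C.l ω).Z s - rd b (C.l ω).v * (C.l ω).X s - C.ro 1 (b - C.μ) (C.l ω).w * (C.l ω).N s

/-- levels of the seven numbers of the cell -/
def lv (i b : ℕ) : Fin 7 → ℕ :=
  ![C.a i + b - C.μ, b - C.μ, C.a i + b - C.μ, C.a i + 2 * b - 3 * C.μ, C.R i b - 3 * C.μ,
    C.R i b + b - 5 * C.μ, C.a i + b + C.R i b - 7 * C.μ]

/-- the seven numbers of the cell -/
noncomputable def va (i b : ℕ) (ω : Ω) : Fin 7 → ℝ :=
  ![(C.l ω).X (C.s i ω), (C.l ω).w, (C.l ω).N (C.s i ω), C.Zs b (C.s i ω) ω, C.sl i b ω,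
    (C.Fr i b (C.R i b - 3 * C.μ) ω).gd (C.l ω) (C.s i ω),
    (C.Fr i b (C.R i b - 3 * C.μ) ω).g (C.l ω) (C.s i ω)]

/-- type of the digits of a cell, without the letter -/
abbrev Dg := ℤ × (Fin 7 → ℤ)

/-- digits of the cell -/
noncomputable def dg (i b : ℕ) (ω : Ω) : Dg :=
  (fl1 b (C.l ω).v, fun k => fl1 (C.lv i b k) (C.va i b ω k + C.o k))

/-- **the cell** of step `i` and cap `b` -/
noncomputable def cell (i b : ℕ) (ω : Ω) : τ × Dg := (C.T i ω, C.dg i b ω)

/-- one of the numbers of the cell is close to a change of digits -/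
def Bad (K : ℝ) (i b : ℕ) (ω : Ω) : Prop :=
  ∃ k, Nb (C.lv i b k) (C.va i b ω k + C.o k) (K * q2 (C.lv i b k + C.μ))

/-- the full history letter: tau and the digits of the own slope -/
noncomputable def U (i : ℕ) (ω : Ω) : τ × ℤ := (C.T i ω, fl1 (C.rf i) (C.p ω))

/-- nominal `(X, Z)`-position at the own time -/
noncomputable def VZ (i b : ℕ) (ω : Ω) : ℤ × ℤ :=
  (fl1 (C.a i + b) ((C.l ω).X (C.s i ω)), fl1 (C.a i + 2 * b) (C.Zs b (C.s i ω) ω))

/-- **nominal position** of level `j`, cap `b`, read at the rounded time of the later step `i'` in the own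
frame of the step `j` (with the nominal slope of the slab) -/
noncomputable def A (j b i' : ℕ) (ω : Ω) : ℤ × ℤ × ℤ × ℤ × ℤ × ℤ × ℤ :=
  (fl1 b (C.l ω).v, fl1 (b - C.μ) ((C.l ω).w + C.o 1), fl1 (C.a j + b) ((C.l ω).X (C.s i' ω)),
    fl1 (C.a j + b) ((C.l ω).N (C.s i' ω)), fl1 (C.a j + 2 * b) (C.Zs b (C.s i' ω) ω),
    fl1 (C.R j b) (C.sl j b ω + C.o 4),
    fl1 (C.a j + b + C.R j b)
      (((C.Fr j b (C.R j b) ω).sh (C.s i' ω - C.s j ω)).g (C.l ω) (C.s i' ω)))

/-- the two functionals (written at the same time `s`) agree at the ray `l` to `r` digits, in a ball of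
level `A`, up to the constant `K` -/
structure Agr (K : ℝ) (r A : ℕ) (F G : Fu) (l : Ray) (s : ℝ) : Prop where
  cN : |G.cN l s - F.cN l s| ≤ K * q2 r
  ka : |G.ka - F.ka| ≤ K * q2 r
  al : |G.al - F.al| * q2 A ≤ K * q2 r

/-- normalisation and compatibility of the slabs of the path -/
structure Ok (K : ℝ) (ω : Ω) : Prop where
  v1 : |(C.l ω).v| ≤ 2
  w1 : |(C.l ω).w| ≤ 2
  p1 : |C.p ω| ≤ q2 (2 * C.μ)
  n1 : ∀ i, 1 ≤ K * (C.F i ω).cN (C.l ω) (C.s i ω)
  n2 : ∀ i, (C.F i ω).cN (C.l ω) (C.s i ω) ≤ K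
  k1 : ∀ i, |(C.F i ω).ka| ≤ K
  a1 : ∀ i, |(C.F i ω).al| * q2 (C.a i) ≤ K
  ag : ∀ i j, i ≤ j →
    Agr K (C.rk i) (C.a j) ((C.F i ω).sh (C.s j ω - C.s i ω)) (C.F j ω) (C.l ω) (C.s j ω)

/-- the levels of `(i, b)` are above the margins -/
def Lev (i b : ℕ) : Prop := 8 * C.μ ≤ b ∧ 8 * C.μ ≤ C.R i b

end Pth

end Vale.Agent.P106.U.Cell
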