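import Vale.Agent.P106.U.CellN

/-!
# P106 / U : equality of cells from closeness (helper101)

* `Clo i b c ω ω'` : same letter `T i`, same digits of `v`, rays and slopes close in the step `i`.
* `Clo.cell` : then the cells are equal outside `Bad (4 c) i b`.
* `cell_down` (N1) : the cell of the later step `j` determines the cell of the step `i` outside `Bad`.
-/

set_option autoImplicit false

namespace Vale.Agent.P106.U.Cell

open Finset Vale.Agent.P127 Vale.Agent.P127.Stk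
open Vale.Agent.P127.U.CellD

namespace Pth

variable {Ω τ : Type} {C : Pth Ω τ} {i j b : ℕ} {ω ω' : Ω} {K c : ℝ}

/-- outside `Bad` close numbers have the same digits -/
lemma fl_eq (hB : ¬ C.Bad K i b ω) (k : Fin 7)
    (h : |C.va i b ω' k - C.va i b ω k| ≤ K * q2 (C.lv i b k + C.μ)) :
    fl1 (C.lv i b k) (C.va i b ω k + C.o k) = fl1 (C.lv i b k) (C.va i b ω' k + C.o k) := by
  unfold Bad at hB
  push Not at hB
  refine Nb.eq (hB k) ?_ ?_
  · rw [sub_self, abs_zero]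
    exact (abs_nonneg _).trans h
  · rwa [add_sub_add_right_eq_sub]

lemma Bad_mono {K' : ℝ} (hK : K ≤ K') (h : C.Bad K i b ω) : C.Bad K' i b ω := by
  obtain ⟨k, y, h1, h2, h3⟩ := h
  have hq := (q2_pos (C.lv i b k + C.μ))
  have e := mul_le_mul_of_nonneg_right hK hq.le
  refine ⟨k, ?_⟩
  by_contra hn
  have hy : |y - (C.va i b ω k + C.o k)| ≤ K' * q2 (C.lv i b k + C.μ) := by
    rw [abs_le]; constructor <;> linarith
  have hz : |C.va i b ω k + C.o k - K * q2 (C.lv i b k + C.μ) - (C.va i b ω k + C.o k)| ≤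
      K' * q2 (C.lv i b k + C.μ) := by
    have h0 : 0 ≤ K * q2 (C.lv i b k + C.μ) := by linarith
    rw [abs_le]; constructor <;> linarith
  exact h3 (Nb.eq hn hy hz)

/-- closeness in the step `i` (cap `b`) -/
structure Clo (C : Pth Ω τ) (i b : ℕ) (c : ℝ) (ω ω' : Ω) : Prop where
  T : C.T i ω = C.T i ω'
  v : fl1 b (C.l ω).v = fl1 b (C.l ω').v
  N : Nr (C.F i ω) (C.l ω) (C.l ω') (C.s i ω) (q2 b) (c * q2 b) (c * q2 (C.a i + b))
    (c * q2 (C.a i + b)) (c * q2 (C.a i + 2 * b - C.μ)) (c * q2 (C.R i b + b - 4 * C.μ))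
    (c * q2 (C.a i + b + C.R i b - 6 * C.μ))
  ph : |(C.F i ω').ph - (C.F i ω).ph| ≤ c * q2 (C.R i b - 2 * C.μ)

/-- **close ⇒ same cell**, outside `Bad` -/
theorem Clo.cell (h : C.Clo i b c ω ω') (hl : C.Lev i b) (hc : 1 ≤ c)
    (hB : ¬ C.Bad (4 * c) i b ω) : C.cell i b ω = C.cell i b ω' := by
  obtain ⟨hT, hv, hN, hp⟩ := h
  obtain ⟨hb, hR⟩ := hl
  have f0 := fl_eq (ω' := ω') hB 0 (by
    rw [va0, va0, s_eq hT, lv0, show C.a i + b - C.μ + C.μ = C.a i + b by omega]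
    have := q2_pos (C.a i + b)
    exact hN.X.trans (by nlinarith))
  have f1 := fl_eq (ω' := ω') hB 1 (by
    rw [va1, va1, lv1, show b - C.μ + C.μ = b by omega]
    have := q2_pos b
    exact hN.w.trans (by nlinarith))
  have f2 := fl_eq (ω' := ω') hB 2 (by
    rw [va2, va2, s_eq hT, lv2, show C.a i + b - C.μ + C.μ = C.a i + b by omega]
    have := q2_pos (C.a i + b)
    exact hN.N.trans (by nlinarith))
  have f3 := fl_eq (ω' := ω') hB 3 (by
    rw [va3, va3, s_eq hT, lv3, show C.a i + 2 * b - 3 * C.μ + C.μ = C.a i + 2 * b - 2 * C.μ by omega,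
      Zs_sub hv f1]
    have q := q2_pos (C.a i + 2 * b - 2 * C.μ)
    have t1 : |((C.l ω).v - rd b (C.l ω).v) * ((C.l ω').X (C.s i ω) - (C.l ω).X (C.s i ω))| ≤
        c * q2 (C.a i + 2 * b - 2 * C.μ) := by
      have e := rd_err b (C.l ω).v
      rw [abs_sub_comm] at e
      refine (abs_mul_le e hN.X).trans ?_
      calc q2 b * (c * q2 (C.a i + b)) = c * (q2 b * q2 (C.a i + b)) := by ring
        _ ≤ _ := mul_le_mul_of_nonneg_left (by rw [← q2_add]; exact q2_le (by omega)) (by linarith)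
    have t2 : |((C.l ω).w - C.ro 1 (b - C.μ) (C.l ω).w) *
        ((C.l ω').N (C.s i ω) - (C.l ω).N (C.s i ω))| ≤ c * q2 (C.a i + 2 * b - 2 * C.μ) := by
      refine (abs_mul_le (C.ro_err 1 (b - C.μ) (C.l ω).w) hN.N).trans ?_
      calc q2 (b - C.μ) * (c * q2 (C.a i + b)) = c * (q2 (b - C.μ) * q2 (C.a i + b)) := by ring
        _ ≤ _ := mul_le_mul_of_nonneg_left (by rw [← q2_add]; exact q2_le (by omega)) (by linarith)
    have t3 : c * q2 (C.a i + 2 * b - C.μ) ≤ c * q2 (C.a i + 2 * b - 2 * C.μ) :=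
      mul_le_mul_of_nonneg_left (q2_le (by omega)) (by linarith)
    have t4 := hN.z
    rw [abs_le] at t1 t2 t4 ⊢
    constructor
    · nlinarith [t1.1, t2.1, t4.1]
    · nlinarith [t1.2, t2.2, t4.2])
  have f4 := fl_eq (ω' := ω') hB 4 (by
    rw [va4, va4, sl_sub hT hv, lv4, show C.R i b - 3 * C.μ + C.μ = C.R i b - 2 * C.μ by omega]
    have := q2_pos (C.R i b - 2 * C.μ)
    exact hp.trans (by nlinarith))
  have eF : C.Fr i b (C.R i b - 3 * C.μ) ω' = C.Fr i b (C.R i b - 3 * C.μ) ω := Fr_eq hT hv f4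
  have hF := C.Fr_ph i b (C.R i b - 3 * C.μ) ω
  have g5 : ∀ l, (C.Fr i b (C.R i b - 3 * C.μ) ω).gd l (C.s i ω) = (C.F i ω).gd l (C.s i ω) +
      ((C.F i ω).ph - (C.Fr i b (C.R i b - 3 * C.μ) ω).ph) * l.v := fun l => Fu.gd_ph _ _ _ _
  have g6 : ∀ l, (C.Fr i b (C.R i b - 3 * C.μ) ω).g l (C.s i ω) = (C.F i ω).g l (C.s i ω) +
      ((C.F i ω).ph - (C.Fr i b (C.R i b - 3 * C.μ) ω).ph) * l.X (C.s i ω) :=
    fun l => Fu.g_ph _ _ _ _
  have f5 := fl_eq (ω' := ω') hB 5 (by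
    rw [va5, va5, s_eq hT, eF, g5, g5, lv5,
      show C.R i b + b - 5 * C.μ + C.μ = C.R i b + b - 4 * C.μ by omega]
    have q := q2_pos (C.R i b + b - 4 * C.μ)
    have t1 : |((C.F i ω).ph - (C.Fr i b (C.R i b - 3 * C.μ) ω).ph) *
        ((C.l ω').v - (C.l ω).v)| ≤ q2 (C.R i b + b - 4 * C.μ) := by
      refine (abs_mul_le hF hN.v).trans ?_
      rw [← q2_add]; exact q2_le (by omega)
    have t2 := hN.c
    rw [abs_le] at t1 t2 ⊢
    constructor
    · nlinarith [t1.1, t2.1]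
    · nlinarith [t1.2, t2.2])
  have f6 := fl_eq (ω' := ω') hB 6 (by
    rw [va6, va6, s_eq hT, eF, g6, g6, lv6,
      show C.a i + b + C.R i b - 7 * C.μ + C.μ = C.a i + b + C.R i b - 6 * C.μ by omega]
    have q := q2_pos (C.a i + b + C.R i b - 6 * C.μ)
    have t1 : |((C.F i ω).ph - (C.Fr i b (C.R i b - 3 * C.μ) ω).ph) *
        ((C.l ω').X (C.s i ω) - (C.l ω).X (C.s i ω))| ≤ c * q2 (C.a i + b + C.R i b - 6 * C.μ) := by
      refine (abs_mul_le hF hN.X).trans ?_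
      calc q2 (C.R i b - 3 * C.μ) * (c * q2 (C.a i + b)) =
          c * (q2 (C.R i b - 3 * C.μ) * q2 (C.a i + b)) := by ring
        _ ≤ _ := mul_le_mul_of_nonneg_left (by rw [← q2_add]; exact q2_le (by omega)) (by linarith)
    have t2 := hN.g
    rw [abs_le] at t1 t2 ⊢
    constructor
    · nlinarith [t1.1, t2.1]
    · nlinarith [t1.2, t2.2])
  refine cell_iff.2 ⟨hT, hv, fun k => ?_⟩
  fin_cases k
  · exact f0
  · exact f1
  · exact f2
  · exact f3
  · exact f4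
  · exact f5
  · exact f6

/-- closeness from the cell of a later step -/
theorem clo_of_cell (h1 : 1 ≤ K) (hK : C.Ok K ω) (hK' : C.Ok K ω') (hij : i ≤ j) (hli : C.Lev i b)
    (hlj : C.Lev j b) (ha : C.a i + 2 * C.μ ≤ C.a j) (hR : C.R i b + C.μ ≤ C.R j b)
    (h : C.cell j b ω = C.cell j b ω') : C.Clo i b (160 * K ^ 7) ω ω' := by
  have hN := core h1 hK hij hli hlj h
  have hp := core_ph h1 hK hK' hij hli hlj h
  obtain ⟨hb, hRi⟩ := hli
  have k27 : K ^ 2 ≤ K ^ 7 := pow_le_pow_right₀ h1 (by norm_num)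
  have k47 : K ^ 4 ≤ K ^ 7 := pow_le_pow_right₀ h1 (by norm_num)
  have k57 : K ^ 5 ≤ K ^ 7 := pow_le_pow_right₀ h1 (by norm_num)
  have k7 : 1 ≤ K ^ 7 := one_le_pow₀ h1
  refine ⟨T_mono hij (cell_iff.1 h).1, (cell_iff.1 h).2.1, hN.mono le_rfl ?_ ?_ ?_ ?_ ?_ ?_, ?_⟩
  · have u : q2 (b + 2 * C.μ) ≤ q2 b := q2_le (by omega)
    have q := q2_pos (b + 2 * C.μ)
    have q' := q2_pos b
    calc 10 * K ^ 2 * q2 (b + 2 * C.μ) ≤ 10 * K ^ 7 * q2 b :=
          mul_le_mul (by linarith) u q.le (by linarith)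
      _ ≤ _ := mul_le_mul_of_nonneg_right (by linarith) q'.le
  · have u : q2 (C.a j + b - C.μ) ≤ q2 (C.a i + b) := q2_le (by omega)
    have q := q2_pos (C.a i + b)
    nlinarith
  · have u : q2 (C.a j + b - C.μ) ≤ q2 (C.a i + b) := q2_le (by omega)
    have q := q2_pos (C.a i + b)
    nlinarith
  · have u : q2 (C.a j + 2 * b - 3 * C.μ) ≤ q2 (C.a i + 2 * b - C.μ) := q2_le (by omega)
    have u' : q2 (C.a i + 2 * b) ≤ q2 (C.a i + 2 * b - C.μ) := q2_le (by omega)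
    have q := q2_pos (C.a i + 2 * b - C.μ)
    have t : 51 * K ^ 4 * q2 (C.a i + 2 * b) ≤ 51 * K ^ 7 * q2 (C.a i + 2 * b - C.μ) :=
      mul_le_mul (by linarith) u' (q2_pos _).le (by linarith)
    nlinarith
  · have u : q2 (C.R j b + b - 5 * C.μ) ≤ q2 (C.R i b + b - 4 * C.μ) := q2_le (by omega)
    have u' : q2 (C.R i b + b - 3 * C.μ) ≤ q2 (C.R i b + b - 4 * C.μ) := q2_le (by omega)
    have q := q2_pos (C.R i b + b - 4 * C.μ)
    have t1 : 2 * K ^ 2 * q2 (C.R j b + b - 5 * C.μ) ≤ 2 * K ^ 7 * q2 (C.R i b + b - 4 * C.μ) :=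
      mul_le_mul (by linarith) u (q2_pos _).le (by linarith)
    have t2 : 131 * K ^ 7 * q2 (C.R i b + b - 3 * C.μ) ≤ 131 * K ^ 7 * q2 (C.R i b + b - 4 * C.μ) :=
      mul_le_mul_of_nonneg_left u' (by linarith)
    nlinarith
  · have u : q2 (C.a j + b + C.R j b - 7 * C.μ) ≤ q2 (C.a i + b + C.R i b - 6 * C.μ) :=
      q2_le (by omega)
    have u' : q2 (C.a i + C.R j b + b - 5 * C.μ) ≤ q2 (C.a i + b + C.R i b - 6 * C.μ) :=
      q2_le (by omega)
    have u'' : q2 (C.a i + b + C.R i b - 3 * C.μ) ≤ q2 (C.a i + b + C.R i b - 6 * C.μ) :=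
      q2_le (by omega)
    have q := q2_pos (C.a i + b + C.R i b - 6 * C.μ)
    have t1 : 2 * K ^ 2 * q2 (C.a j + b + C.R j b - 7 * C.μ) ≤
        2 * K ^ 7 * q2 (C.a i + b + C.R i b - 6 * C.μ) :=
      mul_le_mul (by linarith) u (q2_pos _).le (by linarith)
    have t2 : 2 * K ^ 2 * q2 (C.a i + C.R j b + b - 5 * C.μ) ≤
        2 * K ^ 7 * q2 (C.a i + b + C.R i b - 6 * C.μ) :=
      mul_le_mul (by linarith) u' (q2_pos _).le (by linarith)
    have t3 : 140 * K ^ 7 * q2 (C.a i + b + C.R i b - 3 * C.μ) ≤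
        140 * K ^ 7 * q2 (C.a i + b + C.R i b - 6 * C.μ) :=
      mul_le_mul_of_nonneg_left u'' (by linarith)
    nlinarith
  · have u : q2 (C.R j b - 3 * C.μ) ≤ q2 (C.R i b - 2 * C.μ) := q2_le (by omega)
    have u' : q2 (C.R i b - C.μ) ≤ q2 (C.R i b - 2 * C.μ) := q2_le (by omega)
    have q := q2_pos (C.R i b - 2 * C.μ)
    have t1 : 2 * K ^ 2 * q2 (C.R j b - 3 * C.μ) ≤ 2 * K ^ 7 * q2 (C.R i b - 2 * C.μ) :=
      mul_le_mul (by linarith) u (q2_pos _).le (by linarith)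
    have t2 : 50 * K ^ 5 * q2 (C.R i b - C.μ) ≤ 50 * K ^ 7 * q2 (C.R i b - 2 * C.μ) :=
      mul_le_mul (by linarith) u' (q2_pos _).le (by linarith)
    nlinarith

/-- **(N1)** the cell of a later step determines the cell, outside `Bad` -/
theorem cell_down (h1 : 1 ≤ K) (hK : C.Ok K ω) (hK' : C.Ok K ω') (hij : i ≤ j) (hli : C.Lev i b)
    (hlj : C.Lev j b) (ha : C.a i + 2 * C.μ ≤ C.a j) (hR : C.R i b + C.μ ≤ C.R j b)
    (hB : ¬ C.Bad (640 * K ^ 7) i b ω) (h : C.cell j b ω = C.cell j b ω') :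
    C.cell i b ω = C.cell i b ω' := by
  refine (clo_of_cell h1 hK hK' hij hli hlj ha hR h).cell hli ?_ ?_
  · have : 1 ≤ K ^ 7 := one_le_pow₀ h1
    linarith
  · rwa [show 4 * (160 * K ^ 7) = 640 * K ^ 7 by ring]

end Pth

end Vale.Agent.P106.U.Cell
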