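import Vale.Agent.P106.U.CellE

/-!
# P106 / U : the label as a last step (helper101)

* `Nr.w_sym` : the normal velocity from the slab, symmetric form (no a priori bound of `w' - w` is needed).
* `Lst C K i b A' H sH ω` : the functional `H` written at the time `sH` (label `W` at the time `t_h`) is compatible with
  the slab of the step `i` at the level `A'` (COMPAT), own slopes agree to `R i b` digits.
* `clo_of_fu` : two rays which are close with respect to `H` (positions to `A' + 2 b` digits, velocity `v` to `b` digits)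
  are close in the step `i`; `cell_of_fu` : same cell outside `Bad` (N4).
-/

set_option autoImplicit false

namespace Vale.Agent.P106.U.Cell

open Finset Vale.Agent.P127 Vale.Agent.P127.Stk
open Vale.Agent.P127.U.CellD

/-- symmetric form of the difference of the derivatives -/
lemma Fu.gd_sym (F : Fu) (l l' : Ray) (s : ℝ) :
    F.gd l' s - F.gd l s = (F.cN l s + F.cN l' s) / 2 * (l'.w - l.w) -
      (F.cV l s + F.cV l' s) / 2 * (l'.v - l.v) + F.al * (l.dz l' s -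
        ((l'.X s - l.X s) * (l'.v - l.v) + (l'.N s - l.N s) * (l'.w - l.w)) / 2) := by
  unfold Fu.gd Fu.cN Fu.cV Ray.dz; ring

/-- the normal velocity is determined by the slab -/
lemma w_sym {F : Fu} {l l' : Ray} {s K V a dv dX dN dz dc : ℝ} (hK : 0 ≤ K) (hF : 1 ≤ K * F.cN l s)
    (hF' : 1 ≤ K * F.cN l' s) (hV : |F.cV l s| ≤ V) (hV' : |F.cV l' s| ≤ V) (hal : |F.al| ≤ a)
    (hv : |l'.v - l.v| ≤ dv) (hw : |l'.w - l.w| ≤ 4) (hX : |l'.X s - l.X s| ≤ dX)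
    (hN : |l'.N s - l.N s| ≤ dN) (hz : |l.dz l' s| ≤ dz) (hc : |F.gd l' s - F.gd l s| ≤ dc) :
    |l'.w - l.w| ≤ K * (dc + V * dv + a * (dz + (dX * dv + 4 * dN) / 2)) := by
  have e := F.gd_sym l l' s
  have V0 : 0 ≤ V := (abs_nonneg _).trans hV
  have a0 : 0 ≤ a := (abs_nonneg _).trans hal
  set B := dc + V * dv + a * (dz + (dX * dv + 4 * dN) / 2) with hB
  have hb : |(F.cN l s + F.cN l' s) / 2 * (l'.w - l.w)| ≤ B := by
    have e2 : (F.cN l s + F.cN l' s) / 2 * (l'.w - l.w) = (F.gd l' s - F.gd l s) +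
        (F.cV l s + F.cV l' s) / 2 * (l'.v - l.v) - F.al * (l.dz l' s -
        ((l'.X s - l.X s) * (l'.v - l.v) + (l'.N s - l.N s) * (l'.w - l.w)) / 2) := by
      rw [e]; ring
    rw [e2, hB]
    refine (abs_sub _ _).trans (add_le_add ((abs_add_le _ _).trans (add_le_add hc ?_)) ?_)
    · refine Pth.abs_mul_le ?_ hv
      rw [abs_le] at hV hV' ⊢
      constructor <;> linarith
    · refine Pth.abs_mul_le hal ((abs_sub _ _).trans (add_le_add hz ?_))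
      rw [abs_div, abs_of_pos (show (0 : ℝ) < 2 by norm_num)]
      refine div_le_div_of_nonneg_right ((abs_add_le _ _).trans (add_le_add (Pth.abs_mul_le hX hv) ?_))
        (by norm_num)
      rw [mul_comm 4 dN]
      exact Pth.abs_mul_le hN hw
  have h1 : 1 ≤ K * ((F.cN l s + F.cN l' s) / 2) := by linarith
  calc |l'.w - l.w| = 1 * |l'.w - l.w| := (one_mul _).symm
    _ ≤ K * ((F.cN l s + F.cN l' s) / 2) * |l'.w - l.w| :=
        mul_le_mul_of_nonneg_right h1 (abs_nonneg _)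
    _ ≤ |K * ((F.cN l s + F.cN l' s) / 2)| * |l'.w - l.w| :=
        mul_le_mul_of_nonneg_right (le_abs_self _) (abs_nonneg _)
    _ = |K| * |(F.cN l s + F.cN l' s) / 2 * (l'.w - l.w)| := by rw [abs_mul, abs_mul, mul_assoc]
    _ ≤ |K| * B := mul_le_mul_of_nonneg_left hb (abs_nonneg _)
    _ = K * B := by rw [abs_of_nonneg hK]

namespace Pth

variable {Ω τ : Type} {C : Pth Ω τ} {i j b A : ℕ} {ω ω' : Ω} {K c sH : ℝ} {H : Fu}

/-- the functional `H`, written at the time `sH`, as a last step of level `A` after the step `i` (cap `b`) -/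
structure Lst (C : Pth Ω τ) (K : ℝ) (i b A : ℕ) (H : Fu) (sH : ℝ) (ω : Ω) : Prop where
  ag : Agr K (C.rk i) A ((C.F i ω).sh (sH - C.s i ω)) H (C.l ω) sH
  sl : |H.cV (C.l ω) sH - rd (C.rf i) (C.p ω) * H.cN (C.l ω) sH| ≤ K * q2 (C.R i b)
  n1 : 1 ≤ K * H.cN (C.l ω) sH
  n2 : H.cN (C.l ω) sH ≤ K
  k1 : |H.ka| ≤ K
  a1 : |H.al| * q2 A ≤ K
  tm : |C.s i ω - sH| ≤ q2 (C.a i)

/-- closeness of two rays with respect to `H` -/
structure Cls (C : Pth Ω τ) (K : ℝ) (i b A : ℕ) (H : Fu) (sH : ℝ) (ω ω' : Ω) : Prop where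
  T : C.T i ω = C.T i ω'
  v : fl1 b (C.l ω).v = fl1 b (C.l ω').v
  X : |(C.l ω').X sH - (C.l ω).X sH| ≤ K * q2 (A + 2 * b)
  N : |(C.l ω').N sH - (C.l ω).N sH| ≤ K * q2 (A + 2 * b)
  z : |(C.l ω).dz (C.l ω') sH| ≤ K * q2 (A + 2 * b)
  c : |H.gd (C.l ω') sH - H.gd (C.l ω) sH| ≤ K * q2 (C.R i b + b)
  g : |H.g (C.l ω') sH - H.g (C.l ω) sH| ≤ K * q2 (A + b + C.R i b)

lemma Lst.cNabs (h : C.Lst K i b A H sH ω) (hK : 1 ≤ K) : |H.cN (C.l ω) sH| ≤ K := by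
  have h1 := h.n1
  rw [abs_le]
  refine ⟨?_, h.n2⟩
  by_contra hn
  push Not at hn
  nlinarith

lemma Lst.cV_le (h : C.Lst K i b A H sH ω) (h1 : 1 ≤ K) (hK : C.Ok K ω) (hl : C.Lev i b) :
    |H.cV (C.l ω) sH| ≤ 3 * K := by
  have hrf := C.R_le_rf i b
  have hp : |rd (C.rf i) (C.p ω)| ≤ 2 := (p_le hK (by have := hl.2; omega)).trans (by
    have := q2_le_one (2 * C.μ); linarith)
  have e : H.cV (C.l ω) sH = (H.cV (C.l ω) sH - rd (C.rf i) (C.p ω) * H.cN (C.l ω) sH) +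
      rd (C.rf i) (C.p ω) * H.cN (C.l ω) sH := by ring
  rw [e]
  refine (abs_add_le _ _).trans ((add_le_add h.sl (abs_mul_le hp (h.cNabs h1))).trans ?_)
  have := q2_le_one (C.R i b)
  nlinarith

lemma Lst.al_le (h : C.Lst K i b A H sH ω) : |H.al| ≤ K / q2 A := by
  rw [le_div_iff₀ (q2_pos A)]
  exact h.a1

/-- closeness in the frame of `H`, with the normal velocity -/
theorem Cls.nr (h : C.Cls K i b A H sH ω ω') (h1 : 1 ≤ K) (hK : C.Ok K ω) (hK' : C.Ok K ω')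
    (hl : C.Lev i b) (hμ0 : 1 ≤ C.μ) (hH : C.Lst K i b A H sH ω) (hH' : C.Lst K i b A H sH ω') :
    Nr H (C.l ω) (C.l ω') sH (q2 b) (7 * K ^ 3 * q2 b) (K * q2 (A + 2 * b)) (K * q2 (A + 2 * b))
      (K * q2 (A + 2 * b)) (K * q2 (C.R i b + b)) (K * q2 (A + b + C.R i b)) := by
  have hv := near_of_fl h.v
  refine ⟨hv, ?_, h.X, h.N, h.z, h.c, h.g⟩
  have hw2 : |(C.l ω').w - (C.l ω).w| ≤ 4 := by
    have a1 := hK.w1
    have a2 := hK'.w1
    rw [abs_le] at a1 a2 ⊢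
    constructor <;> linarith
  refine (w_sym (by linarith) hH.n1 hH'.n1 (hH.cV_le h1 hK hl) (hH'.cV_le h1 hK' hl) hH.al_le hv hw2
    h.X h.N h.z h.c).trans ?_
  have b0 := q2_pos b
  have b1 := q2_le_one b
  have u1 : q2 (C.R i b + b) ≤ q2 b := q2_le (by omega)
  have u2 : K / q2 A * (K * q2 (A + 2 * b) + (K * q2 (A + 2 * b) * q2 b + 4 * (K * q2 (A + 2 * b))) / 2) =
      K ^ 2 * (q2 (2 * b) * (3 + q2 b / 2)) := by
    have c1 := q2_cancel K A (2 * b)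
    linear_combination (K * (3 + q2 b / 2)) * c1
  have u3 : q2 (2 * b) * (3 + q2 b / 2) ≤ 3 * q2 b := by
    have e1 : q2 (2 * b) ≤ q2 (b + 1) := q2_le (by have := hl.1; omega)
    have e2 : q2 (b + 1) = q2 b * (1 / 2) := by
      rw [q2_add]; congr 1; unfold q2; norm_num
    have := q2_pos (2 * b)
    nlinarith
  rw [u2]
  have K2 : K ^ 2 ≤ K ^ 3 := pow_le_pow_right₀ h1 (by norm_num)
  calc K * (K * q2 (C.R i b + b) + 3 * K * q2 b + K ^ 2 * (q2 (2 * b) * (3 + q2 b / 2)))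
      ≤ K * (K * q2 b + 3 * K * q2 b + K ^ 2 * (3 * q2 b)) := by
        apply mul_le_mul_of_nonneg_left _ (by linarith)
        have t1 := mul_le_mul_of_nonneg_left u1 (show (0 : ℝ) ≤ K by linarith)
        have t2 := mul_le_mul_of_nonneg_left u3 (show (0 : ℝ) ≤ K ^ 2 by positivity)
        linarith
    _ = (4 * K ^ 2 + 3 * K ^ 3) * q2 b := by ring
    _ ≤ 7 * K ^ 3 * q2 b := mul_le_mul_of_nonneg_right (by linarith) b0.le

/-- bound of the derivative -/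
lemma fu_gd {K : ℝ} {R rk A b : ℕ} (h1 : 1 ≤ K) (hr : R ≤ rk + b) :
    K ^ 2 * (K * q2 (R + b)) + K ^ 3 * q2 R * q2 b +
      2 * K ^ 3 * q2 rk * ((q2 b ^ 2 + (7 * K ^ 3 * q2 b) ^ 2) / 2) +
      2 * K ^ 3 * q2 rk / q2 A * (K * q2 (A + 2 * b) * q2 b +
        K * q2 (A + 2 * b) * (7 * K ^ 3 * q2 b) + K * q2 (A + 2 * b)) ≤ 70 * K ^ 9 * q2 (R + b) := by
  have K0 : 0 < K := by linarith
  have k39 : K ^ 3 ≤ K ^ 9 := pow_le_pow_right₀ h1 (by norm_num)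
  have k49 : K ^ 4 ≤ K ^ 9 := pow_le_pow_right₀ h1 (by norm_num)
  have k79 : K ^ 7 ≤ K ^ 9 := pow_le_pow_right₀ h1 (by norm_num)
  have k06 : 1 ≤ K ^ 6 := one_le_pow₀ h1
  set Q := q2 (R + b) with hQ
  have Q0 : 0 < Q := q2_pos _
  have bp := q2_pos b
  have bl := q2_le_one b
  have u1 : q2 R * q2 b = Q := by rw [← q2_add]
  have u2 : q2 rk * q2 (2 * b) ≤ Q := by rw [← q2_add]; exact q2_le (by omega)
  have p2 : 0 < q2 rk * q2 (2 * b) := mul_pos (q2_pos _) (q2_pos _)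
  have t1 : q2 b ^ 2 = q2 (2 * b) := by rw [pow_two, ← q2_add, two_mul]
  have w2 : 2 * K ^ 3 * q2 rk * ((q2 b ^ 2 + (7 * K ^ 3 * q2 b) ^ 2) / 2) ≤ 50 * K ^ 9 * Q := by
    calc _ = (K ^ 3 * (1 + 49 * K ^ 6)) * (q2 rk * q2 b ^ 2) := by ring
      _ = (K ^ 3 * (1 + 49 * K ^ 6)) * (q2 rk * q2 (2 * b)) := by rw [t1]
      _ ≤ (K ^ 3 * (50 * K ^ 6)) * Q := by
        refine mul_le_mul ?_ u2 p2.le (by positivity)
        exact mul_le_mul_of_nonneg_left (by linarith) (by positivity)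
      _ = _ := by ring
  have u3 : 2 * K ^ 3 * q2 rk / q2 A * (K * q2 (A + 2 * b) * q2 b +
      K * q2 (A + 2 * b) * (7 * K ^ 3 * q2 b) + K * q2 (A + 2 * b)) =
      (q2 rk * q2 (2 * b)) * (2 * K ^ 4 * q2 b + 14 * K ^ 7 * q2 b + 2 * K ^ 4) := by
    have c1 := q2_cancel (2 * K ^ 3 * q2 rk) A (2 * b)
    linear_combination (K * q2 b + 7 * K ^ 4 * q2 b + K) * c1
  rw [u3]
  have w1 : K ^ 3 * q2 R * q2 b = K ^ 3 * Q := by rw [mul_assoc, u1]
  have w3 : (q2 rk * q2 (2 * b)) * (2 * K ^ 4 * q2 b + 14 * K ^ 7 * q2 b + 2 * K ^ 4) ≤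
      Q * (18 * K ^ 9) := by
    refine mul_le_mul u2 ?_ (by positivity) Q0.le
    have t1 : K ^ 4 * q2 b ≤ K ^ 9 * 1 := mul_le_mul k49 bl bp.le (by positivity)
    have t2 : K ^ 7 * q2 b ≤ K ^ 9 * 1 := mul_le_mul k79 bl bp.le (by positivity)
    linarith
  have w4 : K ^ 3 * Q ≤ K ^ 9 * Q := mul_le_mul_of_nonneg_right k39 Q0.le
  rw [w1]
  linarith

/-- bound of the value -/
lemma fu_g {K : ℝ} {R rk A b : ℕ} (h1 : 1 ≤ K) (hr : R ≤ rk + b) :
    K ^ 2 * (K * q2 (A + b + R)) + K ^ 3 * q2 R * (K * q2 (A + 2 * b)) +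
      2 * K ^ 3 * q2 rk * (K * q2 (A + 2 * b)) +
      2 * K ^ 3 * q2 rk / q2 A * (((K * q2 (A + 2 * b)) ^ 2 + (K * q2 (A + 2 * b)) ^ 2) / 2) ≤
      6 * K ^ 9 * q2 (A + b + R) := by
  have K0 : 0 < K := by linarith
  have k39 : K ^ 3 ≤ K ^ 9 := pow_le_pow_right₀ h1 (by norm_num)
  have k49 : K ^ 4 ≤ K ^ 9 := pow_le_pow_right₀ h1 (by norm_num)
  have k59 : K ^ 5 ≤ K ^ 9 := pow_le_pow_right₀ h1 (by norm_num)
  set Q := q2 (A + b + R) with hQ
  have Q0 : 0 < Q := q2_pos _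
  have u1 : q2 R * q2 (A + 2 * b) ≤ Q := by rw [← q2_add]; exact q2_le (by omega)
  have u2 : q2 rk * q2 (A + 2 * b) ≤ Q := by rw [← q2_add]; exact q2_le (by omega)
  have u3 : 2 * K ^ 3 * q2 rk / q2 A *
      (((K * q2 (A + 2 * b)) ^ 2 + (K * q2 (A + 2 * b)) ^ 2) / 2) =
      2 * K ^ 5 * (q2 rk * q2 (2 * b) * q2 (A + 2 * b)) := by
    have c1 := q2_cancel (2 * K ^ 3 * q2 rk) A (2 * b)
    linear_combination (K ^ 2 * q2 (A + 2 * b)) * c1
  rw [u3]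
  have u4 : q2 rk * q2 (2 * b) * q2 (A + 2 * b) ≤ Q := by
    rw [← q2_add, ← q2_add]; exact q2_le (by omega)
  have w1 : K ^ 3 * q2 R * (K * q2 (A + 2 * b)) ≤ K ^ 9 * Q := by
    calc _ = K ^ 4 * (q2 R * q2 (A + 2 * b)) := by ring
      _ ≤ _ := mul_le_mul k49 u1 (mul_nonneg (q2_pos _).le (q2_pos _).le) (by positivity)
  have w2 : 2 * K ^ 3 * q2 rk * (K * q2 (A + 2 * b)) ≤ 2 * (K ^ 9 * Q) := by
    calc _ = 2 * (K ^ 4 * (q2 rk * q2 (A + 2 * b))) := by ring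
      _ ≤ _ := mul_le_mul_of_nonneg_left
        (mul_le_mul k49 u2 (mul_nonneg (q2_pos _).le (q2_pos _).le) (by positivity)) (by norm_num)
  have w3 : 2 * K ^ 5 * (q2 rk * q2 (2 * b) * q2 (A + 2 * b)) ≤ 2 * (K ^ 9 * Q) := by
    rw [mul_assoc]
    exact mul_le_mul_of_nonneg_left (mul_le_mul k59 u4
      (mul_nonneg (mul_nonneg (q2_pos _).le (q2_pos _).le) (q2_pos _).le) (by positivity))
      (by norm_num)
  have w4 : K ^ 3 * Q ≤ K ^ 9 * Q := mul_le_mul_of_nonneg_right k39 Q0.le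
  linarith

/-- closeness in the step `i`, raw bounds -/
theorem nr_of_fu (h1 : 1 ≤ K) (hK : C.Ok K ω) (hK' : C.Ok K ω') (hl : C.Lev i b) (hμ0 : 1 ≤ C.μ)
    (hH : C.Lst K i b A H sH ω) (hH' : C.Lst K i b A H sH ω') (h : C.Cls K i b A H sH ω ω') :
    Nr (C.F i ω) (C.l ω) (C.l ω') (C.s i ω) (q2 b) (7 * K ^ 3 * q2 b)
      (K * q2 (A + 2 * b) + q2 (C.a i) * q2 b)
      (K * q2 (A + 2 * b) + q2 (C.a i) * (7 * K ^ 3 * q2 b))
      (K * q2 (A + 2 * b) + q2 (C.a i) * ((q2 b ^ 2 + (7 * K ^ 3 * q2 b) ^ 2) / 2))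
      (70 * K ^ 9 * q2 (C.R i b + b))
      (6 * K ^ 9 * q2 (A + b + C.R i b) + q2 (C.a i) * (70 * K ^ 9 * q2 (C.R i b + b))) := by
  have hN := h.nr h1 hK hK' hl hμ0 hH hH'
  have hrk := C.R_le_rk i b
  set d := sH - C.s i ω with hd
  set G := (C.F i ω).sh d with hG
  have hGN : G.cN (C.l ω) sH = (C.F i ω).cN (C.l ω) (C.s i ω) := by
    have e := Fu.cN_sh (C.F i ω) (C.l ω) (C.s i ω) d
    rwa [hd, add_sub_cancel] at e
  have hGV : G.cV (C.l ω) sH = (C.F i ω).cV (C.l ω) (C.s i ω) := by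
    have e := Fu.cV_sh (C.F i ω) (C.l ω) (C.s i ω) d
    rwa [hd, add_sub_cancel] at e
  have hGK : |G.cN (C.l ω) sH| ≤ K := by
    rw [hGN]; exact cN_abs hK h1 i
  obtain ⟨r1, r2, r3⟩ := ratios h1 hH.ag hH.n1 hGK hH.k1 hH.a1
  have hne : H.cN (C.l ω) sH ≠ 0 := by
    intro h0
    have := hH.n1
    rw [h0, mul_zero] at this
    linarith
  have rV : |G.cN (C.l ω) sH / H.cN (C.l ω) sH * H.cV (C.l ω) sH - G.cV (C.l ω) sH| ≤
      K ^ 3 * q2 (C.R i b) := by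
    have e : G.cN (C.l ω) sH / H.cN (C.l ω) sH * H.cV (C.l ω) sH - G.cV (C.l ω) sH =
        G.cN (C.l ω) sH / H.cN (C.l ω) sH *
          (H.cV (C.l ω) sH - rd (C.rf i) (C.p ω) * H.cN (C.l ω) sH) := by
      rw [hGV, hGN, F_cV]
      field_simp
    rw [e]
    refine (abs_mul_le r1 hH.sl).trans (le_of_eq ?_)
    ring
  have hC := hN.cmp (G := G) hne r1 rV r2 r3
  have hC' := hC.mono le_rfl le_rfl le_rfl le_rfl le_rfl (fu_gd h1 hrk) (fu_g h1 hrk)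
  have hE := hC'.evolve hH.tm
  have e1 : G.sh (C.s i ω - sH) = C.F i ω := by
    rw [hG, Fu.sh_sh, hd, show sH - C.s i ω + (C.s i ω - sH) = 0 by ring, Fu.sh_zero]
  have e2 : sH + (C.s i ω - sH) = C.s i ω := by ring
  rwa [e1, e2] at hE

/-- slopes -/
theorem ph_of_fu (h1 : 1 ≤ K) (hK : C.Ok K ω) (hK' : C.Ok K ω') (hl : C.Lev i b)
    (hμ : K ^ 2 * q2 C.μ ≤ 1) (hμ0 : 1 ≤ C.μ) (hH : C.Lst K i b A H sH ω)
    (hH' : C.Lst K i b A H sH ω') (h : C.Cls K i b A H sH ω ω') :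
    |(C.F i ω').ph - (C.F i ω).ph| ≤ 50 * K ^ 7 * q2 (C.R i b) := by
  have hN := h.nr h1 hK hK' hl hμ0 hH hH'
  have K0 : 0 < K := by linarith
  have si : C.s i ω' = C.s i ω := s_eq h.T
  have hrk := C.R_le_rk i b
  have own : ∀ ξ, C.Lst K i b A H sH ξ → ∃ pj : ℝ, |pj - rd (C.rf i) (C.p ξ)| ≤ K ^ 2 * q2 (C.R i b) ∧
      H.ph + H.ka * (C.l ξ).v + H.al * (C.l ξ).X sH = pj * H.cN (C.l ξ) sH := by
    intro ξ hξ
    have hx : 0 < H.cN (C.l ξ) sH := by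
      have := hξ.n1
      by_contra hx
      push Not at hx
      have := mul_nonpos_of_nonneg_of_nonpos K0.le hx
      linarith
    refine ⟨H.cV (C.l ξ) sH / H.cN (C.l ξ) sH, ?_, ?_⟩
    · have e : H.cV (C.l ξ) sH / H.cN (C.l ξ) sH - rd (C.rf i) (C.p ξ) =
          (H.cV (C.l ξ) sH - rd (C.rf i) (C.p ξ) * H.cN (C.l ξ) sH) / H.cN (C.l ξ) sH := by
        field_simp
      rw [e, abs_div, abs_of_pos hx, div_le_iff₀ hx]
      refine hξ.sl.trans ?_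
      have t := mul_le_mul_of_nonneg_left hξ.n1 (show 0 ≤ K * q2 (C.R i b) from
        mul_nonneg K0.le (q2_pos _).le)
      calc K * q2 (C.R i b) = K * q2 (C.R i b) * 1 := (mul_one _).symm
        _ ≤ K * q2 (C.R i b) * (K * H.cN (C.l ξ) sH) := t
        _ = _ := by ring
    · rw [div_mul_cancel₀ _ hx.ne']
      rfl
  obtain ⟨pj, o1, v1⟩ := own ω hH
  obtain ⟨pj', o2, v2⟩ := own ω' hH'
  have R0 := q2_pos (C.R i b)
  have hμ8 : K ^ 2 * q2 (C.R i b) ≤ 1 := by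
    refine (mul_le_mul_of_nonneg_left (q2_le ?_) (by positivity)).trans hμ
    have := hl.2; omega
  have p2' : |pj'| ≤ 2 := by
    have t2 := p_le hK' (show 2 * C.μ ≤ C.rf i by have := hl.2; have := C.R_le_rf i b; omega)
    have t3 : q2 (2 * C.μ) ≤ q2 1 := q2_le (by omega)
    have t4 : q2 1 = 1 / 2 := by unfold q2; norm_num
    rw [abs_le] at o2 t2 ⊢
    constructor <;> linarith
  have cNi := F_cN (C := C) i ω
  have cNi' := F_cN (C := C) i ω'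
  have cVi := F_cV (C := C) i ω
  have cVi' := F_cV (C := C) i ω'
  rw [F_ga h.T, F_ka h.T, F_al h.T, si] at cNi'
  unfold Fu.cV at cVi cVi'
  rw [F_ka h.T, F_al h.T, si] at cVi'
  have g1 := hH.ag.cN
  have g2 := hH.ag.ka
  have g3 := hH.ag.al
  have sh1 := Fu.cN_sh (C.F i ω) (C.l ω) (C.s i ω) (sH - C.s i ω)
  rw [add_sub_cancel] at sh1
  rw [sh1] at g1
  have Xi : (C.l ω).X (C.s i ω) = (C.l ω).X sH + (C.s i ω - sH) * (C.l ω).v := by
    rw [← Ray.X_add]; congr 1; ring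
  have Xi' : (C.l ω').X (C.s i ω) = (C.l ω').X sH + (C.s i ω - sH) * (C.l ω').v := by
    rw [← Ray.X_add]; congr 1; ring
  have Ni : (C.l ω).N (C.s i ω) = (C.l ω).N sH + (C.s i ω - sH) * (C.l ω).w := by
    rw [← Ray.N_add]; congr 1; ring
  have Ni' : (C.l ω').N (C.s i ω) = (C.l ω').N sH + (C.s i ω - sH) * (C.l ω').w := by
    rw [← Ray.N_add]; congr 1; ring
  have qa := q2_pos A
  have rk0 := q2_pos (C.rk i)
  have rk1 := q2_le_one (C.rk i)
  have b0 := q2_pos b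
  have b01 := q2_le_one b
  have bb : q2 (2 * b) ≤ q2 b := q2_le (by omega)
  have bb0 := q2_pos (2 * b)
  have hkb : q2 (C.rk i) * q2 b ≤ q2 (C.R i b) := by rw [← q2_add]; exact q2_le hrk
  have K12 : K ≤ K ^ 2 := by nlinarith
  have dal : |H.al - (C.F i ω).al| ≤ K * q2 (C.rk i) / q2 A := by
    rw [le_div_iff₀ qa]; exact g3
  have dka : |H.ka - ((C.F i ω).ka - (sH - C.s i ω) * (C.F i ω).al)| ≤ K * q2 (C.rk i) := g2
  have eA : ∀ c : ℝ, c / q2 A * (K * q2 (A + 2 * b)) = c * K * q2 (2 * b) := fun c => by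
    have := q2_cancel c A (2 * b)
    linear_combination K * this
  have kβ : K * q2 (2 * b) ≤ K * q2 b := mul_le_mul_of_nonneg_left bb K0.le
  have hci' : |(C.F i ω').cN (C.l ω') (C.s i ω)| ≤ K := by
    have := cN_abs hK' h1 i
    rwa [si] at this
  -- the eight error terms
  have m1 : |(H.al - (C.F i ω).al) * ((C.l ω').X sH - (C.l ω).X sH)| ≤
      K * (q2 (C.rk i) * (K * q2 b)) := by
    refine (abs_mul_le dal h.X).trans ?_
    rw [eA]
    calc K * q2 (C.rk i) * K * q2 (2 * b) = K * (q2 (C.rk i) * (K * q2 (2 * b))) := by ring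
      _ ≤ _ := mul_le_mul_of_nonneg_left (mul_le_mul_of_nonneg_left kβ rk0.le) K0.le
  have m2 : |(H.al - (C.F i ω).al) * ((C.l ω').N sH - (C.l ω).N sH)| ≤
      K * (q2 (C.rk i) * (K * q2 b)) := by
    refine (abs_mul_le dal h.N).trans ?_
    rw [eA]
    calc K * q2 (C.rk i) * K * q2 (2 * b) = K * (q2 (C.rk i) * (K * q2 (2 * b))) := by ring
      _ ≤ _ := mul_le_mul_of_nonneg_left (mul_le_mul_of_nonneg_left kβ rk0.le) K0.le
  have m3 : |H.al * ((C.l ω').X sH - (C.l ω).X sH)| ≤ K * (K * q2 b) := by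
    refine (abs_mul_le hH.al_le h.X).trans ?_
    rw [eA, mul_assoc]
    exact mul_le_mul_of_nonneg_left kβ K0.le
  have m4 : |H.al * ((C.l ω').N sH - (C.l ω).N sH)| ≤ K * (K * q2 b) := by
    refine (abs_mul_le hH.al_le h.N).trans ?_
    rw [eA, mul_assoc]
    exact mul_le_mul_of_nonneg_left kβ K0.le
  have m5 : |(H.ka - ((C.F i ω).ka - (sH - C.s i ω) * (C.F i ω).al)) *
      ((C.l ω').v - (C.l ω).v)| ≤ K * (q2 (C.rk i) * q2 b) := by
    refine (abs_mul_le dka hN.v).trans (le_of_eq ?_)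
    ring
  have m6 : |(H.ka - ((C.F i ω).ka - (sH - C.s i ω) * (C.F i ω).al)) *
      ((C.l ω').w - (C.l ω).w)| ≤ 10 * K ^ 3 * (q2 (C.rk i) * (K * q2 b)) := by
    refine (abs_mul_le dka hN.w).trans ?_
    have : 0 ≤ K ^ 4 * (q2 (C.rk i) * q2 b) := by positivity
    calc K * q2 (C.rk i) * (7 * K ^ 3 * q2 b) = 7 * (K ^ 4 * (q2 (C.rk i) * q2 b)) := by ring
      _ ≤ 10 * (K ^ 4 * (q2 (C.rk i) * q2 b)) := by linarith
      _ = _ := by ring
  have m7 : |H.ka * ((C.l ω').v - (C.l ω).v)| ≤ K * (K * q2 b) := by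
    refine (abs_mul_le hH.k1 hN.v).trans (mul_le_mul_of_nonneg_left ?_ K0.le)
    calc q2 b = 1 * q2 b := (one_mul _).symm
      _ ≤ _ := mul_le_mul_of_nonneg_right h1 b0.le
  have m8 : |H.ka * ((C.l ω').w - (C.l ω).w)| ≤ 10 * K ^ 3 * (K * q2 b) := by
    refine (abs_mul_le hH.k1 hN.w).trans ?_
    have : 0 ≤ K ^ 4 * q2 b := by positivity
    calc K * (7 * K ^ 3 * q2 b) = 7 * (K ^ 4 * q2 b) := by ring
      _ ≤ 10 * (K ^ 4 * q2 b) := by linarith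
      _ = _ := by ring
  have hρ : q2 (C.rk i) * (K * q2 b) ≤ K ^ 2 * q2 (C.R i b) := by
    calc q2 (C.rk i) * (K * q2 b) = K * (q2 (C.rk i) * q2 b) := by ring
      _ ≤ K ^ 2 * q2 (C.R i b) := mul_le_mul K12 hkb (by positivity) (by positivity)
  have hj : H.cN (C.l ω) sH = H.ga - H.ka * (C.l ω).w - H.al * (C.l ω).N sH := rfl
  have hj' : H.cN (C.l ω') sH = H.ga - H.ka * (C.l ω').w - H.al * (C.l ω').N sH := rfl
  have key := ph_aux (phi := (C.F i ω).ph) (phi' := (C.F i ω').ph) (phj := H.ph) (phj' := H.ph)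
    (pj := pj) (cj := H.cN (C.l ω) sH) (cj' := H.cN (C.l ω') sH) (β := K * q2 b)
    (ρ := K ^ 2 * q2 (C.R i b)) (q := q2 (C.rk i)) (P := 0)
    h1 le_rfl (mul_nonneg (sq_nonneg K) R0.le) (mul_nonneg K0.le b0.le) rk0.le rk1 hρ
    (by rw [Xi] at cVi
        rw [Xi'] at cVi'
        linear_combination cVi' - cVi - v2 + v1)
    (by rw [Ni] at cNi
        rw [Ni'] at cNi'
        linear_combination cNi' - cNi - hj' + hj)
    (by linear_combination v1 - v2)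
    (by linear_combination hj' - hj)
    (by simp) p2' o1 o2 (cN_abs hK h1 i) hci' hH.n1 g1
    (m5.trans (mul_le_mul_of_nonneg_left (hkb.trans
      (le_mul_of_one_le_left R0.le (one_le_pow₀ h1))) K0.le))
    (m1.trans (mul_le_mul_of_nonneg_left hρ K0.le)) m6 m2 m7 m3 m8 m4
  refine key.trans (le_of_eq ?_)
  ring

/-- **label as a last step** : close with respect to `H` ⇒ close in the step `i` -/
theorem clo_of_fu (h1 : 1 ≤ K) (hK : C.Ok K ω) (hK' : C.Ok K ω') (hl : C.Lev i b)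
    (hμ : K ^ 2 * q2 C.μ ≤ 1) (hμ0 : 1 ≤ C.μ) (hA : C.a i ≤ A) (hH : C.Lst K i b A H sH ω)
    (hH' : C.Lst K i b A H sH ω') (h : C.Cls K i b A H sH ω ω') : C.Clo i b (80 * K ^ 9) ω ω' := by
  have hN := nr_of_fu h1 hK hK' hl hμ0 hH hH' h
  have hp := ph_of_fu h1 hK hK' hl hμ hμ0 hH hH' h
  have K0 : 0 < K := by linarith
  have k19 : K ≤ K ^ 9 := by
    calc K = K ^ 1 := (pow_one K).symm
      _ ≤ K ^ 9 := pow_le_pow_right₀ h1 (by norm_num)
  have k39 : K ^ 3 ≤ K ^ 9 := pow_le_pow_right₀ h1 (by norm_num)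
  have k69 : K ^ 6 ≤ K ^ 9 := pow_le_pow_right₀ h1 (by norm_num)
  have k79 : K ^ 7 ≤ K ^ 9 := pow_le_pow_right₀ h1 (by norm_num)
  have k09 : 1 ≤ K ^ 9 := one_le_pow₀ h1
  have k06 : 1 ≤ K ^ 6 := one_le_pow₀ h1
  have qi := q2_pos (C.a i)
  obtain ⟨hb, hR⟩ := hl
  refine ⟨h.T, h.v, hN.mono le_rfl ?_ ?_ ?_ ?_ ?_ ?_, ?_⟩
  · exact mul_le_mul_of_nonneg_right (by linarith) (q2_pos b).le
  · have u : q2 (A + 2 * b) ≤ q2 (C.a i + b) := q2_le (by omega)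
    rw [← q2_add]
    have q := q2_pos (C.a i + b)
    have t : K * q2 (A + 2 * b) ≤ K ^ 9 * q2 (C.a i + b) :=
      mul_le_mul k19 u (q2_pos _).le (by positivity)
    have t' : 1 * q2 (C.a i + b) ≤ K ^ 9 * q2 (C.a i + b) := mul_le_mul_of_nonneg_right k09 q.le
    have t0 := mul_pos (show 0 < K ^ 9 by positivity) q
    linarith
  · have u : q2 (A + 2 * b) ≤ q2 (C.a i + b) := q2_le (by omega)
    have e : q2 (C.a i) * (7 * K ^ 3 * q2 b) = 7 * (K ^ 3 * q2 (C.a i + b)) := by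
      rw [q2_add]; ring
    rw [e]
    have q := q2_pos (C.a i + b)
    have t : K * q2 (A + 2 * b) ≤ K ^ 9 * q2 (C.a i + b) :=
      mul_le_mul k19 u (q2_pos _).le (by positivity)
    have t' : K ^ 3 * q2 (C.a i + b) ≤ K ^ 9 * q2 (C.a i + b) := mul_le_mul_of_nonneg_right k39 q.le
    have t0 := mul_pos (show 0 < K ^ 9 by positivity) q
    linarith
  · have u : q2 (A + 2 * b) ≤ q2 (C.a i + 2 * b - C.μ) := q2_le (by omega)
    have u' : q2 (C.a i + 2 * b) ≤ q2 (C.a i + 2 * b - C.μ) := q2_le (by omega)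
    have q := q2_pos (C.a i + 2 * b - C.μ)
    have e : q2 (C.a i) * ((q2 b ^ 2 + (7 * K ^ 3 * q2 b) ^ 2) / 2) =
        (1 + 49 * K ^ 6) / 2 * q2 (C.a i + 2 * b) := by
      rw [q2_add, two_mul b, q2_add b b]; ring
    rw [e]
    have t1 : (1 + 49 * K ^ 6) / 2 * q2 (C.a i + 2 * b) ≤ 25 * K ^ 9 * q2 (C.a i + 2 * b - C.μ) :=
      mul_le_mul (by linarith) u' (q2_pos _).le (by positivity)
    have t3 : K * q2 (A + 2 * b) ≤ K ^ 9 * q2 (C.a i + 2 * b - C.μ) :=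
      mul_le_mul k19 u (q2_pos _).le (by positivity)
    have t0 := mul_pos (show 0 < K ^ 9 by positivity) q
    linarith
  · have u : q2 (C.R i b + b) ≤ q2 (C.R i b + b - 4 * C.μ) := q2_le (by omega)
    exact mul_le_mul (by linarith) u (q2_pos _).le (by positivity)
  · have u : q2 (A + b + C.R i b) ≤ q2 (C.a i + b + C.R i b - 6 * C.μ) := q2_le (by omega)
    have u' : q2 (C.a i + b + C.R i b) ≤ q2 (C.a i + b + C.R i b - 6 * C.μ) := q2_le (by omega)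
    have e : q2 (C.a i) * (70 * K ^ 9 * q2 (C.R i b + b)) = 70 * K ^ 9 * q2 (C.a i + b + C.R i b) := by
      rw [show C.a i + b + C.R i b = C.a i + (C.R i b + b) by omega, q2_add (C.a i)]; ring
    rw [e]
    have t2 : 70 * K ^ 9 * q2 (C.a i + b + C.R i b) ≤ 70 * K ^ 9 * q2 (C.a i + b + C.R i b - 6 * C.μ) :=
      mul_le_mul_of_nonneg_left u' (by positivity)
    have t3 : 6 * K ^ 9 * q2 (A + b + C.R i b) ≤ 6 * K ^ 9 * q2 (C.a i + b + C.R i b - 6 * C.μ) :=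
      mul_le_mul_of_nonneg_left u (by positivity)
    have t0 := mul_pos (show 0 < K ^ 9 by positivity) (q2_pos (C.a i + b + C.R i b - 6 * C.μ))
    linarith
  · refine hp.trans (mul_le_mul (by linarith) (q2_le (by omega)) (q2_pos _).le (by positivity))

/-- **(N4)** same cell outside `Bad` -/
theorem cell_of_fu (h1 : 1 ≤ K) (hK : C.Ok K ω) (hK' : C.Ok K ω') (hl : C.Lev i b)
    (hμ : K ^ 2 * q2 C.μ ≤ 1) (hμ0 : 1 ≤ C.μ) (hA : C.a i ≤ A) (hH : C.Lst K i b A H sH ω)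
    (hH' : C.Lst K i b A H sH ω') (h : C.Cls K i b A H sH ω ω')
    (hB : ¬ C.Bad (320 * K ^ 9) i b ω) : C.cell i b ω = C.cell i b ω' := by
  refine (clo_of_fu h1 hK hK' hl hμ hμ0 hA hH hH' h).cell hl ?_ ?_
  · have : 1 ≤ K ^ 9 := one_le_pow₀ h1
    linarith
  · rwa [show 4 * (80 * K ^ 9) = 320 * K ^ 9 by ring]

end Pth

end Vale.Agent.P106.U.Cell
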