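import Vale.Agent.P127.U.Defs

/-!
# P106 / U : the covering lemma of SUB for light rays (helper543)

Rays of the base `ℝ^{2+1}` : `(x, y, z)`, position at the time `t` : `X = x + t y`, `Z = z + t y² / 2`. The functions
`f = φ X + κ Z + α (X² / 2 - t Z) + s0 + s1 t` are affine along the rays : `f = f0 + t f1`. The natural cells of size `2^-p`
are `natC p`. The rays with `|f0|, |f1| ≤ ρ` meet at most `C ρ 2^(3 p)` natural cells, `2^-p ~ min (ρ / √Δ) √ρ`,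
`Δ = φ² - 2 κ s1 - 2 α s0` (Lorentz norm, the square of the own slope of the rays up to `4 ρ`).
-/

set_option autoImplicit false

namespace Vale.Agent.P106.U.Cov

open Finset Vale.Agent.P127.Stk Vale.Agent.P127.U

/-- natural cell of size `2^-p` of the ray `(x, y, z)` -/
noncomputable def natC (p : ℕ) (r : ℝ × ℝ × ℝ) : ℤ × ℤ × ℤ :=
  (fl1 p r.1, fl1 p r.2.1, fl1 (2 * p) (r.2.2 - qa p r.2.1 * r.1))

/-- value of the functional at the time `0` -/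
noncomputable def f0 (φ κ α s : ℝ) (r : ℝ × ℝ × ℝ) : ℝ := φ * r.1 + κ * r.2.2 + α * r.1 ^ 2 / 2 + s

/-- velocity of the functional -/
noncomputable def f1 (φ κ α s : ℝ) (r : ℝ × ℝ × ℝ) : ℝ :=
  φ * r.2.1 + κ * r.2.1 ^ 2 / 2 + α * (r.1 * r.2.1 - r.2.2) + s

/-- own slope of the ray -/
noncomputable def own (φ κ α : ℝ) (r : ℝ × ℝ × ℝ) : ℝ := φ + κ * r.2.1 + α * r.1

/-- invariance of the Lorentz norm -/
theorem own_sq (φ κ α s0 s1 : ℝ) (r : ℝ × ℝ × ℝ) :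
    own φ κ α r ^ 2 = φ ^ 2 - 2 * κ * s1 - 2 * α * s0 + 2 * κ * f1 φ κ α s1 r + 2 * α * f0 φ κ α s0 r := by
  unfold own f0 f1
  ring

theorem fl1_close {m : ℕ} {x y : ℝ} (h : fl1 m x = fl1 m y) : |x - y| ≤ (1 / 2 : ℝ) ^ m := by
  unfold fl1 at h
  have h2 : (0 : ℝ) < 2 ^ m := by positivity
  have h1 : |(2:ℝ) ^ m * x - (2:ℝ) ^ m * y| < 1 := Int.abs_sub_lt_one_of_floor_eq_floor h
  rw [← mul_sub, abs_mul, abs_of_pos h2] at h1
  have e : (1 / 2 : ℝ) ^ m = 1 / 2 ^ m := by rw [div_pow, one_pow]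
  rw [e, le_div_iff₀ h2]
  linarith

theorem fl1_sub_le {m N : ℕ} {x y : ℝ} (h : |x - y| ≤ N * (1 / 2 : ℝ) ^ m) :
    |fl1 m x - fl1 m y| ≤ (N : ℤ) + 1 := by
  unfold fl1
  apply floor_close_aux
  have h2 : (0 : ℝ) < 2 ^ m := by positivity
  rw [← mul_sub, abs_mul, abs_of_pos h2]
  calc (2 : ℝ) ^ m * |x - y| ≤ 2 ^ m * (N * (1 / 2 : ℝ) ^ m) := mul_le_mul_of_nonneg_left h h2.le
    _ = N := by
        rw [one_div, inv_pow]
        field_simp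

/-- rounding -/
theorem qa_close (m : ℕ) (x : ℝ) : |x - qa m x| ≤ (1 / 2 : ℝ) ^ m := by
  unfold qa fl1
  have h2 : (0 : ℝ) < 2 ^ m := by positivity
  have e : (1 / 2 : ℝ) ^ m = 1 / 2 ^ m := by rw [div_pow, one_pow]
  have h3 := Int.floor_le ((2:ℝ) ^ m * x)
  have h4 := Int.lt_floor_add_one ((2:ℝ) ^ m * x)
  have h5 : x - (⌊(2:ℝ) ^ m * x⌋ : ℝ) / 2 ^ m = ((2:ℝ) ^ m * x - ⌊(2:ℝ) ^ m * x⌋) / 2 ^ m := by
    field_simp
  rw [h5, e, abs_div, abs_of_pos h2]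
  apply div_le_div_of_nonneg_right _ h2.le
  rw [abs_le]
  constructor <;> linarith

/-- the cells of the unit interval -/
theorem fl1_range (p : ℕ) {x : ℝ} (hx : |x| ≤ 1) : fl1 p x ∈ Icc (-(2 : ℤ) ^ p) (2 ^ p) := by
  obtain ⟨h1, h2⟩ := abs_le.1 hx
  have h3 : (0 : ℝ) < 2 ^ p := by positivity
  unfold fl1
  rw [mem_Icc]
  constructor
  · rw [Int.le_floor]
    push_cast
    nlinarith
  · have h4 := Int.floor_le ((2:ℝ) ^ p * x)
    have h5 : ((⌊(2:ℝ) ^ p * x⌋ : ℤ) : ℝ) ≤ ((2 ^ p : ℤ) : ℝ) := by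
      push_cast
      nlinarith
    exact_mod_cast h5

/-- counting of the natural cells, with a free index -/
theorem cover {ι : Type} [DecidableEq ι] {K : Set (ℝ × ℝ × ℝ)} {p N M : ℕ} (I : Finset ι) (i : ℝ × ℝ × ℝ → ι)
    (hi : ∀ r ∈ K, i r ∈ I)
    (hx : ∀ r ∈ K, ∀ r' ∈ K, i r = i r' → |r.1 - r'.1| ≤ N * (1 / 2 : ℝ) ^ p ∧ |r.2.1 - r'.2.1| ≤ N * (1 / 2 : ℝ) ^ p)
    (hz : ∀ r ∈ K, ∀ r' ∈ K, i r = i r' → fl1 p r.1 = fl1 p r'.1 → fl1 p r.2.1 = fl1 p r'.2.1 →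
      |(r.2.2 - qa p r.2.1 * r.1) - (r'.2.2 - qa p r'.2.1 * r'.1)| ≤ M * (1 / 2 : ℝ) ^ (2 * p)) :
    ∃ U : Finset (ℤ × ℤ × ℤ), U.card ≤ I.card * ((2 * N + 3) * (2 * N + 3) * (2 * M + 3)) ∧ ∀ r ∈ K, natC p r ∈ U := by
  classical
  -- base points
  have hb : ∀ j : ι, ∃ b : ℝ × ℝ × ℝ, ∀ r ∈ K, i r = j → b ∈ K ∧ i b = j := by
    intro j
    by_cases h : ∃ r ∈ K, i r = j
    · obtain ⟨b, hb, hb'⟩ := h
      exact ⟨b, fun _ _ _ => ⟨hb, hb'⟩⟩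
    · exact ⟨0, fun r hr hr' => (h ⟨r, hr, hr'⟩).elim⟩
  choose b hb using hb
  have hd : ∀ j : ι, ∀ a : ℤ × ℤ, ∃ d : ℝ × ℝ × ℝ, ∀ r ∈ K, i r = j → fl1 p r.1 = a.1 → fl1 p r.2.1 = a.2 →
      d ∈ K ∧ i d = j ∧ fl1 p d.1 = a.1 ∧ fl1 p d.2.1 = a.2 := by
    intro j a
    by_cases h : ∃ r ∈ K, i r = j ∧ fl1 p r.1 = a.1 ∧ fl1 p r.2.1 = a.2
    · obtain ⟨d, hd, hd'⟩ := h
      exact ⟨d, fun _ _ _ _ _ => ⟨hd, hd'⟩⟩
    · exact ⟨0, fun r hr h1 h2 h3 => (h ⟨r, hr, h1, h2, h3⟩).elim⟩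
  choose d hd using hd
  let V : ι → Finset (ℤ × ℤ) := fun j => Icc (fl1 p (b j).1 - (N + 1)) (fl1 p (b j).1 + (N + 1)) ×ˢ
    Icc (fl1 p (b j).2.1 - (N + 1)) (fl1 p (b j).2.1 + (N + 1))
  let zz : ℝ × ℝ × ℝ → ℤ := fun r => fl1 (2 * p) (r.2.2 - qa p r.2.1 * r.1)
  let W : ι → ℤ × ℤ → Finset (ℤ × ℤ × ℤ) := fun j a =>
    (Icc (zz (d j a) - (M + 1)) (zz (d j a) + (M + 1))).image fun c => (a.1, a.2, c)
  refine ⟨I.biUnion fun j => (V j).biUnion fun a => W j a, ?_, ?_⟩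
  · have h1 : ∀ (c : ℤ) (k : ℕ), (Icc (c - (k + 1)) (c + (k + 1))).card = 2 * k + 3 := by
      intro c k
      rw [Int.card_Icc]
      omega
    refine card_biUnion_le_card_mul _ _ _ fun j _ => ?_
    refine (card_biUnion_le_card_mul (V j) (fun a => W j a) (2 * M + 3) fun a _ => ?_).trans ?_
    · exact card_image_le.trans (h1 _ _).le
    · apply Nat.mul_le_mul_right
      rw [card_product, h1, h1]
  · intro r hr
    rw [mem_biUnion]
    obtain ⟨hbK, hbi⟩ := hb (i r) r hr rfl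
    obtain ⟨hdK, hdi, hd1, hd2⟩ := hd (i r) (fl1 p r.1, fl1 p r.2.1) r hr rfl rfl rfl
    refine ⟨i r, hi r hr, ?_⟩
    rw [mem_biUnion]
    refine ⟨(fl1 p r.1, fl1 p r.2.1), ?_, ?_⟩
    · obtain ⟨h1, h2⟩ := hx r hr _ hbK hbi.symm
      have h3 := fl1_sub_le h1
      have h4 := fl1_sub_le h2
      rw [abs_le] at h3 h4
      rw [mem_product, mem_Icc, mem_Icc]
      exact ⟨⟨by simp only; linarith, by simp only; linarith⟩, ⟨by simp only; linarith, by simp only; linarith⟩⟩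
    · have h1 := fl1_sub_le (hz r hr _ hdK hdi.symm hd1.symm hd2.symm)
      rw [abs_le] at h1
      refine mem_image.2 ⟨zz r, ?_, rfl⟩
      rw [mem_Icc]
      exact ⟨by simp only [zz]; linarith, by simp only [zz]; linarith⟩

theorem le_of_sq_le' {a b : ℝ} (h : a ^ 2 ≤ b ^ 2) (hb : 0 ≤ b) : a ≤ b := (abs_le_of_sq_le_sq' h hb).2

/-- difference of two own slopes of the same sign -/
theorem own_diff {u v Δ ρ m : ℝ} (hu : |u ^ 2 - Δ| ≤ 4 * ρ) (hv : |v ^ 2 - Δ| ≤ 4 * ρ) (huv : 0 ≤ u * v) (hρ : 0 < ρ)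
    (_hm0 : 0 ≤ m) (hm : m ^ 2 = max Δ ρ) : |u - v| * m ≤ 8 * ρ := by
  rw [abs_le] at hu hv
  have hab : |u - v| * |u + v| ≤ 8 * ρ := by
    rw [← abs_mul, abs_le]
    constructor <;> nlinarith
  have ha := abs_nonneg (u - v)
  have hb := abs_nonneg (u + v)
  have ea := sq_abs (u - v)
  have eb := sq_abs (u + v)
  have h1 : |u - v| ≤ |u + v| := by
    apply sq_le_sq.1
    nlinarith
  rcases le_total (8 * ρ) Δ with h | h
  · have h2 : m ^ 2 = Δ := by rw [hm]; exact max_eq_left (by linarith)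
    have h3 : m ≤ |u + v| := by
      apply le_of_sq_le' _ hb
      nlinarith
    nlinarith
  · have h2 : m ^ 2 ≤ 8 * ρ := by rw [hm]; exact max_le h (by linarith)
    have h3 : |u - v| ^ 2 ≤ 8 * ρ := by nlinarith
    have h4 : (|u - v| * m) ^ 2 ≤ (8 * ρ) ^ 2 := by
      rw [mul_pow]
      have := mul_le_mul h3 h2 (by positivity) (by positivity)
      nlinarith
    exact le_of_sq_le' h4 (by positivity)

/-- size of the own slope -/
theorem own_le {u Δ ρ m : ℝ} (hu : |u ^ 2 - Δ| ≤ 4 * ρ) (hρ : 0 < ρ) (hm0 : 0 ≤ m) (hm : m ^ 2 = max Δ ρ) : |u| ≤ 3 * m := by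
  have h1 : Δ ≤ m ^ 2 := by rw [hm]; exact le_max_left _ _
  have h2 : ρ ≤ m ^ 2 := by rw [hm]; exact le_max_right _ _
  rw [abs_le] at hu
  apply le_of_sq_le' _ (by positivity)
  rw [sq_abs]
  nlinarith

/-- data of the covering lemma -/
structure Dat (A φ κ α s0 s1 ρ h m : ℝ) : Prop where
  A1 : 1 ≤ A
  φ1 : |φ| ≤ 1
  κ1 : |κ| ≤ 1
  α1 : |α| ≤ 1
  ρ0 : 0 < ρ
  ρ1 : ρ ≤ 1
  h0 : 0 < h
  m0 : 0 ≤ m
  m2 : m ^ 2 = max (φ ^ 2 - 2 * κ * s1 - 2 * α * s0) ρ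
  up : h * m ≤ A * ρ
  lo : ρ ≤ A * h * m

/-- the rays of the slab -/
def KS (φ κ α s0 s1 ρ : ℝ) : Set (ℝ × ℝ × ℝ) :=
  {r | |r.1| ≤ 1 ∧ |r.2.1| ≤ 1 ∧ |r.2.2| ≤ 1 ∧ |f0 φ κ α s0 r| ≤ ρ ∧ |f1 φ κ α s1 r| ≤ ρ}

section

variable {A φ κ α s0 s1 ρ h m : ℝ}

theorem Dat.m_pos (H : Dat A φ κ α s0 s1 ρ h m) : 0 < m := by
  have h1 : ρ ≤ m ^ 2 := by rw [H.m2]; exact le_max_right _ _
  have h2 := H.ρ0
  rcases H.m0.eq_or_lt with h3 | h3
  · rw [← h3] at h1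
    norm_num at h1
    linarith
  · exact h3

theorem Dat.hh (H : Dat A φ κ α s0 s1 ρ h m) : h ^ 2 ≤ A ^ 2 * ρ := by
  have h1 : ρ ≤ m ^ 2 := by rw [H.m2]; exact le_max_right _ _
  have h2 := H.m_pos
  have h3 : (h * m) ^ 2 ≤ (A * ρ) ^ 2 := by
    have := H.up
    have h4 : 0 ≤ h * m := mul_nonneg H.h0.le H.m0
    exact pow_le_pow_left₀ h4 this 2
  have h5 : h ^ 2 * ρ ≤ A ^ 2 * ρ * ρ := by
    calc h ^ 2 * ρ ≤ h ^ 2 * m ^ 2 := by gcongr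
      _ = (h * m) ^ 2 := by ring
      _ ≤ (A * ρ) ^ 2 := h3
      _ = _ := by ring
  exact le_of_mul_le_mul_right h5 H.ρ0

theorem own_near (H : Dat A φ κ α s0 s1 ρ h m) {r : ℝ × ℝ × ℝ} (hr : r ∈ KS φ κ α s0 s1 ρ) :
    |own φ κ α r ^ 2 - (φ ^ 2 - 2 * κ * s1 - 2 * α * s0)| ≤ 4 * ρ := by
  obtain ⟨-, -, -, h4, h5⟩ := hr
  rw [own_sq φ κ α s0 s1 r]
  have h6 : φ ^ 2 - 2 * κ * s1 - 2 * α * s0 + 2 * κ * f1 φ κ α s1 r + 2 * α * f0 φ κ α s0 r -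
      (φ ^ 2 - 2 * κ * s1 - 2 * α * s0) = 2 * (κ * f1 φ κ α s1 r + α * f0 φ κ α s0 r) := by ring
  rw [h6, abs_mul, abs_two]
  have h7 : |κ * f1 φ κ α s1 r| ≤ 1 * ρ := by
    rw [abs_mul]
    exact mul_le_mul H.κ1 h5 (abs_nonneg _) (by norm_num)
  have h8 : |α * f0 φ κ α s0 r| ≤ 1 * ρ := by
    rw [abs_mul]
    exact mul_le_mul H.α1 h4 (abs_nonneg _) (by norm_num)
  have h9 := abs_add_le (κ * f1 φ κ α s1 r) (α * f0 φ κ α s0 r)
  linarith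

/-- the own slopes of two rays with the same sign differ by `O(h)` -/
theorem own_close (H : Dat A φ κ α s0 s1 ρ h m) {r r' : ℝ × ℝ × ℝ} (hr : r ∈ KS φ κ α s0 s1 ρ)
    (hr' : r' ∈ KS φ κ α s0 s1 ρ) (hs : (0 ≤ own φ κ α r) = (0 ≤ own φ κ α r')) :
    |own φ κ α r - own φ κ α r'| ≤ 8 * A * h := by
  have h1 : 0 ≤ own φ κ α r * own φ κ α r' := by
    by_cases h0 : 0 ≤ own φ κ α r
    · exact mul_nonneg h0 (hs ▸ h0)
    · have h0' : ¬ 0 ≤ own φ κ α r' := hs ▸ h0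
      push Not at h0 h0'
      exact (mul_pos_of_neg_of_neg h0 h0').le
  have h2 := own_diff (own_near H hr) (own_near H hr') h1 H.ρ0 H.m0 H.m2
  have h3 := H.m_pos
  have h4 := H.lo
  have h5 : |own φ κ α r - own φ κ α r'| * m ≤ 8 * A * h * m := by linarith
  exact le_of_mul_le_mul_right h5 h3

theorem own_h (H : Dat A φ κ α s0 s1 ρ h m) {r : ℝ × ℝ × ℝ} (hr : r ∈ KS φ κ α s0 s1 ρ) :
    h * |own φ κ α r| ≤ 3 * A * ρ := by
  have h1 := own_le (own_near H hr) H.ρ0 H.m0 H.m2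
  have h2 := H.up
  have h3 := H.h0
  calc h * |own φ κ α r| ≤ h * (3 * m) := by gcongr
    _ = 3 * (h * m) := by ring
    _ ≤ 3 * (A * ρ) := by linarith
    _ = _ := by ring

/-- third coordinate in the case `κ` -/
theorem z_kap (H : Dat A φ κ α s0 s1 ρ h m) {r r' : ℝ × ℝ × ℝ} (hr : r ∈ KS φ κ α s0 s1 ρ) (hr' : r' ∈ KS φ κ α s0 s1 ρ)
    {c yb : ℝ} (hc : 0 < c) (hκ : c ≤ |κ|) (hx : |r.1 - r'.1| ≤ h) (hy : |r.2.1 - yb| ≤ h) :
    |(r.2.2 - yb * r.1) - (r'.2.2 - yb * r'.1)| ≤ (2 + 3 * A + 2 * A ^ 2) / c * ρ := by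
  have e : κ * ((r.2.2 - yb * r.1) - (r'.2.2 - yb * r'.1)) = f0 φ κ α s0 r - f0 φ κ α s0 r' -
      (r.1 - r'.1) * (own φ κ α r + κ * (yb - r.2.1) + α * (r'.1 - r.1) / 2) := by
    unfold f0 own
    ring
  have g1 : |f0 φ κ α s0 r - f0 φ κ α s0 r'| ≤ 2 * ρ := by
    have := abs_sub (f0 φ κ α s0 r) (f0 φ κ α s0 r')
    have h1 := hr.2.2.2.1
    have h2 := hr'.2.2.2.1
    linarith
  have g2 : |own φ κ α r + κ * (yb - r.2.1) + α * (r'.1 - r.1) / 2| ≤ |own φ κ α r| + h + h := by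
    have h1 : |κ * (yb - r.2.1)| ≤ 1 * h := by
      rw [abs_mul, abs_sub_comm]
      exact mul_le_mul H.κ1 hy (abs_nonneg _) (by norm_num)
    have h2 : |α * (r'.1 - r.1) / 2| ≤ h := by
      rw [abs_div, abs_mul, abs_sub_comm, abs_two]
      have := mul_le_mul H.α1 hx (abs_nonneg _) (by norm_num)
      have := H.h0
      linarith
    have h3 := abs_add_le (own φ κ α r + κ * (yb - r.2.1)) (α * (r'.1 - r.1) / 2)
    have h4 := abs_add_le (own φ κ α r) (κ * (yb - r.2.1))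
    linarith
  have g3 : |κ * ((r.2.2 - yb * r.1) - (r'.2.2 - yb * r'.1))| ≤ 2 * ρ + h * (|own φ κ α r| + h + h) := by
    rw [e]
    refine (abs_sub _ _).trans (add_le_add g1 ?_)
    rw [abs_mul]
    exact mul_le_mul hx g2 (abs_nonneg _) H.h0.le
  have g4 : h * (|own φ κ α r| + h + h) ≤ (3 * A + 2 * A ^ 2) * ρ := by
    have h1 := own_h H hr
    have h2 := H.hh
    nlinarith
  rw [abs_mul] at g3
  rw [div_mul_eq_mul_div, le_div_iff₀ hc]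
  have h5 := abs_nonneg ((r.2.2 - yb * r.1) - (r'.2.2 - yb * r'.1))
  nlinarith

/-- third coordinate in the case `α` -/
theorem z_alp (H : Dat A φ κ α s0 s1 ρ h m) {r r' : ℝ × ℝ × ℝ} (hr : r ∈ KS φ κ α s0 s1 ρ) (hr' : r' ∈ KS φ κ α s0 s1 ρ)
    {c yb : ℝ} (hc : 0 < c) (hα : c ≤ |α|) (hx : |r.1 - r'.1| ≤ h) (hyy : |r.2.1 - r'.2.1| ≤ h) (hy : |r'.2.1 - yb| ≤ h) :
    |(r.2.2 - yb * r.1) - (r'.2.2 - yb * r'.1)| ≤ (2 + 3 * A + 2 * A ^ 2) / c * ρ := by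
  have e : α * ((r.2.2 - yb * r.1) - (r'.2.2 - yb * r'.1)) = -(f1 φ κ α s1 r - f1 φ κ α s1 r') +
      (r.2.1 - r'.2.1) * (own φ κ α r + κ * (r'.2.1 - r.2.1) / 2) + α * (r.1 - r'.1) * (r'.2.1 - yb) := by
    unfold f1 own
    ring
  have g1 : |f1 φ κ α s1 r - f1 φ κ α s1 r'| ≤ 2 * ρ := by
    have := abs_sub (f1 φ κ α s1 r) (f1 φ κ α s1 r')
    have h1 := hr.2.2.2.2
    have h2 := hr'.2.2.2.2
    linarith
  have g2 : |own φ κ α r + κ * (r'.2.1 - r.2.1) / 2| ≤ |own φ κ α r| + h := by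
    have h1 : |κ * (r'.2.1 - r.2.1) / 2| ≤ h := by
      rw [abs_div, abs_mul, abs_sub_comm, abs_two]
      have := mul_le_mul H.κ1 hyy (abs_nonneg _) (by norm_num)
      have := H.h0
      linarith
    have h4 := abs_add_le (own φ κ α r) (κ * (r'.2.1 - r.2.1) / 2)
    linarith
  have g2' : |α * (r.1 - r'.1) * (r'.2.1 - yb)| ≤ h * h := by
    rw [abs_mul, abs_mul]
    have h1 := mul_le_mul H.α1 hx (abs_nonneg _) (by norm_num)
    rw [one_mul] at h1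
    exact mul_le_mul h1 hy (abs_nonneg _) H.h0.le
  have g3 : |α * ((r.2.2 - yb * r.1) - (r'.2.2 - yb * r'.1))| ≤ 2 * ρ + h * (|own φ κ α r| + h) + h * h := by
    rw [e]
    refine (abs_add_le _ _).trans (add_le_add ((abs_add_le _ _).trans (add_le_add ?_ ?_)) g2')
    · rw [abs_neg]; exact g1
    · rw [abs_mul]
      exact mul_le_mul hyy g2 (abs_nonneg _) H.h0.le
  have g4 : h * (|own φ κ α r| + h) + h * h ≤ (3 * A + 2 * A ^ 2) * ρ := by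
    have h1 := own_h H hr
    have h2 := H.hh
    nlinarith
  rw [abs_mul] at g3
  rw [div_mul_eq_mul_div, le_div_iff₀ hc]
  have h5 := abs_nonneg ((r.2.2 - yb * r.1) - (r'.2.2 - yb * r'.1))
  nlinarith

theorem half_pow_le (p : ℕ) : (1 / 2 : ℝ) ^ p ≤ 1 := pow_le_one₀ (by norm_num) (by norm_num)

/-- case `φ` : the own slope is bounded below, `h ~ ρ` -/
theorem phi_size {c0 : ℝ} (hc0 : 0 < c0) (H : Dat A φ κ α s0 s1 ρ h m) (hφ : c0 ≤ |φ|) (hκ : |κ| < c0 / 4)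
    (hα : |α| < c0 / 4) {r : ℝ × ℝ × ℝ} (hr : r ∈ KS φ κ α s0 s1 ρ) : h ≤ 6 * A / c0 * ρ ∧ ρ ≤ 4 * A * h := by
  have hA := H.A1
  have hh0 := H.h0
  have h1 : |φ| - |κ| - |α| ≤ |own φ κ α r| := by
    unfold own
    have g1 : |κ * r.2.1| ≤ |κ| := by
      rw [abs_mul]
      exact mul_le_of_le_one_right (abs_nonneg _) hr.2.1
    have g2 : |α * r.1| ≤ |α| := by
      rw [abs_mul]
      exact mul_le_of_le_one_right (abs_nonneg _) hr.1
    have g3 : |φ| ≤ |φ + κ * r.2.1 + α * r.1| + |κ * r.2.1| + |α * r.1| := by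
      have e : φ = (φ + κ * r.2.1 + α * r.1) - κ * r.2.1 - α * r.1 := by ring
      calc |φ| = |(φ + κ * r.2.1 + α * r.1) - κ * r.2.1 - α * r.1| := by rw [← e]
        _ ≤ |(φ + κ * r.2.1 + α * r.1) - κ * r.2.1| + |α * r.1| := abs_sub _ _
        _ ≤ _ := by
          have := abs_sub (φ + κ * r.2.1 + α * r.1) (κ * r.2.1)
          linarith
    linarith
  have h2 := own_le (own_near H hr) H.ρ0 H.m0 H.m2
  have h3 : c0 / 6 ≤ m := by linarith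
  have h4 : m ≤ 4 := by
    apply le_of_sq_le' _ (by norm_num)
    rw [H.m2]
    have h5 := own_near H hr
    have h6 : |own φ κ α r| ≤ 3 := by
      unfold own
      have g1 : |κ * r.2.1| ≤ 1 := by
        rw [abs_mul]
        exact mul_le_one₀ H.κ1 (abs_nonneg _) hr.2.1
      have g2 : |α * r.1| ≤ 1 := by
        rw [abs_mul]
        exact mul_le_one₀ H.α1 (abs_nonneg _) hr.1
      have g3 := abs_add_le (φ + κ * r.2.1) (α * r.1)
      have g4 := abs_add_le φ (κ * r.2.1)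
      have g5 := H.φ1
      linarith
    have h7 : own φ κ α r ^ 2 ≤ 9 := by
      rw [← sq_abs]
      have := abs_nonneg (own φ κ α r)
      nlinarith
    rw [abs_le] at h5
    have := H.ρ1
    refine max_le ?_ ?_ <;> linarith
  have h5 := H.up
  have h6 := H.lo
  constructor
  · rw [div_mul_eq_mul_div, le_div_iff₀ hc0]
    nlinarith
  · nlinarith [mul_pos (lt_of_lt_of_le one_pos hA) hh0]

/-- case `φ` : first coordinate -/
theorem phi_x {c0 : ℝ} (hc0 : 0 < c0) (H : Dat A φ κ α s0 s1 ρ h m) (hφ : c0 ≤ |φ|) (hκ : |κ| < c0 / 4)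
    (hα : |α| < c0 / 4) {r r' : ℝ × ℝ × ℝ} (hr : r ∈ KS φ κ α s0 s1 ρ) (hr' : r' ∈ KS φ κ α s0 s1 ρ)
    (hz : |r.2.2 - r'.2.2| ≤ h) : |r.1 - r'.1| ≤ 4 / 3 * (8 * A + 1) / c0 * h := by
  obtain ⟨k1, k2⟩ := phi_size hc0 H hφ hκ hα hr
  have e2 : (r.1 - r'.1) * (φ + α * (r.1 + r'.1) / 2) = (f0 φ κ α s0 r - f0 φ κ α s0 r') - κ * (r.2.2 - r'.2.2) := by
    unfold f0; ring
  have g1 : |f0 φ κ α s0 r - f0 φ κ α s0 r'| ≤ 2 * ρ := by
    have := abs_sub (f0 φ κ α s0 r) (f0 φ κ α s0 r')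
    have h1 := hr.2.2.2.1
    have h2 := hr'.2.2.2.1
    linarith
  have g2 : |κ * (r.2.2 - r'.2.2)| ≤ 1 * h := by
    rw [abs_mul]
    exact mul_le_mul H.κ1 hz (abs_nonneg _) (by norm_num)
  have g3 : |(r.1 - r'.1) * (φ + α * (r.1 + r'.1) / 2)| ≤ 2 * ρ + 1 * h := by
    rw [e2]
    exact (abs_sub _ _).trans (add_le_add g1 g2)
  have g4 : 3 / 4 * c0 ≤ |φ + α * (r.1 + r'.1) / 2| := by
    have h1 : |α * (r.1 + r'.1) / 2| ≤ |α| := by
      rw [abs_div, abs_mul, abs_two]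
      have h2 : |r.1 + r'.1| ≤ 2 := by
        have := abs_add_le r.1 r'.1
        have h3 := hr.1
        have h4 := hr'.1
        linarith
      have h3 := mul_le_mul_of_nonneg_left h2 (abs_nonneg α)
      linarith
    have h2 : |φ| ≤ |φ + α * (r.1 + r'.1) / 2| + |α * (r.1 + r'.1) / 2| := by
      have := abs_sub (φ + α * (r.1 + r'.1) / 2) (α * (r.1 + r'.1) / 2)
      rwa [add_sub_cancel_right] at this
    linarith
  rw [abs_mul] at g3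
  have h5 := abs_nonneg (r.1 - r'.1)
  have h6 : |r.1 - r'.1| * (3 / 4 * c0) ≤ (8 * A + 1) * h := by nlinarith
  rw [div_mul_eq_mul_div, le_div_iff₀ hc0]
  linarith

/-- case `φ` : second coordinate -/
theorem phi_y {c0 : ℝ} (hc0 : 0 < c0) (hc1 : c0 ≤ 1) (H : Dat A φ κ α s0 s1 ρ h m) (hφ : c0 ≤ |φ|) (hκ : |κ| < c0 / 4)
    (hα : |α| < c0 / 4) {r r' : ℝ × ℝ × ℝ} (hr : r ∈ KS φ κ α s0 s1 ρ) (hr' : r' ∈ KS φ κ α s0 s1 ρ)
    (hz : |r.2.2 - r'.2.2| ≤ h) : |r.2.1 - r'.2.1| ≤ 16 * (8 * A + 1) / c0 ^ 2 * h := by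
  have hA := H.A1
  have hh0 := H.h0
  obtain ⟨k1, k2⟩ := phi_size hc0 H hφ hκ hα hr
  have x3 := phi_x hc0 H hφ hκ hα hr hr' hz
  have e2 : (r.2.1 - r'.2.1) * (φ + κ * (r.2.1 + r'.2.1) / 2 + α * r.1) = (f1 φ κ α s1 r - f1 φ κ α s1 r') +
      α * (r.2.2 - r'.2.2) - α * (r'.2.1 * (r.1 - r'.1)) := by
    unfold f1; ring
  have g1 : |f1 φ κ α s1 r - f1 φ κ α s1 r'| ≤ 2 * ρ := by
    have := abs_sub (f1 φ κ α s1 r) (f1 φ κ α s1 r')
    have h1 := hr.2.2.2.2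
    have h2 := hr'.2.2.2.2
    linarith
  have g2 : |α * (r.2.2 - r'.2.2)| ≤ 1 * h := by
    rw [abs_mul]
    exact mul_le_mul H.α1 hz (abs_nonneg _) (by norm_num)
  set B : ℝ := (8 * A + 1) / c0 with hB
  have eB : 4 / 3 * (8 * A + 1) / c0 = 4 / 3 * B := by rw [hB]; ring
  rw [eB] at x3
  have hB0 : 0 < B := by positivity
  have g2' : |α * (r'.2.1 * (r.1 - r'.1))| ≤ 4 / 3 * B * h := by
    rw [abs_mul, abs_mul]
    have h1 : |r'.2.1| * |r.1 - r'.1| ≤ 1 * (4 / 3 * B * h) :=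
      mul_le_mul hr'.2.1 x3 (abs_nonneg _) (by norm_num)
    have h2 : |α| * (|r'.2.1| * |r.1 - r'.1|) ≤ 1 * (1 * (4 / 3 * B * h)) :=
      mul_le_mul H.α1 h1 (by positivity) (by norm_num)
    linarith
  have g3 : |(r.2.1 - r'.2.1) * (φ + κ * (r.2.1 + r'.2.1) / 2 + α * r.1)| ≤ 2 * ρ + 1 * h + 4 / 3 * B * h := by
    rw [e2]
    exact (abs_sub _ _).trans (add_le_add ((abs_add_le _ _).trans (add_le_add g1 g2)) g2')
  have g4 : c0 / 2 ≤ |φ + κ * (r.2.1 + r'.2.1) / 2 + α * r.1| := by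
    have h1 : |κ * (r.2.1 + r'.2.1) / 2| ≤ |κ| := by
      rw [abs_div, abs_mul, abs_two]
      have h2 : |r.2.1 + r'.2.1| ≤ 2 := by
        have := abs_add_le r.2.1 r'.2.1
        have h3 := hr.2.1
        have h4 := hr'.2.1
        linarith
      have h3 := mul_le_mul_of_nonneg_left h2 (abs_nonneg κ)
      linarith
    have h1' : |α * r.1| ≤ |α| := by
      rw [abs_mul]
      exact mul_le_of_le_one_right (abs_nonneg _) hr.1
    have h2 : |φ| ≤ |φ + κ * (r.2.1 + r'.2.1) / 2 + α * r.1| + |κ * (r.2.1 + r'.2.1) / 2| + |α * r.1| := by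
      have e : φ = (φ + κ * (r.2.1 + r'.2.1) / 2 + α * r.1) - κ * (r.2.1 + r'.2.1) / 2 - α * r.1 := by ring
      calc |φ| = |(φ + κ * (r.2.1 + r'.2.1) / 2 + α * r.1) - κ * (r.2.1 + r'.2.1) / 2 - α * r.1| := by rw [← e]
        _ ≤ |(φ + κ * (r.2.1 + r'.2.1) / 2 + α * r.1) - κ * (r.2.1 + r'.2.1) / 2| + |α * r.1| := abs_sub _ _
        _ ≤ _ := by
          have := abs_sub (φ + κ * (r.2.1 + r'.2.1) / 2 + α * r.1) (κ * (r.2.1 + r'.2.1) / 2)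
          linarith
    linarith
  rw [abs_mul] at g3
  have h5 := abs_nonneg (r.2.1 - r'.2.1)
  have h6 : |r.2.1 - r'.2.1| * (c0 / 2) ≤ (8 * A + 1) * h + 4 / 3 * B * h := by nlinarith
  have hBA : 8 * A + 1 ≤ B := by
    rw [hB, le_div_iff₀ hc0]
    nlinarith
  have h8 : (8 * A + 1) * h + 4 / 3 * B * h ≤ 8 * B * h := by nlinarith
  have h9 : 16 * (8 * A + 1) / c0 ^ 2 * h = (8 * B * h) / (c0 / 2) := by
    rw [hB]
    field_simp
    ring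
  rw [h9, le_div_iff₀ (by positivity)]
  exact h6.trans h8

/-- index and constants: the three cases -/
theorem cases_cov (A c0 : ℝ) (hc0 : 0 < c0) (hc1 : c0 ≤ 1) {p N M : ℕ}
    (H : Dat A φ κ α s0 s1 ρ ((1 / 2 : ℝ) ^ p) m) (hc : c0 ≤ |φ| ∨ c0 ≤ |κ| ∨ c0 ≤ |α|)
    (hN : 16 * (8 * A + 1) / c0 ^ 2 ≤ N) (hM : 4 * (2 + 3 * A + 2 * A ^ 2) / c0 * ρ ≤ M * (1 / 2 : ℝ) ^ (2 * p)) :
    ∃ i : ℝ × ℝ × ℝ → ℤ × Bool, (∀ r ∈ KS φ κ α s0 s1 ρ, (i r).1 ∈ Icc (-(2 : ℤ) ^ p) (2 ^ p)) ∧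
    (∀ r ∈ KS φ κ α s0 s1 ρ, ∀ r' ∈ KS φ κ α s0 s1 ρ, i r = i r' →
      |r.1 - r'.1| ≤ N * (1 / 2 : ℝ) ^ p ∧ |r.2.1 - r'.2.1| ≤ N * (1 / 2 : ℝ) ^ p) ∧
    (∀ r ∈ KS φ κ α s0 s1 ρ, ∀ r' ∈ KS φ κ α s0 s1 ρ, i r = i r' → fl1 p r.1 = fl1 p r'.1 →
      fl1 p r.2.1 = fl1 p r'.2.1 →
      |(r.2.2 - qa p r.2.1 * r.1) - (r'.2.2 - qa p r'.2.1 * r'.1)| ≤ M * (1 / 2 : ℝ) ^ (2 * p)) := by
  classical
  set h : ℝ := (1 / 2 : ℝ) ^ p with hh
  have hA := H.A1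
  have hh0 := H.h0
  have hN0 : (1 : ℝ) ≤ N := by
    refine le_trans ?_ hN
    rw [le_div_iff₀ (by positivity)]
    have : c0 ^ 2 ≤ 1 := pow_le_one₀ hc0.le hc1
    nlinarith
  have hN1 : 4 * (8 * A + 1) / c0 ≤ N := by
    refine le_trans ?_ hN
    rw [div_le_div_iff₀ hc0 (by positivity)]
    have h1 : 4 * (8 * A + 1) * c0 ^ 2 = (4 * (8 * A + 1)) * c0 * c0 := by ring
    have h2 : 0 ≤ 4 * (8 * A + 1) * c0 := by positivity
    nlinarith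
  have one_h : ∀ u : ℝ, |u| ≤ h → |u| ≤ N * h := fun u hu => hu.trans (by nlinarith)
  have idx : ∀ (r r' : ℝ × ℝ × ℝ), (decide (0 ≤ own φ κ α r) = decide (0 ≤ own φ κ α r')) →
      (0 ≤ own φ κ α r) = (0 ≤ own φ κ α r') := by
    intro r r' e
    exact propext (decide_eq_decide.1 e)
  by_cases hκ : c0 / 4 ≤ |κ|
  · -- case κ
    refine ⟨fun r => (fl1 p r.1, decide (0 ≤ own φ κ α r)), fun r hr => fl1_range p hr.1, ?_, ?_⟩
    · intro r hr r' hr' e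
      rw [Prod.mk.injEq] at e
      have hx := fl1_close e.1
      refine ⟨one_h _ hx, ?_⟩
      have ho := own_close H hr hr' (idx r r' e.2)
      have e2 : κ * (r.2.1 - r'.2.1) = (own φ κ α r - own φ κ α r') - α * (r.1 - r'.1) := by unfold own; ring
      have h3 : |κ * (r.2.1 - r'.2.1)| ≤ 8 * A * h + 1 * h := by
        rw [e2]
        refine (abs_sub _ _).trans (add_le_add ho ?_)
        rw [abs_mul]
        exact mul_le_mul H.α1 hx (abs_nonneg _) (by norm_num)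
      rw [abs_mul] at h3
      have h4 := abs_nonneg (r.2.1 - r'.2.1)
      have h5 : c0 / 4 * |r.2.1 - r'.2.1| ≤ (8 * A + 1) * h := by nlinarith
      have h6 : |r.2.1 - r'.2.1| ≤ 4 * (8 * A + 1) / c0 * h := by
        rw [div_mul_eq_mul_div, le_div_iff₀ hc0]
        linarith
      exact h6.trans (mul_le_mul_of_nonneg_right hN1 hh0.le)
    · intro r hr r' hr' _ ex ey
      have hq : qa p r'.2.1 = qa p r.2.1 := by unfold qa; rw [ey]
      rw [hq]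
      refine (z_kap H hr hr' (c := c0 / 4) (by positivity) hκ (fl1_close ex) (qa_close p r.2.1)).trans ?_
      refine le_trans (le_of_eq ?_) hM
      field_simp
  by_cases hα : c0 / 4 ≤ |α|
  · -- case α
    refine ⟨fun r => (fl1 p r.2.1, decide (0 ≤ own φ κ α r)), fun r hr => fl1_range p hr.2.1, ?_, ?_⟩
    · intro r hr r' hr' e
      rw [Prod.mk.injEq] at e
      have hy := fl1_close e.1
      refine ⟨?_, one_h _ hy⟩
      have ho := own_close H hr hr' (idx r r' e.2)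
      have e2 : α * (r.1 - r'.1) = (own φ κ α r - own φ κ α r') - κ * (r.2.1 - r'.2.1) := by unfold own; ring
      have h3 : |α * (r.1 - r'.1)| ≤ 8 * A * h + 1 * h := by
        rw [e2]
        refine (abs_sub _ _).trans (add_le_add ho ?_)
        rw [abs_mul]
        exact mul_le_mul H.κ1 hy (abs_nonneg _) (by norm_num)
      rw [abs_mul] at h3
      have h4 := abs_nonneg (r.1 - r'.1)
      have h5 : c0 / 4 * |r.1 - r'.1| ≤ (8 * A + 1) * h := by nlinarith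
      have h6 : |r.1 - r'.1| ≤ 4 * (8 * A + 1) / c0 * h := by
        rw [div_mul_eq_mul_div, le_div_iff₀ hc0]
        linarith
      exact h6.trans (mul_le_mul_of_nonneg_right hN1 hh0.le)
    · intro r hr r' hr' _ ex ey
      have hq : qa p r'.2.1 = qa p r.2.1 := by unfold qa; rw [ey]
      rw [hq]
      refine (z_alp H hr hr' (c := c0 / 4) (by positivity) hα (fl1_close ex) (fl1_close ey) ?_).trans ?_
      · rw [← hq]
        exact qa_close p r'.2.1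
      · refine le_trans (le_of_eq ?_) hM
        field_simp
  · -- case φ
    have hφ : c0 ≤ |φ| := by
      rcases hc with h1 | h1 | h1
      · exact h1
      · exact absurd (by linarith) hκ
      · exact absurd (by linarith) hα
    push Not at hκ hα
    refine ⟨fun r => (fl1 p r.2.2, true), fun r hr => fl1_range p hr.2.2.1, ?_, ?_⟩
    · intro r hr r' hr' e
      rw [Prod.mk.injEq] at e
      have hz := fl1_close e.1
      constructor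
      · refine (phi_x hc0 H hφ hκ hα hr hr' hz).trans (mul_le_mul_of_nonneg_right (le_trans ?_ hN1) hh0.le)
        apply div_le_div_of_nonneg_right _ hc0.le
        linarith
      · exact (phi_y hc0 hc1 H hφ hκ hα hr hr' hz).trans (mul_le_mul_of_nonneg_right hN hh0.le)
    · intro r hr r' hr' e ex ey
      rw [Prod.mk.injEq] at e
      have hz := fl1_close e.1
      have hx := fl1_close ex
      obtain ⟨k1, k2⟩ := phi_size hc0 H hφ hκ hα hr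
      have hq : qa p r'.2.1 = qa p r.2.1 := by unfold qa; rw [ey]
      rw [hq]
      have hqb : |qa p r.2.1| ≤ 2 := by
        have h1 := qa_close p r.2.1
        have h2 := hr.2.1
        have h3 := half_pow_le p
        have h4 : |qa p r.2.1| ≤ |r.2.1| + |r.2.1 - qa p r.2.1| := by
          have e : qa p r.2.1 = r.2.1 - (r.2.1 - qa p r.2.1) := by ring
          calc |qa p r.2.1| = |r.2.1 - (r.2.1 - qa p r.2.1)| := by rw [← e]
            _ ≤ _ := abs_sub _ _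
        linarith
      have e3 : (r.2.2 - qa p r.2.1 * r.1) - (r'.2.2 - qa p r.2.1 * r'.1) =
          (r.2.2 - r'.2.2) - qa p r.2.1 * (r.1 - r'.1) := by ring
      have h3 : |(r.2.2 - qa p r.2.1 * r.1) - (r'.2.2 - qa p r.2.1 * r'.1)| ≤ h + 2 * h := by
        rw [e3]
        refine (abs_sub _ _).trans (add_le_add hz ?_)
        rw [abs_mul]
        exact mul_le_mul hqb hx (abs_nonneg _) (by norm_num)
      refine h3.trans (le_trans ?_ hM)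
      have h4 : h + 2 * h ≤ 18 * A / c0 * ρ := by
        have : 18 * A / c0 * ρ = 3 * (6 * A / c0 * ρ) := by ring
        rw [this]
        linarith
      refine h4.trans ?_
      apply mul_le_mul_of_nonneg_right _ H.ρ0.le
      apply div_le_div_of_nonneg_right _ hc0.le
      nlinarith [sq_nonneg (A - 1)]

end

/-- **the covering lemma** -/
theorem cov (A c0 : ℝ) (hc0 : 0 < c0) (hc1 : c0 ≤ 1) : ∃ C : ℝ, 0 < C ∧ ∀ (φ κ α s0 s1 ρ m : ℝ) (p : ℕ),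
    Dat A φ κ α s0 s1 ρ ((1 / 2 : ℝ) ^ p) m → (c0 ≤ |φ| ∨ c0 ≤ |κ| ∨ c0 ≤ |α|) →
    ∃ U : Finset (ℤ × ℤ × ℤ), (U.card : ℝ) ≤ C * ρ * 2 ^ (3 * p) ∧ ∀ r ∈ KS φ κ α s0 s1 ρ, natC p r ∈ U := by
  classical
  by_cases hA : 1 ≤ A
  swap
  · exact ⟨1, one_pos, fun φ κ α s0 s1 ρ m p H _ => absurd H.A1 hA⟩
  set N : ℕ := ⌈16 * (8 * A + 1) / c0 ^ 2⌉₊ with hNdef
  set Mc : ℝ := 4 * (2 + 3 * A + 2 * A ^ 2) / c0 with hMc
  have hMc0 : 0 < Mc := by positivity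
  refine ⟨6 * (2 * N + 3) ^ 2 * (2 * Mc + 5 * A ^ 2), by positivity, ?_⟩
  intro φ κ α s0 s1 ρ m p H hc
  set M : ℕ := ⌈Mc * ρ * 2 ^ (2 * p)⌉₊ with hMdef
  have hρ := H.ρ0
  have e1 : (1 / 2 : ℝ) ^ (2 * p) = 1 / 2 ^ (2 * p) := by rw [div_pow, one_pow]
  have hM : Mc * ρ ≤ M * (1 / 2 : ℝ) ^ (2 * p) := by
    rw [e1, mul_one_div, le_div_iff₀ (by positivity)]
    exact Nat.le_ceil _
  obtain ⟨i, hi, hx, hz⟩ := cases_cov A c0 hc0 hc1 (N := N) (M := M) H hc (Nat.le_ceil _) hM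
  obtain ⟨U, hU, hU'⟩ := cover (p := p) (N := N) (M := M) (Icc (-(2 : ℤ) ^ p) (2 ^ p) ×ˢ (univ : Finset Bool)) i
    (fun r hr => mem_product.2 ⟨hi r hr, mem_univ _⟩) hx hz
  refine ⟨U, ?_, hU'⟩
  have h1 : ((Icc (-(2 : ℤ) ^ p) (2 ^ p) ×ˢ (univ : Finset Bool)).card : ℝ) ≤ 6 * 2 ^ p := by
    rw [card_product, Int.card_Icc]
    have h2 : ((2 : ℤ) ^ p + 1 - -2 ^ p).toNat = 2 * 2 ^ p + 1 := by
      have h3 : (2 : ℤ) ^ p + 1 - -2 ^ p = ((2 * 2 ^ p + 1 : ℕ) : ℤ) := by push_cast; ring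
      rw [h3, Int.toNat_natCast]
    rw [h2]
    simp only [card_univ, Fintype.card_bool]
    push_cast
    have : (1 : ℝ) ≤ 2 ^ p := one_le_pow₀ (by norm_num)
    linarith
  have h2 : (2 * (M : ℝ) + 3) ≤ (2 * Mc + 5 * A ^ 2) * ρ * 2 ^ (2 * p) := by
    have h3 : (M : ℝ) < Mc * ρ * 2 ^ (2 * p) + 1 := Nat.ceil_lt_add_one (by positivity)
    have h4 : (1 : ℝ) ≤ A ^ 2 * ρ * 2 ^ (2 * p) := by
      have h5 := H.hh
      rw [← pow_mul, mul_comm p 2, e1, div_le_iff₀ (by positivity)] at h5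
      linarith
    nlinarith
  have h3 : (U.card : ℝ) ≤ ((Icc (-(2 : ℤ) ^ p) (2 ^ p) ×ˢ (univ : Finset Bool)).card : ℝ) *
      ((2 * N + 3) * (2 * N + 3) * (2 * M + 3)) := by exact_mod_cast hU
  calc (U.card : ℝ) ≤ _ := h3
    _ ≤ (6 * 2 ^ p) * ((2 * N + 3) * (2 * N + 3) * ((2 * Mc + 5 * A ^ 2) * ρ * 2 ^ (2 * p))) := by gcongr
    _ = _ := by
      rw [show 3 * p = p + 2 * p by ring, pow_add]
      ring

end Vale.Agent.P106.U.Cov
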