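import Vale.Agent.P127.U.Blocks1

/-!
# P106 / U : light rays of `R^{3+1}`, natural (conformal) boxes, penalised excess (helper465)

* `Ry` : light ray `t ↦ (t, x + t y, z + t |y|²/2)`, data `(x, z, y)`, `x, y ∈ R²`.
* `ball k l` : digits of the natural ball of cap `2^-k` (`x, y` to `k`, `z - y_k·x` to `2k`), `zoom k l` the
  ray in the coordinates of that ball (again a light ray: `x̂ = 2^k (x - x_k)`, `ŷ = 2^k (y - y_k)`,
  `ẑ = 2^(2k) (z - z_k - y_k·(x - x_k))`).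
* `Fr` : frame = functional `Λ = c·x - ka z - al w`, `w = t z - |x|²/2`; on every light ray it is affine in `t`:
  `ev f l = (Λ at t = 0, slope of Λ)`.  `cen f l` : the functional which has the coefficients `f` in the
  coordinates centred at the ray `l` (translation + Galilei boost), written in the original coordinates.
* box `W` around the ray `l` : cap `2^-k`, frame `f` (centred at `l`, in the coordinates `zoom k`,
  `|c| = 1`, `|ka| ≤ 1`, `|al| ≤ 1/2`: cap units), thickness `2^-j`, `k ≤ j`: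
  `|x' - x|, |y' - y| ≤ 2^-k`, `|ζ'| ≤ 2^-2k`, `|Λ| ≤ 2^-j` on `[0,1]`.
  Volume of a time slice `2^-(3k+j)`.  `lab` : its label (a finite list of integers).
* exact rays: the entropies are those of the ray `l` itself (finite law), the precision `n` only bounds
  the exponents of the boxes.
* penalised size of a box `(3 + lam) k + (1 - lam) j` (linear, 513).
* class: rays in a slab of thickness `2^-e` (functional `F`), boxes inside this slab (helper20, helper513); no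
  stretching, no `G_eps`.  Level `s` : zoomed ray `wz s l t`, cell `cl s l t`, slab functional `fz s F l t`.
-/

set_option autoImplicit false

namespace Vale.Agent.P106.U

open Filter Topology Vale.Agent.P127 Vale.Agent.P127.Stk

/-! ### rays -/

/-- a light ray `t ↦ (x + t y, z + t |y|²/2)`, data `(x, z, y)` -/
abbrev Ry := (Fin 2 → ℝ) × ℝ × (Fin 2 → ℝ)

/-- a point `(t, x, z)` -/
abbrev Pt := ℝ × (Fin 2 → ℝ) × ℝ

/-- scalar product in `R²` -/
def dt (u v : Fin 2 → ℝ) : ℝ := u 0 * v 0 + u 1 * v 1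

/-- `x`-position at the time `t` -/
def xp (l : Ry) (t : ℝ) : Fin 2 → ℝ := fun i => l.1 i + t * l.2.2 i

/-- `z`-position at the time `t` -/
noncomputable def zp (l : Ry) (t : ℝ) : ℝ := l.2.1 + t * (dt l.2.2 l.2.2 / 2)

/-- the point of the ray at the time `t` -/
noncomputable def rpt (l : Ry) (t : ℝ) : Pt := (t, xp l t, zp l t)

/-- the number rounded down to `m` binary digits -/
noncomputable def qa (m : ℕ) (x : ℝ) : ℝ := (fl1 m x : ℝ) / 2 ^ m

/-- the vector rounded down to `m` binary digits -/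
noncomputable def qv (m : ℕ) (v : Fin 2 → ℝ) : Fin 2 → ℝ := fun i => qa m (v i)

/-- a point with precision `n` -/
noncomputable def pq (n : ℕ) (q : Pt) : ℤ × (Fin 2 → ℤ) × ℤ := (fl1 n q.1, fl n q.2.1, fl1 n q.2.2)

/-- normalised ray -/
def RyOk (l : Ry) : Prop := (∀ i, |l.1 i| ≤ 1) ∧ |l.2.1| ≤ 1 ∧ ∀ i, |l.2.2 i| ≤ 1

/-! ### natural balls -/

/-- `z - y_k · x` : the null coordinate adapted to the direction rounded to `k` digits -/
noncomputable def uz (k : ℕ) (l : Ry) : ℝ := l.2.1 - dt (qv k l.2.2) l.1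

/-- type of the digits of a natural ball -/
abbrev BL := (Fin 2 → ℤ) × ℤ × (Fin 2 → ℤ)

/-- digits of the natural ball of cap `2^-k` which contains the ray -/
noncomputable def ball (k : ℕ) (l : Ry) : BL := (fl k l.1, fl1 (2 * k) (uz k l), fl k l.2.2)

/-- the ray in the coordinates of its natural ball of cap `2^-k` -/
noncomputable def zoom (k : ℕ) (l : Ry) : Ry :=
  (fun i => Int.fract ((2 : ℝ) ^ k * l.1 i), Int.fract ((2 : ℝ) ^ (2 * k) * uz k l),
    fun i => Int.fract ((2 : ℝ) ^ k * l.2.2 i))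

/-! ### frames -/

/-- coefficients of the functional `Λ = c·x - ka z - al w`, `w = t z - |x|²/2` -/
structure Fr where
  c : Fin 2 → ℝ
  ka : ℝ
  al : ℝ

/-- value at the time `0` and slope of `Λ` along the ray -/
noncomputable def ev (f : Fr) (l : Ry) : ℝ × ℝ :=
  (dt f.c l.1 - f.ka * l.2.1 + f.al * (dt l.1 l.1 / 2),
    dt f.c l.2.2 - f.ka * (dt l.2.2 l.2.2 / 2) - f.al * (l.2.1 - dt l.1 l.2.2))

/-- the functional whose coefficients are `f` in the coordinates centred at the ray `l` -/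
def cen (f : Fr) (l : Ry) : Fr := ⟨fun i => f.c i + f.ka * l.2.2 i - f.al * l.1 i, f.ka, f.al⟩

/-- the frame rounded to `m` digits -/
noncomputable def qf (m : ℕ) (f : Fr) : Fr := ⟨qv m f.c, qa m f.ka, qa m f.al⟩

/-- digits of a frame -/
noncomputable def flf (m : ℕ) (f : Fr) : (Fin 2 → ℤ) × ℤ × ℤ := (fl m f.c, fl1 m f.ka, fl1 m f.al)

/-- cross product -/
def cr (u v : Fin 2 → ℝ) : ℝ := u 0 * v 1 - u 1 * v 0

/-- normalised frame (cap units): unit covector, `|ka| ≤ 1`, `|al| ≤ 1/2` -/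
def FrOk (f : Fr) : Prop := dt f.c f.c = 1 ∧ |f.ka| ≤ 1 ∧ |f.al| ≤ 1 / 2

/-- coefficients of the functional `f` in the coordinates centred at the ray `l` (inverse of `cen`) -/
def rec (f : Fr) (l : Ry) : Fr := ⟨fun i => f.c i - f.ka * l.2.2 i + f.al * l.1 i, f.ka, f.al⟩

/-- the same functional (centred at a ray) in the coordinates of the ball of radius `2^-s` around the time `ts` -/
noncomputable def lvl (s : ℕ) (ts : ℝ) (f : Fr) : Fr := ⟨f.c, f.ka + f.al * ts, f.al / 2 ^ s⟩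

/-! ### boxes -/

/-- the type of the labels of boxes -/
abbrev Lab := ℕ × ℕ × BL × ((Fin 2 → ℤ) × ℤ × ℤ) × (ℤ × ℤ)

/-- label of the box around `l` with frame `f` (centred at `zoom k l`), cap `2^-k`, thickness `2^-j` -/
noncomputable def lab (f : Fr) (k j : ℕ) (l : Ry) : Lab :=
  let g := cen f (zoom k l)
  let e := ev (qf (j - k) g) (zoom k l)
  (k, j, ball k l, flf (j - k) g, (fl1 (j - k) e.1, fl1 (j - k) e.2))

/-- a random box -/
structure Bx (Ω : Type) where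
  l : Ω → Ry
  f : Ω → Fr
  k : Ω → ℕ
  j : Ω → ℕ

namespace Bx

variable {Ω Ω' : Type}

/-- the label of a random box -/
noncomputable def lab (B : Bx Ω) (ω : Ω) : Lab := U.lab (B.f ω) (B.k ω) (B.j ω) (B.l ω)

/-- penalised size `(3 + lam) k + (1 - lam) j = 3 k + j - lam (j - k)` -/
noncomputable def sz (lam : ℝ) (B : Bx Ω) (ω : Ω) : ℝ :=
  (3 + lam) * (B.k ω : ℝ) + (1 - lam) * (B.j ω : ℝ)

/-- pull back -/
def comp (B : Bx Ω) (π : Ω' → Ω) : Bx Ω' :=
  ⟨fun ω => B.l (π ω), fun ω => B.f (π ω), fun ω => B.k (π ω), fun ω => B.j (π ω)⟩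

end Bx

/-- normalised box -/
def BxOk {Ω : Type} (B : Bx Ω) (ω : Ω) : Prop := RyOk (B.l ω) ∧ FrOk (B.f ω) ∧ B.k ω ≤ B.j ω

/-- the box `(f, k, j)` (frame in cap units) is inside the slab of thickness `2^-e` whose functional, centred at
the same ray, is `g`, up to the constant `c` (same as `Sub` with `W.k = 0`, `W.j = e`) -/
def InS (c : ℝ) (e : ℕ) (g f : Fr) (k j : ℕ) : Prop :=
  e ≤ j ∧ |cr g.c f.c| * (1 / 2 : ℝ) ^ k ≤ c * (1 / 2 : ℝ) ^ e ∧
    |g.ka * (1 / 2 : ℝ) ^ (2 * k) - dt g.c f.c * f.ka * (1 / 2 : ℝ) ^ k| ≤ c * (1 / 2 : ℝ) ^ e ∧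
    |g.al * (1 / 2 : ℝ) ^ (2 * k) - dt g.c f.c * f.al * (1 / 2 : ℝ) ^ k| ≤ c * (1 / 2 : ℝ) ^ e

/-- `W` is a box of precision `n` around the ray `g`, inside the slab of functional `f` (centred at `g`) and
thickness `2^-e` -/
def Adm {Ω : Type} (e n : ℕ) (g : Ω → Ry) (f : Ω → Fr) (W : Bx Ω) (ω : Ω) : Prop :=
  W.l ω = g ω ∧ FrOk (W.f ω) ∧ W.k ω ≤ W.j ω ∧ W.j ω ≤ n ∧ InS 4 e (f ω) (W.f ω) (W.k ω) (W.j ω)

/-- the box `W` contains the box `B` (same ray), up to the constant `c`.  With `D = B.k - W.k` and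
`m = W.j - W.k`, in the coordinates `zoom W.k` the difference `Λ_W - (c_B·c_W) Λ_B` is at most `3 c 2^-m` on `B`. -/
def Sub {Ω : Type} (c : ℝ) (B W : Bx Ω) (ω : Ω) : Prop :=
  W.l ω = B.l ω ∧ FrOk (W.f ω) ∧ W.k ω ≤ W.j ω ∧ W.k ω ≤ B.k ω ∧ W.j ω ≤ B.j ω ∧
    |cr (B.f ω).c (W.f ω).c| * (1 / 2 : ℝ) ^ (B.k ω - W.k ω) ≤ c * (1 / 2 : ℝ) ^ (W.j ω - W.k ω) ∧
    |(W.f ω).ka * (1 / 2 : ℝ) ^ (2 * (B.k ω - W.k ω)) -
        dt (B.f ω).c (W.f ω).c * (B.f ω).ka * (1 / 2 : ℝ) ^ (B.k ω - W.k ω)| ≤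
      c * (1 / 2 : ℝ) ^ (W.j ω - W.k ω) ∧
    |(W.f ω).al * (1 / 2 : ℝ) ^ (2 * (B.k ω - W.k ω)) -
        dt (B.f ω).c (W.f ω).c * (B.f ω).al * (1 / 2 : ℝ) ^ (B.k ω - W.k ω)| ≤
      c * (1 / 2 : ℝ) ^ (W.j ω - W.k ω)

/-! ### penalised excess, finite laws -/

section finite

variable {Ω : Type} [Fintype Ω] {σ γ : Type*}

/-- `H(X | W, C) + log 2 * E (sz W)` -/
noncomputable def exV (lam : ℝ) (P : Law Ω) (X : Ω → σ) (W : Bx Ω) (C : Ω → γ) : ℝ :=
  Stk.hc P X (fun ω => (W.lab ω, C ω)) + Real.log 2 * P.ex fun ω => W.sz lam ω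

/-- the values of all boxes of precision `n` around `g` inside the slab `(e, f)`, on all extensions of `P` -/
def exSet (lam : ℝ) (e n : ℕ) (P : Law Ω) (X : Ω → σ) (g : Ω → Ry) (f : Ω → Fr) (C : Ω → γ) : Set ℝ :=
  {v | ∃ (Ω' : Type) (_ : Fintype Ω') (P' : Law Ω') (π : Ω' → Ω) (W : Bx Ω'),
    (∀ ω, P'.pr π ω = P.w ω) ∧
    (∀ ω, 0 < P'.w ω → Adm e n (fun ω => g (π ω)) (fun ω => f (π ω)) W ω) ∧
    v = exV lam P' (fun ω => X (π ω)) W fun ω => C (π ω)}

/-- penalised excess: `sup H(X | W, C) + log 2 E (sz W)` over the boxes `W` of precision `n` around `g` inside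
the slab `(e, f)` -/
noncomputable def excF (lam : ℝ) (e n : ℕ) (P : Law Ω) (X : Ω → σ) (g : Ω → Ry) (f : Ω → Fr) (C : Ω → γ) : ℝ :=
  sSup (exSet lam e n P X g f C)

end finite

/-! ### levels -/

section levels

variable {Ω : Type} {γ : Type*}

/-- the ray seen in the ball of radius `2^-s` around the point of time `t` -/
noncomputable def wz (s : ℕ) (l : Ω → Ry) (t : Ω → ℝ) (ω : Ω) : Ry :=
  (fun i => Int.fract ((2 : ℝ) ^ s * xp (l ω) (qa s (t ω)) i),
    Int.fract ((2 : ℝ) ^ s * zp (l ω) (qa s (t ω))), (l ω).2.2)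

/-- the cell of radius `2^-s` around the point of time `t` (position at the rounded time) -/
noncomputable def cl (s : ℕ) (l : Ω → Ry) (t : Ω → ℝ) (ω : Ω) : ℤ × (Fin 2 → ℤ) × ℤ :=
  (fl1 s (t ω), fl s (xp (l ω) (qa s (t ω))), fl1 s (zp (l ω) (qa s (t ω))))

/-- the functional `F` (absolute coordinates) centred at the ray, in the coordinates of the ball of level `s` -/
noncomputable def fz (s : ℕ) (F : Ω → Fr) (l : Ω → Ry) (t : Ω → ℝ) (ω : Ω) : Fr :=
  lvl s (qa s (t ω)) (rec (F ω) (l ω))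

variable [Fintype Ω]

/-- normalised rays and times -/
def GoodF (P : Law Ω) (l : Ω → Ry) (t : Ω → ℝ) : Prop :=
  ∀ ω, 0 < P.w ω → RyOk (l ω) ∧ 0 ≤ t ω ∧ t ω ≤ 1

/-- penalised excess at the level `s`: boxes of precision `n` (absolute) inside the slab of functional `F`
(absolute) and thickness `2^-(s+e)`, given `C` -/
noncomputable def XF (lam : ℝ) (P : Law Ω) (e s n : ℕ) (F : Ω → Fr) (l : Ω → Ry) (t : Ω → ℝ) (C : Ω → γ) : ℝ :=
  excF lam e (n - s) P l (wz s l t) (fz s F l t) (fun ω => (cl s l t ω, C ω)) + 3 * s * Real.log 2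

/-- time deficit given the ray -/
noncomputable def DF (P : Law Ω) (s : ℕ) (l : Ω → Ry) (t : Ω → ℝ) (C : Ω → γ) : ℝ :=
  s * Real.log 2 - Stk.hc P (fun ω => fl1 s (t ω)) (fun ω => (l ω, C ω))

end levels

/-! ### reference slab -/

/-- data of a slab: functional and its values (at time `0`, slope) -/
structure Sl where
  f : Fr
  o : ℝ × ℝ

/-- normalised slab data (Lorentz norm `1`: the covector centred at a ray of the slab is a unit vector up to
the thickness) -/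
def SlOk (s : Sl) : Prop :=
  dt s.f.c s.f.c - 2 * s.f.ka * s.o.2 + 2 * s.f.al * s.o.1 = 1 ∧ |s.f.ka| + 2 * |s.f.al| ≤ 2

/-- the ray is in the slab of thickness `2^-e` -/
def InSl (e : ℕ) (s : Sl) (l : Ry) : Prop :=
  |(ev s.f l).1 - s.o.1| ≤ (1 / 2 : ℝ) ^ e ∧ |(ev s.f l).2 - s.o.2| ≤ (1 / 2 : ℝ) ^ e

/-- **the inequality with the penalised excess**: rays and boxes in a slab of thickness `2^-e`, all precisions
`n ≥ s + e` -/
def JFG (N lam β : ℝ) : Prop :=
  ∀ ε : ℝ, 0 < ε → ∃ c : ℝ, ∀ (Ω : Type) [Fintype Ω] (P : Law Ω) (l : Ω → Ry) (t : Ω → ℝ) (e s n : ℕ)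
    (S : Sl), GoodF P l t → SlOk S → (∀ ω, 0 < P.w ω → InSl e S (l ω)) → s + e ≤ n →
    XF lam P e s n (fun _ => S.f) l t (fun _ => ()) ≤
      (β + ε) * s * Real.log 2 + c * (1 + Real.log (n + 1)) +
        XF lam P e 0 n (fun _ => S.f) l t (fun _ => ()) + N * DF P s l t (fun _ => ())

/-- the same for the class `s + e ≤ n ≤ K s + e` -/
def JFK (N lam K β : ℝ) : Prop :=
  ∀ ε : ℝ, 0 < ε → ∃ c : ℝ, ∀ (Ω : Type) [Fintype Ω] (P : Law Ω) (l : Ω → Ry) (t : Ω → ℝ) (e s n : ℕ)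
    (S : Sl), GoodF P l t → SlOk S → (∀ ω, 0 < P.w ω → InSl e S (l ω)) → s + e ≤ n →
    (n : ℝ) ≤ K * s + e →
    XF lam P e s n (fun _ => S.f) l t (fun _ => ()) ≤
      (β + ε) * s * Real.log 2 + c * (1 + Real.log (n + 1)) +
        XF lam P e 0 n (fun _ => S.f) l t (fun _ => ()) + N * DF P s l t (fun _ => ())

/-- no slab: any functional is allowed for `e = 0` -/
def f0 : Fr := ⟨fun i => if i = 0 then 0 else 1, 0, 0⟩

/-- final form: unpenalised, no slab, points of precision `s` -/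
def JF (N β : ℝ) : Prop :=
  ∀ ε : ℝ, 0 < ε → ∃ c : ℝ, ∀ (Ω : Type) [Fintype Ω] (P : Law Ω) (l : Ω → Ry) (t : Ω → ℝ) (s n : ℕ),
    GoodF P l t → s ≤ n →
    Stk.hc P l (fun ω => pq s (rpt (l ω) (t ω))) + 3 * s * Real.log 2 ≤
      (β + ε) * s * Real.log 2 + c * (1 + Real.log (n + 1)) +
        excF 0 0 n P l l (fun _ => f0) (fun _ => ()) + N * DF P s l t (fun _ => ())

end Vale.Agent.P106.U
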