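import Vale.Agent.P106.U.Strip

/-!
# P106 / U : a parabolic strip meets few cells, vertex included (helper543)

`qstrip` : given the coarse cell (`p` digits of `X`, `q` digits of `Z`), the points with `|c0 + c1 X + c2 Z + c3 X²| ≤ e`
meet at most `C 2^m` of the `2^(2 m)` fine cells (`p + m`, `q + m` digits), if `e ≤ K 4^-m M`,
`M = max |c1 + 2 c3 x0| 2^-p, |c2| 2^-q, |c3| 4^-p` (`x0` = left end of the cell). No condition on the vertex.
-/

set_option autoImplicit false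

namespace Vale.Agent.P106.U.Cov

open Finset Vale.Agent.P127.Stk Vale.Agent.P127.U

theorem fl1_gap {n : ℕ} {x y : ℝ} {r : ℕ} (h : fl1 n x + (r + 1) ≤ fl1 n y) : (r : ℝ) * (1 / 2 : ℝ) ^ n ≤ y - x := by
  unfold fl1 at h
  have h1 : (0 : ℝ) < 2 ^ n := by positivity
  have h2 := Int.lt_floor_add_one ((2:ℝ) ^ n * x)
  have h3 := Int.floor_le ((2:ℝ) ^ n * y)
  have h4 : ((⌊(2:ℝ) ^ n * x⌋ : ℤ) : ℝ) + (r + 1) ≤ ((⌊(2:ℝ) ^ n * y⌋ : ℤ) : ℝ) := by exact_mod_cast h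
  have e : (1 / 2 : ℝ) ^ n = 1 / 2 ^ n := by rw [div_pow, one_pow]
  rw [e, mul_one_div, div_le_iff₀ h1]
  nlinarith

/-- the two points of one diagonal : core inequality -/
theorem diag_core {K r : ℕ} {m : ℕ} {b c d u w e D S : ℝ} (hb : 0 ≤ b) (hc : 0 ≤ c) (hd : 0 ≤ d)
    (hM : 0 < max b (max c d)) (he : e ≤ K * max b (max c d) * (1 / 4 : ℝ) ^ m)
    (hsum : u + w ≤ 2 * e) (hw : c * S ≤ w) (hu2 : d * D ^ 2 ≤ u) (hu1 : 4 * d ≤ b → b * D ≤ 2 * u)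
    (hu0 : 0 ≤ u) (hw0 : 0 ≤ w)
    (hS : (r : ℝ) * (1 / 2 : ℝ) ^ m ≤ S) (hD : (r : ℝ) * (1 / 2 : ℝ) ^ m ≤ D) : r ≤ 8 * K + 1 := by
  set t : ℝ := (1 / 2 : ℝ) ^ m with ht
  have ht0 : 0 < t := by positivity
  have ht1 : t ≤ 1 := pow_le_one₀ (by norm_num) (by norm_num)
  have e4 : (1 / 4 : ℝ) ^ m = t * t := by
    rw [ht, ← mul_pow]
    norm_num
  rw [e4] at he
  have hr : (0 : ℝ) ≤ r := Nat.cast_nonneg _
  have hK : (0 : ℝ) ≤ K := Nat.cast_nonneg _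
  by_contra hcon
  have h8 : 8 * (K : ℝ) + 2 ≤ r := by
    have : 8 * K + 2 ≤ r := by omega
    exact_mod_cast this
  have hrt : 0 ≤ (r : ℝ) * t := by positivity
  -- consequences
  have k1 : c * ((r : ℝ) * t) ≤ 2 * (K * max b (max c d) * (t * t)) := by
    have := mul_le_mul_of_nonneg_left hS hc
    linarith
  have k2 : d * ((r : ℝ) * t) ^ 2 ≤ 2 * (K * max b (max c d) * (t * t)) := by
    have h1 : ((r : ℝ) * t) ^ 2 ≤ D ^ 2 := by
      apply pow_le_pow_left₀ hrt hD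
    have := mul_le_mul_of_nonneg_left h1 hd
    linarith
  have k3 : 4 * d ≤ b → b * ((r : ℝ) * t) ≤ 4 * (K * max b (max c d) * (t * t)) := by
    intro h
    have h1 := hu1 h
    have := mul_le_mul_of_nonneg_left hD hb
    linarith
  have htt : 0 < t * t := by positivity
  have q1 : ∀ v : ℝ, 0 < v → v * ((r : ℝ) * t) ≤ 4 * (K * v * (t * t)) → False := by
    intro v hv hh
    have h1 : (r : ℝ) ≤ 4 * K * t := by
      have : (v * t) * r ≤ (v * t) * (4 * K * t) := by linarith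
      exact le_of_mul_le_mul_left this (by positivity)
    nlinarith
  have q2 : ∀ v w' : ℝ, 0 < v → w' ≤ 4 * v → v * ((r : ℝ) * t) ^ 2 ≤ 2 * (K * w' * (t * t)) → False := by
    intro v w' hv hw' hh
    have h0 : 2 * (K * w' * (t * t)) ≤ 8 * K * v * (t * t) := by
      have : K * w' ≤ K * (4 * v) := mul_le_mul_of_nonneg_left hw' hK
      nlinarith
    have h1 : (r : ℝ) ^ 2 ≤ 8 * K := by
      have : (v * (t * t)) * (r : ℝ) ^ 2 ≤ (v * (t * t)) * (8 * K) := by nlinarith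
      exact le_of_mul_le_mul_left this (by positivity)
    nlinarith
  rcases le_total b (max c d) with h | h
  · rw [max_eq_right h] at k1 k2 hM
    rcases le_total c d with h' | h'
    · rw [max_eq_right h'] at k2 hM
      exact q2 d d hM (by linarith) k2
    · rw [max_eq_left h'] at k1 hM
      refine q1 c hM ?_
      have : 0 ≤ K * c * (t * t) := by positivity
      linarith
  · rw [max_eq_left h] at k1 k2 k3 hM
    rcases le_total (4 * d) b with h' | h'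
    · exact q1 b hM (k3 h')
    · have hd0 : 0 < d := by linarith
      exact q2 d b hd0 h' k2

/-- one monotone half of the parabola -/
theorem qstrip_half (K : ℕ) {p q m : ℕ} {c0 c1 c2 c3 e : ℝ} (i0 j0 : ℤ) (s : ℝ) (hs : s = 1 ∨ s = -1) (t : ℤ)
    (ht : t = 1 ∨ t = -1) (hst : 0 ≤ s * t * c2)
    (hM : 0 < max (|c1 + 2 * c3 * (i0 * (1 / 2 : ℝ) ^ p)| * (1 / 2 : ℝ) ^ p)
      (max (|c2| * (1 / 2 : ℝ) ^ q) (|c3| * (1 / 4 : ℝ) ^ p)))
    (he : e ≤ K * max (|c1 + 2 * c3 * (i0 * (1 / 2 : ℝ) ^ p)| * (1 / 2 : ℝ) ^ p)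
      (max (|c2| * (1 / 2 : ℝ) ^ q) (|c3| * (1 / 4 : ℝ) ^ p)) * (1 / 4 : ℝ) ^ m) :
    ∃ U : Finset (ℤ × ℤ), U.card ≤ 2 ^ m * (32 * K + 10) ∧ ∀ X Z : ℝ, fl1 p X = i0 → fl1 q Z = j0 →
      |c0 + c1 * X + c2 * Z + c3 * X ^ 2| ≤ e → 0 ≤ s * (c1 + 2 * c3 * X) →
      (fl1 (p + m) X, fl1 (q + m) Z) ∈ U := by
  classical
  have hs1 : |s| = 1 := by rcases hs with h | h <;> simp [h]
  have ht2 : (t : ℝ) * t = 1 := by rcases ht with h | h <;> simp [h]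
  have ht2' : t * t = 1 := by rcases ht with h | h <;> simp [h]
  have ht1 : |(t : ℝ)| = 1 := by rcases ht with h | h <;> simp [h]
  have hstc : s * t * c2 = |c2| := by
    rw [← abs_of_nonneg hst, abs_mul, abs_mul, hs1, ht1]
    ring
  set Ks : Set (ℝ × ℝ) := {r | fl1 p r.1 = i0 ∧ fl1 q r.2 = j0 ∧
      |c0 + c1 * r.1 + c2 * r.2 + c3 * r.1 ^ 2| ≤ e ∧ 0 ≤ s * (c1 + 2 * c3 * r.1)} with hKs
  -- two points of one diagonal
  have key : ∀ r ∈ Ks, ∀ r' ∈ Ks, fl1 (p + m) r.1 - t * fl1 (q + m) r.2 = fl1 (p + m) r'.1 - t * fl1 (q + m) r'.2 →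
      fl1 (p + m) r'.1 - fl1 (p + m) r.1 ≤ ((8 * K + 2 : ℕ) : ℤ) := by
    rintro ⟨X, Z⟩ ⟨h1, h2, h3, h4⟩ ⟨X', Z'⟩ ⟨h1', h2', h3', h4'⟩ hb
    simp only at h1 h2 h3 h4 h1' h2' h3' h4' hb ⊢
    by_contra hcon
    rw [not_le] at hcon
    obtain ⟨r0, hr0⟩ : ∃ r0 : ℕ, fl1 (p + m) X' - fl1 (p + m) X = r0 + 1 := by
      refine ⟨(fl1 (p + m) X' - fl1 (p + m) X - 1).toNat, ?_⟩
      rw [Int.toNat_of_nonneg (by push_cast at hcon; omega)]
      ring
    have gX : (r0 : ℝ) * (1 / 2 : ℝ) ^ (p + m) ≤ X' - X := fl1_gap (by linarith)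
    have gZ : (r0 : ℝ) * (1 / 2 : ℝ) ^ (q + m) ≤ t * (Z' - Z) := by
      have e0 : t * fl1 (q + m) Z' - t * fl1 (q + m) Z = r0 + 1 := by linarith
      rcases ht with h | h
      · rw [h] at e0
        have : (r0 : ℝ) * (1 / 2 : ℝ) ^ (q + m) ≤ Z' - Z := fl1_gap (by linarith)
        rw [h]
        push_cast
        linarith
      · rw [h] at e0
        have : (r0 : ℝ) * (1 / 2 : ℝ) ^ (q + m) ≤ Z - Z' := fl1_gap (by linarith)
        rw [h]
        push_cast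
        linarith
    have hp : (0 : ℝ) < (1 / 2 : ℝ) ^ p := by positivity
    have hq : (0 : ℝ) < (1 / 2 : ℝ) ^ q := by positivity
    have p2 : (2 : ℝ) ^ p * (1 / 2 : ℝ) ^ p = 1 := by rw [← mul_pow]; norm_num
    have q2 : (2 : ℝ) ^ q * (1 / 2 : ℝ) ^ q = 1 := by rw [← mul_pow]; norm_num
    have hp4 : (1 / 4 : ℝ) ^ p = (1 / 2 : ℝ) ^ p * (1 / 2 : ℝ) ^ p := by
      rw [← mul_pow]
      norm_num
    have hXX : 0 ≤ X' - X := le_trans (by positivity) gX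
    -- the position in the coarse cell
    have hx0 : ∀ x : ℝ, fl1 p x = i0 → |x - i0 * (1 / 2 : ℝ) ^ p| ≤ (1 / 2 : ℝ) ^ p := by
      intro x hx
      have := qa_close p x
      rwa [qa, hx, div_eq_mul_inv, show ((2 : ℝ) ^ p)⁻¹ = (1 / 2 : ℝ) ^ p by rw [one_div, inv_pow]] at this
    have hder : ∀ x : ℝ, fl1 p x = i0 → 0 ≤ s * (c1 + 2 * c3 * x) →
        |c1 + 2 * c3 * (i0 * (1 / 2 : ℝ) ^ p)| - 2 * |c3| * (1 / 2 : ℝ) ^ p ≤ s * (c1 + 2 * c3 * x) := by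
      intro x hx hsx
      have e1 : s * (c1 + 2 * c3 * x) = |c1 + 2 * c3 * x| := by
        rw [← abs_of_nonneg hsx, abs_mul, hs1, one_mul]
      rw [e1]
      have e2 : c1 + 2 * c3 * (i0 * (1 / 2 : ℝ) ^ p) = (c1 + 2 * c3 * x) - 2 * c3 * (x - i0 * (1 / 2 : ℝ) ^ p) := by ring
      have e3 : |2 * c3 * (x - i0 * (1 / 2 : ℝ) ^ p)| ≤ 2 * |c3| * (1 / 2 : ℝ) ^ p := by
        rw [abs_mul, abs_mul, abs_two]
        exact mul_le_mul_of_nonneg_left (hx0 x hx) (by positivity)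
      rw [e2]
      have := abs_sub (c1 + 2 * c3 * x) (2 * c3 * (x - i0 * (1 / 2 : ℝ) ^ p))
      linarith
    set v : ℝ := s * (c1 + 2 * c3 * X) with hv
    set v' : ℝ := s * (c1 + 2 * c3 * X') with hv'
    have hvv : 2 * |c3| * (X' - X) ≤ v + v' := by
      have e1 : v' - v = 2 * (s * c3) * (X' - X) := by rw [hv, hv']; ring
      have e2 : |s * c3| = |c3| := by rw [abs_mul, hs1, one_mul]
      rcases abs_cases (s * c3) with ⟨e3, -⟩ | ⟨e3, -⟩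
      · rw [← e2, e3]
        linarith
      · rw [← e2, e3]
        linarith
    have hr : r0 ≤ 8 * K + 1 := by
      refine diag_core (K := K) (m := m) (b := |c1 + 2 * c3 * (i0 * (1 / 2 : ℝ) ^ p)| * (1 / 2 : ℝ) ^ p)
        (c := |c2| * (1 / 2 : ℝ) ^ q) (d := |c3| * (1 / 4 : ℝ) ^ p) (u := (X' - X) * (v + v') / 2)
        (w := |c2| * (t * (Z' - Z))) (e := e) (D := (X' - X) * 2 ^ p) (S := t * (Z' - Z) * 2 ^ q)
        (by positivity) (by positivity) (by positivity) hM he ?_ ?_ ?_ ?_ ?_ ?_ ?_ ?_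
      · have e1 : (X' - X) * (v + v') / 2 + |c2| * (t * (Z' - Z)) =
            s * ((c0 + c1 * X' + c2 * Z' + c3 * X' ^ 2) - (c0 + c1 * X + c2 * Z + c3 * X ^ 2)) := by
          rw [← hstc, hv, hv']
          linear_combination (s * c2 * (Z' - Z)) * ht2
        rw [e1]
        refine (le_abs_self _).trans ?_
        rw [abs_mul, hs1, one_mul]
        refine (abs_sub _ _).trans ?_
        linarith
      · apply le_of_eq
        calc |c2| * (1 / 2 : ℝ) ^ q * (t * (Z' - Z) * 2 ^ q)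
            = |c2| * (t * (Z' - Z)) * (2 ^ q * (1 / 2 : ℝ) ^ q) := by ring
          _ = _ := by rw [q2, mul_one]
      · calc |c3| * (1 / 4 : ℝ) ^ p * ((X' - X) * 2 ^ p) ^ 2
            = |c3| * (X' - X) ^ 2 * (2 ^ p * (1 / 2 : ℝ) ^ p) ^ 2 := by rw [hp4]; ring
          _ = (X' - X) * (2 * |c3| * (X' - X)) / 2 := by rw [p2]; ring
          _ ≤ _ := by
            have := mul_le_mul_of_nonneg_left hvv hXX
            linarith
      · intro h4d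
        have k1 := hder X h1 h4
        have k2 := hder X' h1' h4'
        rw [hp4] at h4d
        have k3 : 4 * |c3| * (1 / 2 : ℝ) ^ p ≤ |c1 + 2 * c3 * (i0 * (1 / 2 : ℝ) ^ p)| := by
          have : (4 * |c3| * (1 / 2 : ℝ) ^ p) * (1 / 2 : ℝ) ^ p ≤
              |c1 + 2 * c3 * (i0 * (1 / 2 : ℝ) ^ p)| * (1 / 2 : ℝ) ^ p := by linarith
          exact le_of_mul_le_mul_right this hp
        have k4 : |c1 + 2 * c3 * (i0 * (1 / 2 : ℝ) ^ p)| ≤ v + v' := by linarith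
        calc |c1 + 2 * c3 * (i0 * (1 / 2 : ℝ) ^ p)| * (1 / 2 : ℝ) ^ p * ((X' - X) * 2 ^ p)
            = (X' - X) * |c1 + 2 * c3 * (i0 * (1 / 2 : ℝ) ^ p)| * (2 ^ p * (1 / 2 : ℝ) ^ p) := by ring
          _ = (X' - X) * |c1 + 2 * c3 * (i0 * (1 / 2 : ℝ) ^ p)| := by rw [p2, mul_one]
          _ ≤ (X' - X) * (v + v') := mul_le_mul_of_nonneg_left k4 hXX
          _ = _ := by ring
      · have : 0 ≤ v + v' := add_nonneg h4 h4'
        positivity
      · have : (0 : ℝ) ≤ t * (Z' - Z) := le_trans (by positivity) gZ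
        positivity
      · calc (r0 : ℝ) * (1 / 2 : ℝ) ^ m = (r0 * (1 / 2 : ℝ) ^ (q + m)) * 2 ^ q := by
              rw [pow_add]
              calc (r0 : ℝ) * (1 / 2 : ℝ) ^ m = r0 * (1 / 2 : ℝ) ^ m * (2 ^ q * (1 / 2 : ℝ) ^ q) := by rw [q2, mul_one]
                _ = _ := by ring
          _ ≤ _ := mul_le_mul_of_nonneg_right gZ (by positivity)
      · calc (r0 : ℝ) * (1 / 2 : ℝ) ^ m = (r0 * (1 / 2 : ℝ) ^ (p + m)) * 2 ^ p := by
              rw [pow_add]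
              calc (r0 : ℝ) * (1 / 2 : ℝ) ^ m = r0 * (1 / 2 : ℝ) ^ m * (2 ^ p * (1 / 2 : ℝ) ^ p) := by rw [p2, mul_one]
                _ = _ := by ring
          _ ≤ _ := mul_le_mul_of_nonneg_right gX (by positivity)
    rw [hr0] at hcon
    push_cast at hcon
    omega
  obtain ⟨lo, hlo⟩ : ∃ lo : ℤ, ∀ r ∈ Ks, fl1 (p + m) r.1 - t * fl1 (q + m) r.2 ∈ Ico lo (lo + 2 * 2 ^ m) := by
    have hpm : (0 : ℤ) < 2 ^ m := by positivity
    rcases ht with h | h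
    · refine ⟨(i0 - j0 - 1) * 2 ^ m, ?_⟩
      rintro ⟨X, Z⟩ ⟨h1, h2, -, -⟩
      have g1 := fl1_fine p m X
      have g2 := fl1_fine q m Z
      simp only at h1 h2 ⊢
      rw [h1, mem_Ico] at g1
      rw [h2, mem_Ico] at g2
      rw [h, mem_Ico]
      constructor <;> nlinarith
    · refine ⟨(i0 + j0) * 2 ^ m, ?_⟩
      rintro ⟨X, Z⟩ ⟨h1, h2, -, -⟩
      have g1 := fl1_fine p m X
      have g2 := fl1_fine q m Z
      simp only at h1 h2 ⊢
      rw [h1, mem_Ico] at g1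
      rw [h2, mem_Ico] at g2
      rw [h, mem_Ico]
      constructor <;> nlinarith
  obtain ⟨U, hU, hU'⟩ := cover2 (K := Ks) (N := 8 * K + 2) (Ico lo (lo + 2 * 2 ^ m)) (fun r => fl1 (p + m) r.1)
    (fun r => fl1 (p + m) r.1 - t * fl1 (q + m) r.2) hlo (fun r hr r' hr' e1 => by
      rw [abs_le]
      have k1 := key r hr r' hr' e1
      have k2 := key r' hr' r hr e1.symm
      constructor <;> linarith)
  refine ⟨U.image fun u => (u.1, t * (u.1 - u.2)), card_image_le.trans (hU.trans (le_of_eq ?_)), fun X Z h1 h2 h3 h4 => ?_⟩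
  · rw [Int.card_Ico]
    have : lo + 2 * 2 ^ m - lo = ((2 * 2 ^ m : ℕ) : ℤ) := by push_cast; ring
    rw [this, Int.toNat_natCast]
    ring
  · have := hU' (X, Z) ⟨h1, h2, h3, h4⟩
    refine mem_image.2 ⟨_, this, ?_⟩
    simp only
    ext
    · rfl
    · simp only
      linear_combination (fl1 (q + m) Z) * ht2'

/-- **a parabolic strip meets few cells**, vertex included -/
theorem qstrip (K : ℕ) {p q m : ℕ} {c0 c1 c2 c3 e : ℝ} (i0 j0 : ℤ)
    (hM : 0 < max (|c1 + 2 * c3 * (i0 * (1 / 2 : ℝ) ^ p)| * (1 / 2 : ℝ) ^ p)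
      (max (|c2| * (1 / 2 : ℝ) ^ q) (|c3| * (1 / 4 : ℝ) ^ p)))
    (he : e ≤ K * max (|c1 + 2 * c3 * (i0 * (1 / 2 : ℝ) ^ p)| * (1 / 2 : ℝ) ^ p)
      (max (|c2| * (1 / 2 : ℝ) ^ q) (|c3| * (1 / 4 : ℝ) ^ p)) * (1 / 4 : ℝ) ^ m) :
    ∃ U : Finset (ℤ × ℤ), U.card ≤ 2 ^ m * (64 * K + 20) ∧ ∀ X Z : ℝ, fl1 p X = i0 → fl1 q Z = j0 →
      |c0 + c1 * X + c2 * Z + c3 * X ^ 2| ≤ e → (fl1 (p + m) X, fl1 (q + m) Z) ∈ U := by
  classical
  obtain ⟨t, ht, hst⟩ : ∃ t : ℤ, (t = 1 ∨ t = -1) ∧ 0 ≤ (1 : ℝ) * t * c2 := by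
    rcases le_total 0 c2 with h | h
    · exact ⟨1, Or.inl rfl, by push_cast; linarith⟩
    · exact ⟨-1, Or.inr rfl, by push_cast; linarith⟩
  obtain ⟨U, hU, hU'⟩ := qstrip_half K (c0 := c0) i0 j0 1 (Or.inl rfl) t ht hst hM he
  obtain ⟨V, hV, hV'⟩ := qstrip_half K (c0 := c0) i0 j0 (-1) (Or.inr rfl) (-t)
    (by rcases ht with h | h <;> simp [h]) (by push_cast; linarith) hM he
  refine ⟨U ∪ V, (card_union_le _ _).trans (by linarith), fun X Z h1 h2 h3 => ?_⟩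
  rw [mem_union]
  rcases le_total 0 (c1 + 2 * c3 * X) with h | h
  · exact Or.inl (hU' X Z h1 h2 h3 (by linarith))
  · exact Or.inr (hV' X Z h1 h2 h3 (by linarith))

end Vale.Agent.P106.U.Cov
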