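import Vale.Agent.P127.U.H514.Runs

/-!
# P106 / U : the rising sun lemma on a path (helper119)

`Th ⊆ range n` are the thin indices, `Runs.nxt Th n i` the next thin index (or `n`), `J i` the number of r-steps of the
window `[i, nxt i)`, `L ⊆ Th` the long ones.  `St u c` : the stopping relation, in the application
`r c - r u ≤ 2 C (a c - a u)`.

* `rsun` : if on every shadow interval `[u, v)` (`u ∈ L`, `St u c` fails for all thin `c` in between, and `v = n` or
  `St u v`) the increment of `R` is at most the sum of the weights, then the total length of the long runs is at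
  most the sum of all weights.
* `rsun_path` : the same for the paths of P127 in the form `#{i < n | a (i + M) = a i} ≤ ∑ w`.
-/

set_option autoImplicit false

namespace Vale.Agent.P106.RSun

open Finset Vale.Agent.P127.U.Runs

/-- the first thin index after `u` (or `n`) at which `St u` holds -/
theorem exists_stop (Th : Finset ℕ) (n : ℕ) (St : ℕ → Prop) {u : ℕ} (hu : u < n) :
    ∃ v, u < v ∧ v ≤ n ∧ (v ∈ Th ∨ v = n) ∧ (∀ c ∈ Th, u < c → c < v → ¬ St c) ∧ (v = n ∨ St v) := by
  classical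
  have hex : ∃ v, u < v ∧ (v = n ∨ (v ∈ Th ∧ v ≤ n ∧ St v)) := ⟨n, hu, Or.inl rfl⟩
  refine ⟨Nat.find hex, (Nat.find_spec hex).1, ?_, ?_, ?_, ?_⟩
  · rcases (Nat.find_spec hex).2 with h | h
    · exact h.le
    · exact h.2.1
  · rcases (Nat.find_spec hex).2 with h | h
    · exact Or.inr h
    · exact Or.inl h.1
  · intro c hc h1 h2 h3
    have h4 := Nat.find_min hex h2
    apply h4
    refine ⟨h1, Or.inr ⟨hc, ?_, h3⟩⟩
    have h5 : Nat.find hex ≤ n := Nat.find_min' hex ⟨hu, Or.inl rfl⟩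
    omega
  · rcases (Nat.find_spec hex).2 with h | h
    · exact Or.inl h
    · exact Or.inr h.2.2

variable {Th L : Finset ℕ} {n : ℕ} {J R w : ℕ → ℝ} {St : ℕ → ℕ → Prop}

/-- windows of thin indices inside `[u, v)` -/
theorem sum_win (hR : ∀ i ∈ Th, J i ≤ R (nxt Th n i) - R i)
    (hm : ∀ i j, i ≤ j → j ≤ n → R i ≤ R j) : ∀ k u v : ℕ, v = u + k → v ≤ n → (v ∈ Th ∨ v = n) →
    ∀ S ⊆ Th, (∀ i ∈ S, u ≤ i ∧ i < v) → ∑ i ∈ S, J i ≤ R v - R u := by
  classical
  intro k
  induction k using Nat.strong_induction_on with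
  | _ k ih =>
    intro u v hv hvn hvt S hS hSi
    rcases S.eq_empty_or_nonempty with h0 | h0
    · subst h0
      rw [Finset.sum_empty]
      have := hm u v (by omega) hvn
      linarith
    set i0 := S.min' h0 with hi0
    have h1 : i0 ∈ S := S.min'_mem h0
    obtain ⟨h2, h3⟩ := hSi i0 h1
    have h4 : nxt Th n i0 ≤ v := nxt_le_of h3 (by
      rcases hvt with h | h
      · exact Or.inl h
      · exact Or.inr h.ge)
    have h5 := lt_nxt Th n i0
    have h6 : ∑ i ∈ S.erase i0, J i ≤ R v - R (nxt Th n i0) := by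
      refine ih (v - nxt Th n i0) (by omega) (nxt Th n i0) v (by omega) hvn hvt _
        (fun i hi => hS (Finset.mem_of_mem_erase hi)) ?_
      intro i hi
      refine ⟨?_, (hSi i (Finset.mem_of_mem_erase hi)).2⟩
      have h7 : i0 ≤ i := S.min'_le i (Finset.mem_of_mem_erase hi)
      have h8 : i ≠ i0 := Finset.ne_of_mem_erase hi
      exact nxt_le_of (by omega) (Or.inl (hS (Finset.mem_of_mem_erase hi)))
    rw [← Finset.add_sum_erase S J h1]
    have h9 := hR i0 (hS h1)
    have h10 := hm u i0 h2 (by omega)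
    linarith

/-- **rising sun lemma** -/
theorem rsun (hTn : ∀ i ∈ Th, i < n) (hL : L ⊆ Th) (hw : ∀ i ∈ Th, 0 ≤ w i)
    (hR : ∀ i ∈ Th, J i ≤ R (nxt Th n i) - R i) (hm : ∀ i j, i ≤ j → j ≤ n → R i ≤ R j)
    (H : ∀ u ∈ L, ∀ v, u < v → v ≤ n → (v ∈ Th ∨ v = n) → (∀ c ∈ Th, u < c → c < v → ¬ St u c) →
      (v = n ∨ St u v) → R v - R u ≤ ∑ i ∈ Th.filter (fun i => u ≤ i ∧ i < v), w i) :
    ∑ i ∈ L, J i ≤ ∑ i ∈ Th, w i := by
  classical
  have key : ∀ k s : ℕ, s + k = n →
      ∑ i ∈ L.filter (fun i => s ≤ i), J i ≤ ∑ i ∈ Th.filter (fun i => s ≤ i), w i := by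
    intro k
    induction k using Nat.strong_induction_on with
    | _ k ih =>
      intro s hs
      rcases (L.filter (fun i => s ≤ i)).eq_empty_or_nonempty with h0 | h0
      · rw [h0, Finset.sum_empty]
        exact Finset.sum_nonneg fun i hi => hw i (Finset.mem_filter.1 hi).1
      set u := (L.filter (fun i => s ≤ i)).min' h0 with hu
      have h1 : u ∈ L.filter (fun i => s ≤ i) := Finset.min'_mem _ h0
      obtain ⟨h2, h3⟩ := Finset.mem_filter.1 h1
      have h4 := hTn u (hL h2)
      obtain ⟨v, e1, e2, e3, e4, e5⟩ := exists_stop Th n (St u) h4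
      have h5 := H u h2 v e1 e2 e3 e4 e5
      have h6 := ih (n - v) (by omega) v (by omega)
      have h7 : L.filter (fun i => s ≤ i) = L.filter (fun i => u ≤ i ∧ i < v) ∪ L.filter (fun i => v ≤ i) := by
        ext i
        simp only [Finset.mem_union, Finset.mem_filter]
        constructor
        · rintro ⟨g1, g2⟩
          have g3 : u ≤ i := Finset.min'_le _ _ (Finset.mem_filter.2 ⟨g1, g2⟩)
          rcases lt_or_ge i v with g4 | g4
          · exact Or.inl ⟨g1, g3, g4⟩
          · exact Or.inr ⟨g1, g4⟩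
        · rintro (⟨g1, g2, -⟩ | ⟨g1, g2⟩)
          · exact ⟨g1, by omega⟩
          · exact ⟨g1, by omega⟩
      have h8 : Disjoint (L.filter (fun i => u ≤ i ∧ i < v)) (L.filter (fun i => v ≤ i)) := by
        rw [Finset.disjoint_left]
        intro i g1 g2
        have := (Finset.mem_filter.1 g1).2.2
        have := (Finset.mem_filter.1 g2).2
        omega
      have h9 : ∑ i ∈ L.filter (fun i => u ≤ i ∧ i < v), J i ≤ R v - R u := by
        refine sum_win hR hm (v - u) u v (by omega) e2 e3 _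
          (fun i hi => hL (Finset.mem_filter.1 hi).1) fun i hi => (Finset.mem_filter.1 hi).2
      have h10 : ∑ i ∈ Th.filter (fun i => u ≤ i ∧ i < v), w i + ∑ i ∈ Th.filter (fun i => v ≤ i), w i ≤
          ∑ i ∈ Th.filter (fun i => s ≤ i), w i := by
        have g8 : Disjoint (Th.filter (fun i => u ≤ i ∧ i < v)) (Th.filter (fun i => v ≤ i)) := by
          rw [Finset.disjoint_left]
          intro i g1 g2
          have := (Finset.mem_filter.1 g1).2.2
          have := (Finset.mem_filter.1 g2).2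
          omega
        rw [← Finset.sum_union g8]
        refine Finset.sum_le_sum_of_subset_of_nonneg ?_ fun i hi _ => hw i (Finset.mem_filter.1 hi).1
        intro i hi
        rcases Finset.mem_union.1 hi with g | g
        · have := (Finset.mem_filter.1 g).2
          exact Finset.mem_filter.2 ⟨(Finset.mem_filter.1 g).1, by omega⟩
        · have := (Finset.mem_filter.1 g).2
          exact Finset.mem_filter.2 ⟨(Finset.mem_filter.1 g).1, by omega⟩
      rw [h7, Finset.sum_union h8]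
      linarith
  have h0 := key n 0 (by omega)
  have e1 : L.filter (fun i => 0 ≤ i) = L := Finset.filter_true_of_mem fun i _ => Nat.zero_le i
  have e2 : Th.filter (fun i => 0 ≤ i) = Th := Finset.filter_true_of_mem fun i _ => Nat.zero_le i
  rwa [e1, e2] at h0

variable {a r : ℕ → ℕ} {m M : ℕ}

theorem mono_r (h : Thn a r m n Th) {i j : ℕ} (hij : i ≤ j) (hj : j ≤ n) : r i ≤ r j := by
  obtain ⟨k, rfl⟩ := Nat.exists_eq_add_of_le hij
  clear hij
  induction k with
  | zero => exact le_rfl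
  | succ k ih =>
    refine (ih (by omega)).trans ?_
    rcases h.blk (i + k) (by omega) with h1 | h1
    · rw [← add_assoc, h1.2]
    · rw [← add_assoc, h1.2]
      exact Nat.le_add_right _ _

/-- **long runs of a path** by the rising sun lemma -/
theorem rsun_path (h : Thn a r m n Th) (hm : 1 ≤ m) (hM : 1 ≤ M) (hw : ∀ i ∈ Th, 0 ≤ w i)
    (H : ∀ u ∈ Th, M ≤ Vale.Agent.P127.U.Runs.J a Th n u → ∀ v, u < v → v ≤ n → (v ∈ Th ∨ v = n) →
      (∀ c ∈ Th, u < c → c < v → ¬ St u c) → (v = n ∨ St u v) →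
      ((r v : ℝ) - r u) / m ≤ ∑ i ∈ Th.filter (fun i => u ≤ i ∧ i < v), w i) :
    (((range n).filter fun i => a (i + M) = a i).card : ℝ) ≤ ∑ i ∈ Th, w i := by
  classical
  have hm0 : (0 : ℝ) < m := by exact_mod_cast hm
  have h1 := h.runs_le hM
  have h2 : (((range n).filter fun i => a (i + M) = a i).card : ℝ) ≤
      ∑ i ∈ Th.filter (fun i => M ≤ Vale.Agent.P127.U.Runs.J a Th n i),
        ((Vale.Agent.P127.U.Runs.J a Th n i : ℕ) : ℝ) := by exact_mod_cast h1
  refine h2.trans ?_
  refine rsun (R := fun i => (r i : ℝ) / m) (St := St) (n := n) (fun i hi => mem_range.1 (h.sub hi))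
    (Finset.filter_subset _ _) hw ?_ ?_ ?_
  · intro i hi
    have h3 := h.r_nxt hm hi
    have h4 : ((r (nxt Th n i) : ℕ) : ℝ) = r i + m * (Vale.Agent.P127.U.Runs.J a Th n i : ℕ) := by
      rw [h3]; push_cast; ring
    rw [h4]
    apply le_of_eq
    field_simp
    ring
  · intro i j hij hj
    have h3 : (r i : ℝ) ≤ r j := by exact_mod_cast mono_r h hij hj
    gcongr
  · intro u hu v e1 e2 e3 e4 e5
    obtain ⟨g1, g2⟩ := Finset.mem_filter.1 hu
    have h3 := H u g1 g2 v e1 e2 e3 e4 e5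
    have h4 : (r v : ℝ) / m - (r u : ℝ) / m = ((r v : ℝ) - r u) / m := by ring
    rw [h4]
    exact h3

/-- **numbers** : on a shadow interval with a long first run either the defect is at least `g ρ - c₀`, where `ρ` is
the rise in blocks, or the rise is at most `A` times the relative entropies -/
theorem rsun_num (h : Thn a r m n Th) (hm : 1 ≤ m) (hM : 1 ≤ M) (df kp ι : ℕ → ℝ)
    {g c₀ err A DEL KAP IOTA : ℝ} (hg : 0 < g) (hA : 0 ≤ A) (herr : 0 ≤ err) (hMc : 2 * c₀ ≤ g * M)
    (hdf : ∀ i ∈ Th, - err ≤ df i) (hkp : ∀ i ∈ Th, 0 ≤ kp i) (hι : ∀ i ∈ Th, 0 ≤ ι i)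
    (hD : ∑ i ∈ Th, df i ≤ DEL) (hK : ∑ i ∈ Th, kp i ≤ KAP) (hI : ∑ i ∈ Th, ι i ≤ IOTA)
    (H : ∀ u ∈ Th, M ≤ Vale.Agent.P127.U.Runs.J a Th n u → ∀ v, u < v → v ≤ n → (v ∈ Th ∨ v = n) →
      (∀ c ∈ Th, u < c → c < v → ¬ St u c) → (v = n ∨ St u v) →
      g * (((r v : ℝ) - r u) / m) - c₀ ≤ ∑ i ∈ Th.filter (fun i => u ≤ i ∧ i < v), df i ∨
        ((r v : ℝ) - r u) / m ≤ A * ∑ i ∈ Th.filter (fun i => u ≤ i ∧ i < v), (kp i + ι i + 2)) :
    (((range n).filter fun i => a (i + M) = a i).card : ℝ) ≤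
      2 / g * (DEL + err * Th.card) + A * (KAP + IOTA + 2 * Th.card) := by
  classical
  have hm0 : (0 : ℝ) < m := by exact_mod_cast hm
  have hwn : ∀ i ∈ Th, 0 ≤ 2 / g * (df i + err) + A * (kp i + ι i + 2) := by
    intro i hi
    have a1 : 0 ≤ 2 / g * (df i + err) := mul_nonneg (by positivity) (by linarith [hdf i hi])
    have a2 : 0 ≤ A * (kp i + ι i + 2) := mul_nonneg hA (by linarith [hkp i hi, hι i hi])
    linarith
  have h1 := rsun_path (St := St) h hm hM hwn (by
    intro u hu hJ v e1 e2 e3 e4 e5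
    set F := Th.filter (fun i => u ≤ i ∧ i < v) with hF
    have hFT : ∀ i ∈ F, i ∈ Th := fun i hi => (Finset.mem_filter.1 hi).1
    have b1 : 0 ≤ ∑ i ∈ F, (2 / g * (df i + err)) := Finset.sum_nonneg fun i hi =>
      mul_nonneg (by positivity) (by linarith [hdf i (hFT i hi)])
    have b2 : 0 ≤ ∑ i ∈ F, (A * (kp i + ι i + 2)) := Finset.sum_nonneg fun i hi =>
      mul_nonneg hA (by linarith [hkp i (hFT i hi), hι i (hFT i hi)])
    rw [Finset.sum_add_distrib]
    rcases H u hu hJ v e1 e2 e3 e4 e5 with h3 | h3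
    · -- the rise is at least the first run
      have c1 : u < n := mem_range.1 (h.sub hu)
      have c2 : nxt Th n u ≤ v := nxt_le_of e1 (by
        rcases e3 with h4 | h4
        · exact Or.inl h4
        · exact Or.inr h4.ge)
      have c3 := h.r_nxt hm hu
      have c4 := mono_r h c2 e2
      have c5 : (M : ℝ) ≤ ((r v : ℝ) - r u) / m := by
        rw [le_div_iff₀ hm0]
        have c6 : ((r u : ℕ) : ℝ) + m * (Vale.Agent.P127.U.Runs.J a Th n u : ℕ) ≤ r v := by
          rw [c3] at c4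
          exact_mod_cast c4
        have c7 : (M : ℝ) ≤ (Vale.Agent.P127.U.Runs.J a Th n u : ℕ) := by exact_mod_cast hJ
        have c8 : (M : ℝ) * m ≤ m * (Vale.Agent.P127.U.Runs.J a Th n u : ℕ) := by
          rw [mul_comm]
          gcongr
        linarith
      set ρ : ℝ := ((r v : ℝ) - r u) / m with hρ
      have c9 : g * M ≤ g * ρ := mul_le_mul_of_nonneg_left c5 hg.le
      have c10 : g * ρ / 2 ≤ ∑ i ∈ F, (df i + err) := by
        rw [Finset.sum_add_distrib]
        have : 0 ≤ ∑ i ∈ F, err := Finset.sum_nonneg fun _ _ => herr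
        linarith
      have c11 : ρ = 2 / g * (g * ρ / 2) := by field_simp
      have c12 : 2 / g * (g * ρ / 2) ≤ 2 / g * ∑ i ∈ F, (df i + err) :=
        mul_le_mul_of_nonneg_left c10 (by positivity)
      rw [Finset.mul_sum] at c12
      linarith
    · rw [Finset.mul_sum] at h3
      linarith)
  refine h1.trans ?_
  have h2 : ∑ i ∈ Th, (2 / g * (df i + err) + A * (kp i + ι i + 2)) =
      2 / g * (∑ i ∈ Th, df i + err * Th.card) +
        A * (∑ i ∈ Th, kp i + ∑ i ∈ Th, ι i + 2 * Th.card) := by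
    rw [Finset.sum_add_distrib, ← Finset.mul_sum, ← Finset.mul_sum, Finset.sum_add_distrib,
      Finset.sum_add_distrib, Finset.sum_add_distrib, Finset.sum_const, Finset.sum_const,
      nsmul_eq_mul, nsmul_eq_mul]
    ring
  have h3 : 2 / g * (∑ i ∈ Th, df i + err * Th.card) ≤ 2 / g * (DEL + err * Th.card) :=
    mul_le_mul_of_nonneg_left (by linarith) (by positivity)
  have h4 : A * (∑ i ∈ Th, kp i + ∑ i ∈ Th, ι i + 2 * Th.card) ≤ A * (KAP + IOTA + 2 * Th.card) :=
    mul_le_mul_of_nonneg_left (by linarith) hA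
  linarith

end Vale.Agent.P106.RSun
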