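import Vale.Agent.P106.U.Cov

/-!
# P106 / U : a strip meets few cells (helper543)

`strip` : given the coarse cell (`p` digits of `X`, `q` digits of `Z`), the points with `|A X + B Z + c| ≤ e` meet at most
`C 2^m` of the `2^(2 m)` fine cells (`p + m`, `q + m` digits), if `e` is at most the variation of `A X + B Z` over a fine cell.
-/

set_option autoImplicit false

namespace Vale.Agent.P106.U.Cov

open Finset Vale.Agent.P127.Stk Vale.Agent.P127.U

theorem fl1_fine (q m : ℕ) (z : ℝ) : fl1 (q + m) z ∈ Ico (fl1 q z * 2 ^ m) ((fl1 q z + 1) * 2 ^ m) := by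
  unfold fl1
  have h1 : (0 : ℝ) < 2 ^ m := by positivity
  have h2 := Int.floor_le ((2:ℝ) ^ q * z)
  have h3 := Int.lt_floor_add_one ((2:ℝ) ^ q * z)
  rw [mem_Ico, Int.le_floor, Int.floor_lt]
  push_cast
  rw [pow_add]
  constructor <;> nlinarith

/-- counting of pairs with a free index -/
theorem cover2 {X : Type} [Inhabited X] {K : Set X} {N : ℕ} (I : Finset ℤ) (a b : X → ℤ) (hi : ∀ r ∈ K, b r ∈ I)
    (ha : ∀ r ∈ K, ∀ r' ∈ K, b r = b r' → |a r - a r'| ≤ N) :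
    ∃ U : Finset (ℤ × ℤ), U.card ≤ I.card * (2 * N + 1) ∧ ∀ r ∈ K, (a r, b r) ∈ U := by
  classical
  have hB : ∀ j : ℤ, ∃ t : X, ∀ r ∈ K, b r = j → t ∈ K ∧ b t = j := by
    intro j
    by_cases h : ∃ r ∈ K, b r = j
    · obtain ⟨t, ht, ht'⟩ := h
      exact ⟨t, fun _ _ _ => ⟨ht, ht'⟩⟩
    · exact ⟨default, fun r hr hr' => (h ⟨r, hr, hr'⟩).elim⟩
  choose B hB using hB
  refine ⟨I.biUnion fun j => (Icc (a (B j) - N) (a (B j) + N)).image fun k => (k, j), ?_, ?_⟩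
  · refine card_biUnion_le_card_mul _ _ _ fun j _ => card_image_le.trans ?_
    rw [Int.card_Icc]
    omega
  · intro r hr
    rw [mem_biUnion]
    obtain ⟨hbK, hbi⟩ := hB (b r) r hr rfl
    have h3 := ha r hr _ hbK hbi.symm
    rw [abs_le] at h3
    refine ⟨b r, hi r hr, mem_image.2 ⟨a r, ?_, rfl⟩⟩
    rw [mem_Icc]
    exact ⟨by linarith, by linarith⟩

/-- one coordinate dominates -/
theorem strip_one (K : ℕ) {p q m : ℕ} {A B c e : ℝ} (hA : 0 < |A|) (hAB : |B| * (1 / 2 : ℝ) ^ q ≤ |A| * (1 / 2 : ℝ) ^ p)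
    (he : e ≤ K * (|A| * (1 / 2 : ℝ) ^ p) * (1 / 2 : ℝ) ^ m) (j0 : ℤ) :
    ∃ U : Finset (ℤ × ℤ), U.card ≤ 2 ^ m * (2 * (2 * K + 2) + 1) ∧ ∀ X Z : ℝ, fl1 q Z = j0 →
      |A * X + B * Z + c| ≤ e → (fl1 (p + m) X, fl1 (q + m) Z) ∈ U := by
  classical
  obtain ⟨U, hU, hU'⟩ := cover2 (X := ℝ × ℝ) (K := {r | fl1 q r.2 = j0 ∧ |A * r.1 + B * r.2 + c| ≤ e}) (N := 2 * K + 2)
    (Ico (j0 * 2 ^ m) ((j0 + 1) * 2 ^ m)) (fun r => fl1 (p + m) r.1) (fun r => fl1 (q + m) r.2)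
    (fun r hr => by
      have := fl1_fine q m r.2
      rwa [hr.1] at this)
    (fun r hr r' hr' e1 => by
      have h1 := fl1_close e1
      have h2 : |A * (r.1 - r'.1)| ≤ 2 * e + |B| * (1 / 2 : ℝ) ^ (q + m) := by
        have e2 : A * (r.1 - r'.1) = (A * r.1 + B * r.2 + c) - (A * r'.1 + B * r'.2 + c) - B * (r.2 - r'.2) := by ring
        rw [e2]
        refine (abs_sub _ _).trans (add_le_add ((abs_sub _ _).trans ?_) ?_)
        · have := hr.2
          have := hr'.2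
          linarith
        · rw [abs_mul]
          exact mul_le_mul_of_nonneg_left h1 (abs_nonneg _)
      have h3 : |A * (r.1 - r'.1)| ≤ |A| * ((2 * K + 1) * (1 / 2 : ℝ) ^ (p + m)) := by
        refine h2.trans ?_
        rw [pow_add, pow_add]
        have h4 : |B| * ((1 / 2 : ℝ) ^ q * (1 / 2 : ℝ) ^ m) ≤ |A| * (1 / 2 : ℝ) ^ p * (1 / 2 : ℝ) ^ m := by
          rw [← mul_assoc]
          exact mul_le_mul_of_nonneg_right hAB (by positivity)
        calc 2 * e + |B| * ((1 / 2 : ℝ) ^ q * (1 / 2 : ℝ) ^ m)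
            ≤ 2 * (K * (|A| * (1 / 2 : ℝ) ^ p) * (1 / 2 : ℝ) ^ m) + |A| * (1 / 2 : ℝ) ^ p * (1 / 2 : ℝ) ^ m := by linarith
          _ = _ := by ring
      rw [abs_mul] at h3
      have h5 : |r.1 - r'.1| ≤ ((2 * K + 1 : ℕ) : ℝ) * (1 / 2 : ℝ) ^ (p + m) := by
        push_cast
        exact le_of_mul_le_mul_left h3 hA
      have h6 := fl1_sub_le h5
      push_cast at h6 ⊢
      linarith)
  refine ⟨U, hU.trans (le_of_eq ?_), fun X Z hZ hX => hU' (X, Z) ⟨hZ, hX⟩⟩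
  congr 1
  rw [Int.card_Ico]
  have : (j0 + 1) * 2 ^ m - j0 * 2 ^ m = ((2 ^ m : ℕ) : ℤ) := by push_cast; ring
  rw [this, Int.toNat_natCast]

/-- **a strip meets few cells** -/
theorem strip (K : ℕ) {p q m : ℕ} {A B c e : ℝ} (h0 : 0 < |A| ∨ 0 < |B|)
    (he : e ≤ K * max (|A| * (1 / 2 : ℝ) ^ p) (|B| * (1 / 2 : ℝ) ^ q) * (1 / 2 : ℝ) ^ m) (i0 j0 : ℤ) :
    ∃ U : Finset (ℤ × ℤ), U.card ≤ 2 ^ m * (4 * K + 5) ∧ ∀ X Z : ℝ, fl1 p X = i0 → fl1 q Z = j0 →
      |A * X + B * Z + c| ≤ e → (fl1 (p + m) X, fl1 (q + m) Z) ∈ U := by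
  classical
  have hp : (0 : ℝ) < (1 / 2 : ℝ) ^ p := by positivity
  have hq : (0 : ℝ) < (1 / 2 : ℝ) ^ q := by positivity
  rcases le_total (|B| * (1 / 2 : ℝ) ^ q) (|A| * (1 / 2 : ℝ) ^ p) with h | h
  · have hA : 0 < |A| := by
      rcases h0 with h0 | h0
      · exact h0
      · by_contra hc
        have h1 : |A| = 0 := le_antisymm (not_lt.1 hc) (abs_nonneg _)
        rw [h1, zero_mul] at h
        exact absurd (mul_pos h0 hq) (not_lt.2 h)
    rw [max_eq_left h] at he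
    obtain ⟨U, hU, hU'⟩ := strip_one K (c := c) hA h he j0
    exact ⟨U, hU.trans (le_of_eq (by ring)), fun X Z _ hZ hX => hU' X Z hZ hX⟩
  · have hB : 0 < |B| := by
      rcases h0 with h0 | h0
      · by_contra hc
        have h1 : |B| = 0 := le_antisymm (not_lt.1 hc) (abs_nonneg _)
        rw [h1, zero_mul] at h
        exact absurd (mul_pos h0 hp) (not_lt.2 h)
      · exact h0
    rw [max_eq_right h] at he
    obtain ⟨U, hU, hU'⟩ := strip_one K (c := c) hB h he i0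
    refine ⟨U.image Prod.swap, card_image_le.trans (hU.trans (le_of_eq (by ring))), fun X Z hX _ hZ => ?_⟩
    refine mem_image.2 ⟨(fl1 (q + m) Z, fl1 (p + m) X), hU' Z X hX ?_, rfl⟩
    rw [add_comm (B * Z) (A * X)]
    exact hZ

end Vale.Agent.P106.U.Cov
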